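import Crest.Agent.N233.Pc.Defs

/-!
# Row 233 (helper67): gluing copies of a manifold with walls
-/

set_option autoImplicit false
open Set unitInterval Topology

noncomputable section

namespace Crest.Agent.N233.Pc

/-- the other side -/
def op {Ed : Type} (j : Ed × Bool) : Ed × Bool := (j.1, !j.2)

@[simp] theorem op_op {Ed : Type} (j : Ed × Bool) : op (op j) = j := by simp [op]

theorem op_ne {Ed : Type} (j : Ed × Bool) : op j ≠ j := by
  rcases j with ⟨e, b⟩; cases b <;> simp [op]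

theorem LE.of_emb {H X Y : Type} [TopologicalSpace H] [TopologicalSpace X] [TopologicalSpace Y]
    {x : X} (h : LE H x) {U : Set X} (hU : IsOpen U) (hx : x ∈ U) {f : X → Y}
    (hc : ContinuousOn f U) (hi : InjOn f U) (ho : ∀ O, IsOpen O → O ⊆ U → IsOpen (f '' O)) :
    LE H (f x) := by
  obtain ⟨e, he⟩ := h
  have : Nonempty X := ⟨x⟩
  let c : OpenPartialHomeomorph X Y :=
    { hi.toPartialEquiv f U with
      open_source := hU
      open_target := ho U hU subset_rfl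
      continuousOn_toFun := hc
      continuousOn_invFun := by
        refine (continuousOn_open_iff (ho U hU subset_rfl)).2 fun O hO => ?_
        have : (f '' U) ∩ Function.invFunOn f U ⁻¹' O = f '' (U ∩ O) := by
          ext y
          constructor
          · rintro ⟨⟨z, hz, rfl⟩, h2⟩
            rw [mem_preimage, hi.leftInvOn_invFunOn hz] at h2
            exact ⟨z, ⟨hz, h2⟩, rfl⟩
          · rintro ⟨z, ⟨hz, h2⟩, rfl⟩
            exact ⟨⟨z, hz, rfl⟩, by rwa [mem_preimage, hi.leftInvOn_invFunOn hz]⟩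
        exact this ▸ ho _ (hU.inter hO) inter_subset_left }
  refine ⟨c.symm.trans e, c.map_source (x := x) hx, ?_⟩
  show c.symm (c x) ∈ e.source
  rwa [c.left_inv hx]

/-- an atlas from local models -/
@[reducible] def charted {H X : Type} [TopologicalSpace H] [TopologicalSpace X] (h : ∀ x : X, LE H x) :
    ChartedSpace H X where
  atlas := univ
  chartAt x := (h x).choose
  mem_chart_source x := (h x).choose_spec
  chart_mem_atlas _ := mem_univ _

theorem finite_fst {F E : Type} [TopologicalSpace E] {K : Set (Σ _ : F, E)} (hK : IsCompact K) :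
    {f | ∃ x, (⟨f, x⟩ : Σ _ : F, E) ∈ K}.Finite := by
  obtain ⟨t, ht⟩ := hK.elim_finite_subcover (fun f : F => range (Sigma.mk f))
    (fun _ => isOpen_range_sigmaMk) fun x _ => mem_iUnion.2 ⟨x.1, x.2, rfl⟩
  refine t.finite_toSet.subset ?_
  rintro f ⟨x, hx⟩
  obtain ⟨f', hf', y, hy⟩ := mem_iUnion₂.1 (ht hx)
  obtain rfl : f' = f := congrArg Sigma.fst hy
  exact hf'

theorem continuous_mk' {F E : Type} [TopologicalSpace E] (f : F) :
    Continuous fun x : E => (⟨f, x⟩ : Σ _ : F, E) :=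
  @continuous_sigmaMk F (fun _ => E) _ f

namespace Wl

section one

variable {J : Type} (W : Wl J)

/-- the wall -/
def w (j : J) (v : VW) : W.E := W.κ j (v, 0)

theorem t_w (j : J) (v : VW) : W.t j (W.w j v) = 0 := W.tκ j v 0

theorem κ_eq {j j' : J} {v v' : VW} {s s' : I} (h : W.κ j (v, s) = W.κ j' (v', s')) (hs : s < 1)
    (hs' : s' < 1) : j = j' ∧ v = v' ∧ s = s' := by
  obtain rfl : j = j' := W.dis j j' (W.κ j (v, s)) (by rw [W.tκ]; exact hs)
    (by rw [h, W.tκ]; exact hs')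
  exact ⟨rfl, Prod.mk.inj ((W.emb j).injective h)⟩

theorem w_eq {j j' : J} {v v' : VW} (h : W.w j v = W.w j' v') : j = j' ∧ v = v' :=
  let a := W.κ_eq h zero_lt_one zero_lt_one; ⟨a.1, a.2.1⟩

theorem exists_w {j : J} {x : W.E} (h : W.t j x = 0) : ∃ v, W.w j v = x := by
  obtain ⟨v, s, rfl⟩ := W.κ_sur j x (by rw [h]; exact one_pos)
  rw [W.tκ] at h
  exact ⟨v, by rw [w, show s = 0 from Subtype.ext h]⟩

theorem range_w (j : J) : range (W.w j) = W.t j ⁻¹' {0} :=
  Set.ext fun _ => ⟨by rintro ⟨v, rfl⟩; exact W.t_w j v, fun h => W.exists_w h⟩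

theorem w_emb (j : J) : IsClosedEmbedding (W.w j) :=
  ⟨(W.emb j).comp (isEmbedding_prodMkLeft (0 : I)),
    by rw [range_w]; exact isClosed_singleton.preimage (W.t j).continuous⟩

theorem isOpen_κ (j : J) {O : Set (VW × I)} (hO : IsOpen O) (h : ∀ y ∈ O, y.2 < 1) :
    IsOpen (W.κ j '' O) := by
  obtain ⟨O', hO', rfl⟩ := (W.emb j).isInducing.isOpen_iff.1 hO
  have : W.κ j '' (W.κ j ⁻¹' O') = O' ∩ W.t j ⁻¹' Iio 1 := by
    ext x
    constructor
    · rintro ⟨⟨v, s⟩, hy, rfl⟩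
      exact ⟨hy, by rw [mem_preimage, W.tκ]; exact h _ hy⟩
    · rintro ⟨h1, h2⟩
      obtain ⟨v, s, rfl⟩ := W.κ_sur j x h2
      exact ⟨_, h1, rfl⟩
  exact this ▸ hO'.inter (isOpen_Iio.preimage (W.t j).continuous)

end one

variable {Ed F : Type} [Group F] (W : Wl (Ed × Bool)) (g : Ed × Bool → F)

/-- the gluing relation -/
def Rel (x y : Σ _ : F, W.E) : Prop :=
  x = y ∨ ∃ f j v, x = ⟨f * g j, W.w j v⟩ ∧ y = ⟨f * g (op j), W.w (op j) v⟩

omit [Group F] in
theorem mk_inj {E : Type} {f f' : F} {x x' : E} :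
    (⟨f, x⟩ : Σ _ : F, E) = ⟨f', x'⟩ ↔ f = f' ∧ x = x' := by simp

/-- as a setoid -/
def st : Setoid (Σ _ : F, W.E) where
  r := W.Rel g
  iseqv :=
    { refl := fun _ => Or.inl rfl
      symm := by
        rintro x y (rfl | ⟨f, j, v, rfl, rfl⟩)
        · exact Or.inl rfl
        · exact Or.inr ⟨f, op j, v, rfl, by rw [op_op]⟩
      trans := by
        rintro x y z (rfl | ⟨f, j, v, rfl, rfl⟩) h
        · exact h
        rcases h with rfl | ⟨f', j', v', h, rfl⟩
        · exact Or.inr ⟨f, j, v, rfl, rfl⟩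
        obtain ⟨h1, h2⟩ := mk_inj.1 h
        obtain ⟨rfl, rfl⟩ := W.w_eq h2
        obtain rfl := mul_right_cancel h1
        exact Or.inl (by rw [op_op]) }

/-- the glued space -/
def Gl : Type := Quotient (W.st g)

instance : TopologicalSpace (W.Gl g) := inferInstanceAs (TopologicalSpace (Quotient _))

/-- the projection -/
def q (x : Σ _ : F, W.E) : W.Gl g := Quotient.mk _ x

/-- the copy `f` -/
def cy (f : F) (x : W.E) : W.Gl g := W.q g ⟨f, x⟩

variable {W g}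

theorem q_quot : IsQuotientMap (W.q g) := isQuotientMap_quotient_mk'

theorem q_eq {x y : Σ _ : F, W.E} : W.q g x = W.q g y ↔ W.Rel g x y := Quotient.eq

theorem continuous_cy (f : F) : Continuous (W.cy g f) := q_quot.continuous.comp continuous_sigmaMk

theorem exists_cy (x : W.Gl g) : ∃ f y, W.cy g f y = x := by
  obtain ⟨⟨f, y⟩, rfl⟩ := q_quot.surjective x; exact ⟨f, y, rfl⟩

theorem cy_w (f : F) (j : Ed × Bool) (v : VW) :
    W.cy g (f * g j) (W.w j v) = W.cy g (f * g (op j)) (W.w (op j) v) :=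
  q_eq.2 (Or.inr ⟨f, j, v, rfl, rfl⟩)

theorem cy_eq {f f' : F} {x x' : W.E} : W.cy g f x = W.cy g f' x' ↔ (f = f' ∧ x = x') ∨
    ∃ f0 j v, f = f0 * g j ∧ x = W.w j v ∧ f' = f0 * g (op j) ∧ x' = W.w (op j) v := by
  simp only [cy, q_eq, Rel, mk_inj, and_assoc]

theorem continuous_iff {Y : Type} [TopologicalSpace Y] {φ : W.Gl g → Y} :
    Continuous φ ↔ ∀ f, Continuous fun x => φ (W.cy g f x) := by
  rw [q_quot.continuous_iff, continuous_sigma_iff]; rfl

theorem isOpen_iff {U : Set (W.Gl g)} : IsOpen U ↔ ∀ f, IsOpen (W.cy g f ⁻¹' U) := by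
  rw [← q_quot.isOpen_preimage, isOpen_sigma_iff]; rfl

theorem isClosed_iff {U : Set (W.Gl g)} : IsClosed U ↔ ∀ f, IsClosed (W.cy g f ⁻¹' U) := by
  rw [← q_quot.isClosed_preimage, isClosed_sigma_iff]; rfl

/-- maps out of the glued space -/
def lift {Y : Type} (φ : F → W.E → Y)
    (h : ∀ f j v, φ (f * g j) (W.w j v) = φ (f * g (op j)) (W.w (op j) v)) : W.Gl g → Y :=
  Quotient.lift (fun x => φ x.1 x.2) (by
    rintro x y (rfl | ⟨f, j, v, rfl, rfl⟩)
    · rfl
    · exact h f j v)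

@[simp] theorem lift_cy {Y : Type} (φ : F → W.E → Y) (h) (f : F) (x : W.E) :
    lift (g := g) φ h (W.cy g f x) = φ f x := rfl

instance : MulAction F (W.Gl g) where
  smul γ := lift (fun f x => W.cy g (γ * f) x) fun f j v => by
    rw [← mul_assoc, ← mul_assoc]; exact cy_w _ j v
  one_smul x := by
    obtain ⟨f, y, rfl⟩ := exists_cy x
    show W.cy g (1 * f) y = _
    rw [one_mul]
  mul_smul a b x := by
    obtain ⟨f, y, rfl⟩ := exists_cy x
    show W.cy g (a * b * f) y = W.cy g (a * (b * f)) y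
    rw [mul_assoc]

theorem smul_cy (γ f : F) (x : W.E) : γ • W.cy g f x = W.cy g (γ * f) x := rfl

instance : ContinuousConstSMul F (W.Gl g) :=
  ⟨fun γ => continuous_iff.2 fun f => continuous_cy (γ * f)⟩

theorem free (γ : F) (x : W.Gl g) (h : γ • x = x) : γ = 1 := by
  obtain ⟨f, y, rfl⟩ := exists_cy x
  rcases cy_eq.1 h with ⟨h, -⟩ | ⟨f0, j, v, -, h1, -, h2⟩
  · exact mul_eq_right.1 h
  · exact absurd (W.w_eq (h2.symm.trans h1)).1 (op_ne j)

variable [Finite Ed]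

theorem q_closed : IsClosedMap (W.q g) := by
  intro C hC
  rw [isClosed_iff]
  intro f
  have : W.cy g f ⁻¹' (W.q g '' C) = Sigma.mk f ⁻¹' C ∪ ⋃ j, W.w j ''
      ((fun v => (⟨f * (g j)⁻¹ * g (op j), W.w (op j) v⟩ : Σ _ : F, W.E)) ⁻¹' C) := by
    ext x
    simp only [mem_preimage, mem_image, mem_union, mem_iUnion]
    constructor
    · rintro ⟨y, hy, h⟩
      rcases q_eq.1 h.symm with rfl | ⟨f0, j, v, h1, rfl⟩
      · exact Or.inl hy
      · obtain ⟨rfl, rfl⟩ := mk_inj.1 h1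
        exact Or.inr ⟨j, v, by simpa using hy, rfl⟩
    · rintro (h | ⟨j, v, h, rfl⟩)
      · exact ⟨_, h, rfl⟩
      · refine ⟨_, h, ((cy_w (f * (g j)⁻¹) j v).symm.trans ?_)⟩
        rw [inv_mul_cancel_right]
  rw [this]
  exact (hC.preimage continuous_sigmaMk).union (isClosed_iUnion_of_finite fun j =>
    (W.w_emb j).isClosedMap _ (hC.preimage
      ((continuous_mk' _).comp (W.w_emb (op j)).continuous)))

omit [Finite Ed] in
theorem fibre_finite (x : W.Gl g) : (W.q g ⁻¹' {x}).Finite := by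
  obtain ⟨y, rfl⟩ := q_quot.surjective x
  by_cases h : ∃ f j v, y = ⟨f * g j, W.w j v⟩
  · obtain ⟨f, j, v, rfl⟩ := h
    refine (toFinite {(⟨f * g j, W.w j v⟩ : Σ _ : F, W.E), ⟨f * g (op j), W.w (op j) v⟩}).subset ?_
    intro z hz
    rcases q_eq.1 (Eq.symm hz) with rfl | ⟨f', j', v', h, rfl⟩
    · exact Or.inl rfl
    · obtain ⟨h1, h2⟩ := mk_inj.1 h
      obtain ⟨rfl, rfl⟩ := W.w_eq h2
      obtain rfl := mul_right_cancel h1
      exact Or.inr rfl
  · refine (finite_singleton y).subset fun z hz => ?_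
    rcases q_eq.1 (Eq.symm hz) with rfl | ⟨f', j', v', h', -⟩
    · rfl
    · exact absurd ⟨f', j', v', h'⟩ h

theorem q_proper : IsProperMap (W.q g) :=
  isProperMap_iff_isClosedMap_and_compact_fibers.2
    ⟨q_quot.continuous, q_closed, fun x => (fibre_finite x).isCompact⟩

theorem cy_closed (f : F) : IsClosedMap (W.cy g f) := q_closed.comp isClosedMap_sigmaMk

instance : T2Space (W.Gl g) := by
  rw [t2_iff_isClosed_diagonal]
  have := (q_proper (W := W) (g := g)).prodMap (q_proper (W := W) (g := g))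
  convert this.isClosedMap _ isClosed_diagonal using 1
  ext ⟨x, y⟩
  constructor
  · intro h
    obtain ⟨z, rfl⟩ := q_quot.surjective x
    exact ⟨(z, z), rfl, Prod.ext rfl h⟩
  · rintro ⟨⟨a, b⟩, h, e⟩
    obtain rfl : a = b := h
    exact (congrArg Prod.fst e).symm.trans (congrArg Prod.snd e)

/-- a compact set meets finitely many copies -/
theorem finite_copies {K : Set (W.Gl g)} (hK : IsCompact K) : {f | ∃ x, W.cy g f x ∈ K}.Finite :=
  finite_fst (q_proper.isCompact_preimage hK)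

instance : ProperlyDiscontinuousSMul F (W.Gl g) where
  finite_disjoint_inter_image {K L} hK hL := by
    refine (((finite_copies hL).prod (finite_copies hK)).image fun a => a.1 * a.2⁻¹).subset ?_
    intro γ hγ
    obtain ⟨_, ⟨x, hx, rfl⟩, h⟩ := hγ
    obtain ⟨f, y, rfl⟩ := exists_cy x
    exact ⟨(γ * f, f), ⟨⟨y, h⟩, ⟨y, hx⟩⟩, by simp⟩

theorem le_int (f : F) {x : W.E} (h : ∀ j, 0 < W.t j x) : LE E4 (W.cy g f x) := by
  have hU : IsOpen {x : W.E | ∀ j, 0 < W.t j x} := by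
    rw [ofPred_forall]
    exact isOpen_iInter_of_finite fun j => isOpen_lt continuous_const (W.t j).continuous
  refine (W.man x h).of_emb hU h (continuous_cy f).continuousOn (fun a ha b _ e => ?_) ?_
  · rcases cy_eq.1 e with ⟨-, e⟩ | ⟨f0, j, v, -, rfl, -⟩
    · exact e
    · exact absurd (ha j) (by rw [W.t_w]; exact lt_irrefl _)
  · intro O hO hs
    refine isOpen_iff.2 fun f' => ?_
    by_cases e : f' = f
    · subst e
      convert hO using 1
      ext y
      refine ⟨?_, fun hy => ⟨y, hy, rfl⟩⟩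
      rintro ⟨a, ha, e⟩
      rcases cy_eq.1 e with ⟨-, rfl⟩ | ⟨f0, j, v, -, rfl, -⟩
      · exact ha
      · exact absurd (hs ha j) (by rw [W.t_w]; exact lt_irrefl _)
    · convert isOpen_empty using 1
      refine eq_empty_of_forall_notMem ?_
      rintro y ⟨a, ha, e'⟩
      rcases cy_eq.1 e' with ⟨e', -⟩ | ⟨f0, j, v, -, rfl, -⟩
      · exact e e'.symm
      · exact absurd (hs ha j) (by rw [W.t_w]; exact lt_irrefl _)

variable (W g)

/-- the bicollar of a wall -/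
def β (f : F) (j : Ed × Bool) (y : VW × ℝ) : W.Gl g :=
  if 0 ≤ y.2 then W.cy g (f * g j) (W.κ j (y.1, projIcc 0 1 zero_le_one y.2))
  else W.cy g (f * g (op j)) (W.κ (op j) (y.1, projIcc 0 1 zero_le_one (-y.2)))

variable {W g}

omit [Finite Ed]

theorem β_pos (f : F) (j : Ed × Bool) (v : VW) (s : I) :
    W.β g f j (v, s) = W.cy g (f * g j) (W.κ j (v, s)) := by
  rw [β, if_pos s.2.1, projIcc_val]

theorem β_neg (f : F) (j : Ed × Bool) (v : VW) (s : I) :
    W.β g f j (v, -s) = W.cy g (f * g (op j)) (W.κ (op j) (v, s)) := by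
  rw [β]
  split_ifs with h
  · have : s = 0 := Subtype.ext (le_antisymm (neg_nonneg.1 h) s.2.1)
    subst this
    simpa [w] using cy_w (W := W) (g := g) f j v
  · simp

theorem continuous_β (f : F) (j : Ed × Bool) : Continuous (W.β g f j) := by
  refine Continuous.if_le ?_ ?_ continuous_const continuous_snd ?_
  · exact (continuous_cy _).comp ((W.κ j).continuous.comp
      (continuous_fst.prodMk (continuous_projIcc.comp continuous_snd)))
  · exact (continuous_cy _).comp ((W.κ _).continuous.comp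
      (continuous_fst.prodMk (continuous_projIcc.comp continuous_snd.neg)))
  · rintro ⟨v, s⟩ h
    obtain rfl : 0 = s := h
    simpa [w] using cy_w (W := W) (g := g) f j v

theorem cy_κ_eq {f f' : F} {j : Ed × Bool} {v : VW} {s : I} {x : W.E} (hs : s < 1)
    (h : W.cy g (f * g j) (W.κ j (v, s)) = W.cy g f' x) : (f' = f * g j ∧ x = W.κ j (v, s)) ∨
      (s = 0 ∧ f' = f * g (op j) ∧ x = W.κ (op j) (v, 0)) := by
  rcases cy_eq.1 h with ⟨h1, h2⟩ | ⟨f0, j0, v0, h1, h2, h3, h4⟩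
  · exact Or.inl ⟨h1.symm, h2.symm⟩
  · obtain ⟨rfl, rfl, rfl⟩ := W.κ_eq h2 hs zero_lt_one
    obtain rfl := mul_right_cancel h1
    exact Or.inr ⟨rfl, h3, h4⟩

theorem cases_abs {s : ℝ} (h : |s| < 1) : ∃ a : I, a < 1 ∧ (s = a ∨ s = -a) :=
  ⟨⟨|s|, abs_nonneg s, h.le⟩, h, (eq_or_eq_neg_of_abs_eq (rfl : |s| = |s|))⟩

theorem β_eq {f f' : F} {j : Ed × Bool} {y : VW × ℝ} (hy : |y.2| < 1) {x : W.E}
    (h : W.β g f j y = W.cy g f' x) : ∃ a : I, a < 1 ∧
      ((y.2 = a ∧ f' = f * g j ∧ x = W.κ j (y.1, a)) ∨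
        (y.2 = -a ∧ f' = f * g (op j) ∧ x = W.κ (op j) (y.1, a))) := by
  obtain ⟨v, s⟩ := y
  obtain ⟨a, ha, rfl | rfl⟩ := cases_abs hy
  · rw [β_pos] at h
    rcases cy_κ_eq ha h with h' | ⟨rfl, h'⟩
    · exact ⟨a, ha, Or.inl ⟨rfl, h'⟩⟩
    · exact ⟨0, ha, Or.inr ⟨by simp, h'⟩⟩
  · rw [β_neg] at h
    rcases cy_κ_eq ha h with h' | ⟨rfl, h'⟩
    · exact ⟨a, ha, Or.inr ⟨rfl, h'⟩⟩
    · exact ⟨0, ha, Or.inl ⟨by simp, by simpa using h'⟩⟩

theorem β_injOn (f : F) (j : Ed × Bool) : InjOn (W.β g f j) {y | |y.2| < 1} := by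
  rintro y hy ⟨v, s⟩ hs h
  obtain ⟨a, ha, rfl | rfl⟩ := cases_abs hs
  · rw [β_pos] at h
    obtain ⟨b, hb, ⟨h1, -, h2⟩ | ⟨h1, -, h2⟩⟩ := β_eq hy h
    · obtain ⟨-, rfl, rfl⟩ := W.κ_eq h2 ha hb
      exact Prod.ext rfl h1
    · exact absurd (W.κ_eq h2 ha hb).1.symm (op_ne j)
  · rw [β_neg] at h
    obtain ⟨b, hb, ⟨h1, -, h2⟩ | ⟨h1, -, h2⟩⟩ := β_eq hy h
    · exact absurd (W.κ_eq h2 ha hb).1 (op_ne j)
    · obtain ⟨-, rfl, rfl⟩ := W.κ_eq h2 ha hb
      exact Prod.ext rfl h1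

theorem β_open (f : F) (j : Ed × Bool) {O : Set (VW × ℝ)} (hO : IsOpen O)
    (hs : O ⊆ {y | |y.2| < 1}) : IsOpen (W.β g f j '' O) := by
  refine isOpen_iff.2 fun f' => ?_
  have : W.cy g f' ⁻¹' (W.β g f j '' O) =
      (⋃ _ : f' = f * g j, W.κ j '' ((fun y => (y.1, (y.2 : ℝ))) ⁻¹' O)) ∪
        ⋃ _ : f' = f * g (op j), W.κ (op j) '' ((fun y => (y.1, -(y.2 : ℝ))) ⁻¹' O) := by
    ext x
    simp only [mem_preimage, mem_image, mem_union, mem_iUnion, exists_prop]
    constructor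
    · rintro ⟨y, hy, h⟩
      obtain ⟨a, -, ⟨h1, h2, rfl⟩ | ⟨h1, h2, rfl⟩⟩ := β_eq (hs hy) h
      · exact Or.inl ⟨h2, (y.1, a), by rwa [← h1], rfl⟩
      · exact Or.inr ⟨h2, (y.1, a), by rwa [← h1], rfl⟩
    · rintro (⟨rfl, ⟨v, a⟩, h, rfl⟩ | ⟨rfl, ⟨v, a⟩, h, rfl⟩)
      · exact ⟨_, h, β_pos f j v a⟩
      · exact ⟨_, h, β_neg f j v a⟩
  rw [this]
  refine (isOpen_iUnion fun _ => W.isOpen_κ _ (hO.preimage (by fun_prop)) fun y hy => ?_).union
    (isOpen_iUnion fun _ => W.isOpen_κ _ (hO.preimage (by fun_prop)) fun y hy => ?_)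
  · exact (abs_lt.1 (show |(y.2 : ℝ)| < 1 from hs hy)).2
  · exact (neg_lt_neg_iff (a := (1 : ℝ))).1 (abs_lt.1 (show |-(y.2 : ℝ)| < 1 from hs hy)).1

theorem le_all [Finite Ed] (hV : ∀ y : VW × ℝ, LE E4 y) (x : W.Gl g) : LE E4 x := by
  obtain ⟨f, y, rfl⟩ := exists_cy x
  by_cases h : ∀ j, 0 < W.t j y
  · exact le_int f h
  push Not at h
  obtain ⟨j, hj⟩ := h
  obtain ⟨v, rfl⟩ := W.exists_w (le_antisymm hj (W.t_nonneg j y))
  have := (hV (v, ((0 : I) : ℝ))).of_emb (U := {y | |y.2| < 1})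
    (isOpen_lt (by fun_prop) continuous_const) (by simp)
    (continuous_β (W := W) (g := g) (f * (g j)⁻¹) j).continuousOn
    (β_injOn _ j) fun O => β_open _ j
  rwa [β_pos, inv_mul_cancel_right] at this

end Wl

end Crest.Agent.N233.Pc

end
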