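import Crest.Agent.N233.Pc.Defs

/-!
# Row 233 (helper86): the Borromean piece
-/

set_option autoImplicit false
open Set unitInterval Topology

noncomputable section

namespace Crest.Agent.N233.Pc

namespace GB

theorem nrm (k : R2) : ‖k‖ = max |k.1| |k.2| := rfl

theorem al_in {s : ℝ} (h : |s| ≤ 1) : al s = (s, -1) := by
  obtain ⟨h1, h2⟩ := abs_le.1 h
  rw [al, min_eq_right h2, max_eq_right h1, max_eq_left (by linarith)]

theorem al_pos {s : ℝ} (h : 1 ≤ s) : al s = (1, s - 2) := by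
  rw [al, min_eq_left h, max_eq_right (by norm_num), abs_of_nonneg (by linarith),
    max_eq_right (by linarith)]

theorem al_neg {s : ℝ} (h : s ≤ -1) : al s = (-1, -s - 2) := by
  rw [al, min_eq_right (by linarith), max_eq_left h, abs_of_nonpos (by linarith),
    max_eq_right (by linarith)]

theorem al_all {s : ℝ} (h : |s| ≤ 3) : ‖al s‖ = 1 ∧ sc (al s) = s ∧ nb (al s) = |s| := by
  obtain ⟨h1, h2⟩ := abs_le.1 h
  have k : sc (al s) = s → (al s).2 + 1 ≤ |s| → sc (al s) = s ∧ nb (al s) = |s| := fun a b =>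
    ⟨a, by rw [nb, a, max_eq_left b]⟩
  rcases le_total 1 s with a | a
  · refine ⟨?_, k ?_ ?_⟩ <;> rw [al_pos a]
    · rw [nrm, abs_one, max_eq_left (abs_le.2 ⟨by linarith, by linarith⟩)]
    · simp [sc]
    · linarith [le_abs_self s]
  rcases le_total s (-1) with b | b
  · refine ⟨?_, k ?_ ?_⟩ <;> rw [al_neg b]
    · rw [nrm, abs_neg, abs_one, max_eq_left (abs_le.2 ⟨by linarith, by linarith⟩)]
    · simp [sc]
    · linarith [neg_abs_le s]
  · have c : |s| ≤ 1 := abs_le.2 ⟨b, a⟩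
    refine ⟨?_, k ?_ ?_⟩ <;> rw [al_in c]
    · rw [nrm, abs_neg, abs_one, max_eq_right c]
    · simp only [sc]; ring
    · linarith [abs_nonneg s]

theorem al_sc' {k : R2} (h : ‖k‖ = 1) (a : k.2 < 1) : al (sc k) = k ∧ |sc k| < 3 := by
  obtain ⟨x, y⟩ := k
  rw [nrm] at h
  have b : |x| ≤ 1 := h ▸ le_max_left _ _
  have c : |y| ≤ 1 := h ▸ le_max_right _ _
  obtain ⟨c1, -⟩ := abs_le.1 c
  rcases max_eq_iff.1 h with ⟨e, -⟩ | ⟨e, -⟩ <;> rcases (abs_eq zero_le_one).1 e with e | e <;>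
    dsimp only at e a <;> subst e
  · rw [sc, al_pos (by linarith)]; exact ⟨by simp, abs_lt.2 ⟨by linarith, by linarith⟩⟩
  · rw [sc, al_neg (by linarith)]; exact ⟨by simp, abs_lt.2 ⟨by linarith, by linarith⟩⟩
  · linarith
  · rw [sc, show x * (-1 + 2) = x by ring, al_in b]; exact ⟨rfl, by linarith⟩

theorem al_sc {k : R2} (h : ‖k‖ = 1) (h2 : nb k < 2) : al (sc k) = k :=
  (al_sc' h (by linarith [(le_max_right _ _).trans_lt h2])).1

theorem sc_le (k : R2) : |sc k| ≤ nb k := le_max_left _ _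

theorem nb_eq {k : R2} (h : ‖k‖ = 1) (h2 : nb k < 2) : |sc k| = nb k := by
  conv_rhs => rw [← al_sc h h2]
  exact (al_all (by linarith [sc_le k])).2.2.symm

theorem fl_fl (k : R2) : fl (fl k) = k := by simp [fl]

theorem norm_fl (k : R2) : ‖fl k‖ = ‖k‖ := by simp [fl, nrm]

theorem nb_fl {k : R2} (h : ‖k‖ = 1) (h2 : nb k < 2) : 2 ≤ nb (fl k) := by
  by_contra c
  have a := al_sc h h2
  have b := al_sc ((norm_fl k).trans h) (not_le.1 c)
  have a1 : k.2 = max (-1) (|sc k| - 2) := (congrArg Prod.snd a).symm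
  have b1 : -k.2 = max (-1) (|sc (fl k)| - 2) := (congrArg Prod.snd b).symm
  have a2 : k.2 < 0 := a1 ▸ max_lt (by norm_num) (by linarith [sc_le k])
  have b2 : -k.2 < 0 := b1 ▸ max_lt (by norm_num) (by linarith [sc_le (fl k)])
  linarith

theorem nb_fl' {k : R2} (h : ‖k‖ = 1) (h2 : nb (fl k) < 2) : 2 ≤ nb k :=
  fl_fl k ▸ nb_fl ((norm_fl k).trans h) h2

theorem nK (k : KK) : ‖k.1‖ = 1 := mem_sphere_zero_iff_norm.1 k.2

theorem norm_nz {z : R2} (h : 1 / 2 ≤ ‖z‖) : ‖nz z‖ = 1 := by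
  rw [nz, max_eq_left h, norm_smul, norm_inv, norm_norm, inv_mul_cancel₀ (by linarith)]

theorem smul_nz {z : R2} (h : 1 / 2 ≤ ‖z‖) : ‖z‖ • nz z = z := by
  rw [nz, max_eq_left h, smul_smul, mul_inv_cancel₀ (by linarith), one_smul]

theorem norm_sm {k : R2} (h : ‖k‖ = 1) {ρ : ℝ} (hρ : 0 ≤ ρ) : ‖ρ • k‖ = ρ := by
  rw [norm_smul, h, mul_one, Real.norm_of_nonneg hρ]

theorem nz_sm {k : R2} (h : ‖k‖ = 1) {ρ : ℝ} (hρ : 1 / 2 ≤ ρ) : nz (ρ • k) = k := by
  rw [nz, norm_sm h (by linarith), max_eq_left hρ, smul_smul, inv_mul_cancel₀ (by linarith), one_smul]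

@[fun_prop] theorem c_nz : Continuous nz :=
  ((continuous_norm.max continuous_const).inv₀ fun z =>
    (lt_max_of_lt_right (by norm_num)).ne').smul continuous_id

@[fun_prop] theorem c_sc : Continuous sc := by unfold sc; fun_prop
@[fun_prop] theorem c_fl : Continuous fl := by unfold fl; fun_prop
@[fun_prop] theorem c_nb : Continuous nb := by unfold nb; fun_prop
@[fun_prop] theorem c_al : Continuous al := by unfold al; fun_prop
@[fun_prop] theorem c_ht : Continuous ht := by unfold ht; fun_prop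

theorem ht_pos {z : R2} (h : 0 < ht z) : 1 < ‖z‖ ∧ ht z = ‖z‖ - 1 := by
  have : 0 < ‖z‖ - 1 := (lt_max_iff.1 h).resolve_left (lt_irrefl _)
  exact ⟨by linarith, max_eq_right this.le⟩

theorem clamp (s : ℝ) : |max (-2) (min 2 s)| ≤ 3 :=
  abs_le.2 ⟨le_max_of_le_left (by norm_num), max_le (by norm_num) (min_le_of_left_le (by norm_num))⟩

/-- a point near the bottom edge -/
def bo (c : R2) : KK := ⟨al (max (-2) (min 2 c.2)), mem_sphere_zero_iff_norm.2 (al_all (clamp _)).1⟩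

/-- a point near the top edge -/
def tp (c : R2) : KK :=
  ⟨fl (al (max (-2) (min 2 c.1))), mem_sphere_zero_iff_norm.2 ((norm_fl _).trans (al_all (clamp _)).1)⟩

@[fun_prop] theorem c_bo : Continuous bo := Continuous.subtype_mk (by fun_prop) _
@[fun_prop] theorem c_to : Continuous tp := Continuous.subtype_mk (by fun_prop) _

theorem cl_eq {s : ℝ} (h : |s| ≤ 2) : max (-2) (min 2 s) = s := by
  rw [min_eq_right (abs_le.1 h).2, max_eq_right (abs_le.1 h).1]

theorem bo_val {c : R2} (h : ‖c‖ ≤ 2) : (bo c).1 = al c.2 :=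
  congrArg al (cl_eq ((le_max_right _ _).trans h))

theorem to_val {c : R2} (h : ‖c‖ ≤ 2) : (tp c).1 = fl (al c.1) :=
  congrArg (fun s => fl (al s)) (cl_eq ((le_max_left _ _).trans h))

/-- the coordinates in the cross section -/
def cs (bot top : R2) : R2 := (sc (fl top), sc bot)

theorem a1 {c : R2} (h : ‖c‖ ≤ 2) : |c.1| ≤ 3 := ((le_max_left _ _).trans h).trans (by norm_num)

theorem a2 {c : R2} (h : ‖c‖ ≤ 2) : |c.2| ≤ 3 := ((le_max_right _ _).trans h).trans (by norm_num)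

theorem nT_bt {c : R2} (h : ‖c‖ ≤ 2) : nT (bo c).1 (tp c).1 = ‖c‖ := by
  rw [nT, bo_val h, to_val h, fl_fl, (al_all (a1 h)).2.2, (al_all (a2 h)).2.2, nrm]

theorem cs_bt {c : R2} (h : ‖c‖ ≤ 2) : cs (bo c).1 (tp c).1 = c := by
  rw [cs, bo_val h, to_val h, fl_fl, (al_all (a1 h)).2.1, (al_all (a2 h)).2.1]

theorem far_bo {c : R2} (h : ‖c‖ < 2) (k : R2) : 2 ≤ nT k (bo c).1 :=
  le_max_of_le_left (nb_fl (nK _) (((le_max_right _ _).trans (nT_bt h.le).le).trans_lt h))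

theorem far_to {c : R2} (h : ‖c‖ < 2) (k : R2) : 2 ≤ nT (tp c).1 k :=
  le_max_of_le_right (nb_fl' (nK _) (((le_max_left _ _).trans (nT_bt h.le).le).trans_lt h))

theorem bt_cs {b t : R2} (hb : ‖b‖ = 1) (ht : ‖t‖ = 1) (h : nT b t < 2) :
    ‖cs b t‖ = nT b t ∧ (bo (cs b t)).1 = b ∧ (tp (cs b t)).1 = t := by
  have h1 : nb (fl t) < 2 := (le_max_left _ _).trans_lt h
  have h2 : nb b < 2 := (le_max_right _ _).trans_lt h
  have h3 := (norm_fl t).trans ht
  have e : ‖cs b t‖ = nT b t := by rw [nrm, cs, nb_eq h3 h1, nb_eq hb h2, nT]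
  refine ⟨e, ?_, ?_⟩
  · rw [bo_val (by linarith), cs, al_sc hb h2]
  · rw [to_val (by linarith), cs, al_sc h3 h1, fl_fl]

theorem bo_one {c : R2} (h : ‖c‖ ≤ 1) : (bo c).1 = (c.2, -1) := by
  rw [bo_val (by linarith), al_in ((le_max_right _ _).trans h)]

theorem to_one {c : R2} (h : ‖c‖ ≤ 1) : (tp c).1 = (c.1, 1) := by
  rw [to_val (by linarith), al_in ((le_max_left _ _).trans h), fl, neg_neg]

/-- prism: the cross section -/
def qc (w : R2) (s : ℝ) : R2 := ((1 + s / 4) / max 1 ‖w‖) • w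

/-- prism: the radius -/
def qr (w : R2) (s : ℝ) : ℝ := max 1 ‖w‖ - s / 4

theorem c_qc : Continuous fun p : R2 × ℝ => qc p.1 p.2 := by
  unfold qc
  exact (show Continuous fun p : R2 × ℝ => (1 + p.2 / 4) / max 1 ‖p.1‖ from
    Continuous.div (by fun_prop) (by fun_prop) fun p =>
      (lt_max_of_lt_left one_pos).ne').smul continuous_fst

theorem c_qr : Continuous fun p : R2 × ℝ => qr p.1 p.2 := by unfold qr; fun_prop

theorem q_all (w : R2) (s : I) : ‖qc w s‖ < 2 ∧ 1 / 2 ≤ qr w s ∧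
    4 * max (‖qc w s‖ - 1) (1 - qr w s) = s ∧ ((qr w s + s / 4) / (1 + s / 4)) • qc w s = w := by
  have h0 := s.2.1
  have h1 := s.2.2
  have hM : 1 ≤ max 1 ‖w‖ := le_max_left _ _
  have e : ‖qc w s‖ = (1 + s / 4) * (‖w‖ / max 1 ‖w‖) := by
    rw [qc, norm_smul, Real.norm_of_nonneg (by positivity)]; ring
  have b : ‖w‖ / max 1 ‖w‖ ≤ 1 := div_le_one_of_le₀ (le_max_right _ _) (by linarith)
  have c : ‖qc w s‖ ≤ 1 + s / 4 := e ▸ mul_le_of_le_one_right (by linarith) b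
  refine ⟨by linarith, by rw [qr]; linarith, ?_, ?_⟩
  · rcases le_total 1 ‖w‖ with a | a
    · rw [e, qr, max_eq_right a, div_self (by linarith), max_eq_left (by linarith)]; ring
    · rw [qr, max_eq_left a, max_eq_right (by linarith)]; ring
  · rw [qc, qr, smul_smul, sub_add_cancel, div_mul_div_cancel₀ (by linarith), div_self (by linarith),
      one_smul]

theorem q_inv (c : R2) (ρ τ : ℝ) (h : τ = max (‖c‖ - 1) (1 - ρ)) (h0 : 0 ≤ τ) :
    ∃ w, qc w (4 * τ) = c ∧ qr w (4 * τ) = ρ := by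
  have h1 : 1 - ρ ≤ τ := h ▸ le_max_right _ _
  have h2 : ‖c‖ - 1 ≤ τ := h ▸ le_max_left _ _
  have e : max 1 ‖((ρ + τ) / (1 + τ)) • c‖ = ρ + τ := by
    rw [norm_smul, Real.norm_of_nonneg (div_nonneg (by linarith) (by linarith))]
    rcases max_eq_iff.1 h.symm with ⟨a, -⟩ | ⟨a, -⟩
    · rw [show ‖c‖ = 1 + τ by linarith, div_mul_cancel₀ _ (by linarith), max_eq_right (by linarith)]
    · rw [show ρ + τ = 1 by linarith, max_eq_left]
      rw [div_mul_eq_mul_div, one_mul]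
      exact div_le_one_of_le₀ (by linarith) (by linarith)
  refine ⟨((ρ + τ) / (1 + τ)) • c, ?_, by rw [qr, e]; ring⟩
  rw [qc, e, smul_smul, show 1 + 4 * τ / 4 = 1 + τ by ring, div_mul_div_cancel₀ (by linarith),
    div_self (by linarith), one_smul]

theorem qc_zero {w : R2} (h : 1 < ‖w‖) : qc w 0 = nz w := by
  rw [qc, nz, max_eq_right h.le, max_eq_left (by linarith)]; simp

theorem ht_qr (w : R2) {k : R2} (h : ‖k‖ = 1) : ht (qr w 0 • k) = ht w := by
  have hM : 1 ≤ max 1 ‖w‖ := le_max_left _ _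
  rw [ht, qr, zero_div, sub_zero, norm_sm h (by linarith), max_eq_right (by linarith), ht,
    ← max_sub_sub_right, sub_self]

theorem tB0 (x : R2 × KK × KK) : tB x 0 = 4 * (nT x.2.1.1 x.2.2.1 - 1) := rfl
theorem tB1 (x : R2 × KK × KK) : tB x 1 = 4 * max (nT x.2.2.1 (nz x.1) - 1) (1 - ‖x.1‖) := rfl
theorem tB2 (x : R2 × KK × KK) : tB x 2 = 4 * max (nT (nz x.1) x.2.1.1 - 1) (1 - ‖x.1‖) := rfl

theorem c_tB (j : Fin 3) : Continuous fun x => tB x j := by
  fin_cases j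
  · exact (show Continuous fun x : R2 × KK × KK => _ by unfold nT; fun_prop).congr fun x => (tB0 x).symm
  · exact (show Continuous fun x : R2 × KK × KK => _ by unfold nT; fun_prop).congr fun x => (tB1 x).symm
  · exact (show Continuous fun x : R2 × KK × KK => _ by unfold nT; fun_prop).congr fun x => (tB2 x).symm

theorem nn {a b : ℝ} (h : 2 ≤ a) : 0 ≤ 4 * max (a - 1) b :=
  mul_nonneg (by norm_num) (le_max_of_le_left (by linarith))

theorem n0 (p : VW × I) : ‖(1 + (p.2 : ℝ) / 4) • p.1.1.1‖ = 1 + p.2 / 4 :=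
  norm_sm (nK _) (by linarith [p.2.2.1])

theorem n0' (p : VW × I) : ‖(1 + (p.2 : ℝ) / 4) • p.1.1.1‖ < 2 := by rw [n0]; linarith [p.2.2.2]

/-- the collars -/
def k0 (j : Fin 3) (p : VW × I) : R2 × KK × KK :=
  ![(p.1.2, bo ((1 + (p.2 : ℝ) / 4) • p.1.1.1), tp ((1 + (p.2 : ℝ) / 4) • p.1.1.1)),
    (qr p.1.2 p.2 • (tp (qc p.1.2 p.2)).1, p.1.1, bo (qc p.1.2 p.2)),
    (qr p.1.2 p.2 • (bo (qc p.1.2 p.2)).1, tp (qc p.1.2 p.2), p.1.1)] j

theorem c_k0 (j : Fin 3) : Continuous (k0 j) := by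
  have h1 : Continuous fun p : VW × I => qc p.1.2 p.2 := c_qc.comp (f := fun p : VW × I => (p.1.2, p.2.1))
    (by fun_prop)
  have h2 : Continuous fun p : VW × I => qr p.1.2 p.2 := c_qr.comp (f := fun p : VW × I => (p.1.2, p.2.1))
    (by fun_prop)
  fin_cases j
  · show Continuous fun p : VW × I => (p.1.2, bo _, tp _); fun_prop
  · exact (h2.smul (continuous_subtype_val.comp (c_to.comp h1))).prodMk
      (continuous_fst.fst.prodMk (c_bo.comp h1))
  · exact (h2.smul (continuous_subtype_val.comp (c_bo.comp h1))).prodMk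
      ((c_to.comp h1).prodMk continuous_fst.fst)

theorem t_k0 (j : Fin 3) (p : VW × I) : tB (k0 j p) j = p.2 := by
  obtain ⟨h1, h2, h3, -⟩ := q_all p.1.2 p.2
  fin_cases j
  · show 4 * (nT (bo _).1 (tp _).1 - 1) = _
    rw [nT_bt (n0' p).le, n0]; ring
  · show 4 * max (nT (bo _).1 (nz (_ • _)) - 1) (1 - ‖_ • _‖) = _
    rw [nz_sm (nK _) h2, norm_sm (nK _) (by linarith), nT_bt h1.le, h3]
  · show 4 * max (nT (nz (_ • _)) (tp _).1 - 1) (1 - ‖_ • _‖) = _
    rw [nz_sm (nK _) h2, norm_sm (nK _) (by linarith), nT_bt h1.le, h3]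

theorem k0_mem (j : Fin 3) (p : VW × I) (i : Fin 3) : 0 ≤ tB (k0 j p) i := by
  by_cases e : i = j
  · rw [e, t_k0]; exact p.2.2.1
  obtain ⟨h1, h2, -⟩ := q_all p.1.2 p.2
  fin_cases j <;> fin_cases i <;> first | exact absurd rfl e | skip
  · exact nn (far_to (n0' p) _)
  · exact nn (far_bo (n0' p) _)
  · show 0 ≤ 4 * (nT p.1.1.1 (bo (qc p.1.2 p.2)).1 - 1)
    linarith [far_bo h1 p.1.1.1]
  · show 0 ≤ 4 * max (nT (nz (_ • _)) _ - 1) _
    rw [nz_sm (nK _) h2]; exact nn (far_to h1 _)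
  · show 0 ≤ 4 * (nT (tp (qc p.1.2 p.2)).1 p.1.1.1 - 1)
    linarith [far_to h1 p.1.1.1]
  · show 0 ≤ 4 * max (nT _ (nz (_ • _)) - 1) _
    rw [nz_sm (nK _) h2]; exact nn (far_bo h1 _)

/-- the collars in the piece -/
def κB (j : Fin 3) : C(VW × I, EB) := ⟨fun p => ⟨k0 j p, k0_mem j p⟩, (c_k0 j).subtype_mk _⟩

/-- left inverses -/
def g0 (j : Fin 3) (x : EB) : (R2 × R2) × ℝ :=
  (![((1 + tB x.1 0 / 4)⁻¹ • cs x.1.2.1.1 x.1.2.2.1, x.1.1),
    (x.1.2.1.1, ((‖x.1.1‖ + tB x.1 1 / 4) / (1 + tB x.1 1 / 4)) • cs x.1.2.2.1 (nz x.1.1)),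
    (x.1.2.2.1, ((‖x.1.1‖ + tB x.1 2 / 4) / (1 + tB x.1 2 / 4)) • cs (nz x.1.1) x.1.2.1.1)] j, tB x.1 j)

theorem c_g0 (j : Fin 3) : Continuous (g0 j) := by
  have h : ∀ i, Continuous fun x : EB => tB x.1 i := fun i => (c_tB i).comp continuous_subtype_val
  have k : ∀ i (x : EB), 1 + tB x.1 i / 4 ≠ 0 := fun i x => by linarith [x.2 i]
  refine Continuous.prodMk ?_ (h j)
  have h0 := h 0
  have h1 := h 1
  have h2 := h 2
  fin_cases j
  · exact (((show Continuous fun x : EB => 1 + tB x.1 0 / 4 by fun_prop).inv₀ (k 0)).smul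
      (by unfold cs; fun_prop)).prodMk (by fun_prop)
  · exact (show Continuous fun x : EB => x.1.2.1.1 by fun_prop).prodMk
      ((Continuous.div (by fun_prop) (by fun_prop) (k 1)).smul (by unfold cs; fun_prop))
  · exact (show Continuous fun x : EB => x.1.2.2.1 by fun_prop).prodMk
      ((Continuous.div (by fun_prop) (by fun_prop) (k 2)).smul (by unfold cs; fun_prop))

theorem g0_κ (j : Fin 3) (p : VW × I) : g0 j (κB j p) = ((p.1.1.1, p.1.2), p.2.1) := by
  obtain ⟨h1, h2, -, h4⟩ := q_all p.1.2 p.2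
  have t := t_k0 j p
  refine Prod.ext ?_ t
  fin_cases j
  · show ((1 + tB (k0 0 p) 0 / 4)⁻¹ • cs (bo _).1 (tp _).1, p.1.2) = _
    rw [show tB (k0 0 p) 0 = p.2 from t, cs_bt (n0' p).le, smul_smul,
      inv_mul_cancel₀ (by linarith [p.2.2.1]), one_smul]
  · show (p.1.1.1, ((‖_ • _‖ + tB (k0 1 p) 1 / 4) / (1 + tB (k0 1 p) 1 / 4)) •
      cs (bo _).1 (nz (_ • _))) = _
    rw [show tB (k0 1 p) 1 = p.2 from t, nz_sm (nK _) h2, norm_sm (nK _) (by linarith), cs_bt h1.le, h4]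
  · show (p.1.1.1, ((‖_ • _‖ + tB (k0 2 p) 2 / 4) / (1 + tB (k0 2 p) 2 / 4)) •
      cs (nz (_ • _)) (tp _).1) = _
    rw [show tB (k0 2 p) 2 = p.2 from t, nz_sm (nK _) h2, norm_sm (nK _) (by linarith), cs_bt h1.le, h4]

theorem emb (j : Fin 3) : IsEmbedding (κB j) :=
  IsEmbedding.of_comp (κB j).continuous (c_g0 j) (by
    rw [show g0 j ∘ κB j = Prod.map (Prod.map Subtype.val id) Subtype.val from funext (g0_κ j)]
    exact (IsEmbedding.subtypeVal.prodMap IsEmbedding.id).prodMap IsEmbedding.subtypeVal)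

theorem lt1 {a b : ℝ} (h : 4 * max (a - 1) (1 - b) < 1) : a < 2 ∧ 1 / 2 ≤ b :=
  ⟨by linarith [le_max_left (a - 1) (1 - b)], by linarith [le_max_right (a - 1) (1 - b)]⟩

theorem κ_sur (j : Fin 3) (x : EB) (h : tB x.1 j < 1) : ∃ v s, κB j (v, s) = x := by
  obtain ⟨⟨z, y1, y2⟩, hx⟩ := x
  have h0 := hx j
  fin_cases j
  · have h' : 4 * (nT y1.1 y2.1 - 1) < 1 := h
    have h0' : 0 ≤ 4 * (nT y1.1 y2.1 - 1) := h0
    obtain ⟨a, b, c⟩ := bt_cs (nK y1) (nK y2) (by linarith)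
    have e : (1 + 4 * (nT y1.1 y2.1 - 1) / 4) • nz (cs y1.1 y2.1) = cs y1.1 y2.1 := by
      rw [show 1 + 4 * (nT y1.1 y2.1 - 1) / 4 = ‖cs y1.1 y2.1‖ by rw [a]; ring, smul_nz (by linarith)]
    refine ⟨(⟨nz (cs y1.1 y2.1), mem_sphere_zero_iff_norm.2 (norm_nz (by linarith))⟩, z),
      ⟨_, h0', h'.le⟩, Subtype.ext (Prod.ext rfl (Prod.ext (Subtype.ext ?_) (Subtype.ext ?_)))⟩
    · exact (congrArg (fun c => (bo c).1) e).trans b
    · exact (congrArg (fun c => (tp c).1) e).trans c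
  · have h' : 4 * max (nT y2.1 (nz z) - 1) (1 - ‖z‖) < 1 := h
    have h0' : 0 ≤ 4 * max (nT y2.1 (nz z) - 1) (1 - ‖z‖) := h0
    obtain ⟨a, b, c⟩ := bt_cs (nK y2) (norm_nz (lt1 h').2) (lt1 h').1
    obtain ⟨w, e1, e2⟩ := q_inv (cs y2.1 (nz z)) ‖z‖ (max (nT y2.1 (nz z) - 1) (1 - ‖z‖)) (by rw [a])
      (by linarith)
    refine ⟨(y1, w), ⟨_, h0', h'.le⟩, Subtype.ext (Prod.ext ?_ (Prod.ext rfl (Subtype.ext ?_)))⟩
    · exact (congrArg₂ (fun r c => r • (tp c).1) e2 e1).trans (by rw [c, smul_nz (lt1 h').2])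
    · exact (congrArg (fun c => (bo c).1) e1).trans b
  · have h' : 4 * max (nT (nz z) y1.1 - 1) (1 - ‖z‖) < 1 := h
    have h0' : 0 ≤ 4 * max (nT (nz z) y1.1 - 1) (1 - ‖z‖) := h0
    obtain ⟨a, b, c⟩ := bt_cs (norm_nz (lt1 h').2) (nK y1) (lt1 h').1
    obtain ⟨w, e1, e2⟩ := q_inv (cs (nz z) y1.1) ‖z‖ (max (nT (nz z) y1.1 - 1) (1 - ‖z‖)) (by rw [a])
      (by linarith)
    refine ⟨(y2, w), ⟨_, h0', h'.le⟩, Subtype.ext (Prod.ext ?_ (Prod.ext (Subtype.ext ?_) rfl))⟩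
    · exact (congrArg₂ (fun r c => r • (bo c).1) e2 e1).trans (by rw [b, smul_nz (lt1 h').2])
    · exact (congrArg (fun c => (tp c).1) e1).trans c

theorem nd {a b c : R2} (h : ‖b‖ = 1) (h1 : nT a b < 2) (h2 : nT b c < 2) : False :=
  absurd ((le_max_left _ _).trans_lt h1) (not_lt.2 (nb_fl h ((le_max_right _ _).trans_lt h2)))

theorem dis (j j' : Fin 3) (x : R2 × KK × KK) (h : tB x j < 1) (h' : tB x j' < 1) : j = j' := by
  have a : tB x 0 < 1 → tB x 1 < 1 → False := fun a b =>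
    nd (nK x.2.2) (by rw [tB0] at a; linarith) (lt1 b).1
  have b : tB x 1 < 1 → tB x 2 < 1 → False := fun a b => nd (norm_nz (lt1 a).2) (lt1 a).1 (lt1 b).1
  have c : tB x 2 < 1 → tB x 0 < 1 → False := fun a b =>
    nd (nK x.2.1) (lt1 a).1 (by rw [tB0] at b; linarith)
  fin_cases j <;> fin_cases j'
  exacts [rfl, (a h h').elim, (c h' h).elim, (a h' h).elim, rfl, (b h h').elim, (c h h').elim,
    (b h' h).elim, rfl]

theorem closed_EB : IsClosed {x : R2 × KK × KK | ∀ j, 0 ≤ tB x j} := by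
  rw [ofPred_forall]
  exact isClosed_iInter fun j => isClosed_le continuous_const (c_tB j)

theorem cl3 {s : ℝ} (h : |s| < 3) : max (-3) (min 3 s) = s := by
  rw [min_eq_right (abs_lt.1 h).2.le, max_eq_right (abs_lt.1 h).1.le]

/-- the chart off the top edge -/
def chB : OpenPartialHomeomorph KK ℝ where
  toFun k := sc k.1
  invFun s := ⟨al (max (-3) (min 3 s)), mem_sphere_zero_iff_norm.2 (al_all (abs_le.2
    ⟨le_max_left _ _, max_le (by norm_num) (min_le_left _ _)⟩)).1⟩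
  source := {k | k.1.2 < 1}
  target := {s | |s| < 3}
  map_source' k h := (al_sc' (nK k) h).2
  map_target' s h := by
    have h' : |s| < 3 := h
    show (al _).2 < 1
    rw [cl3 h']; exact max_lt (by norm_num) (by linarith)
  left_inv' k h := Subtype.ext ((congrArg al (cl3 (al_sc' (nK k) h).2)).trans (al_sc' (nK k) h).1)
  right_inv' s h := by
    have h' : |s| < 3 := h
    show sc (al _) = s
    rw [cl3 h', (al_all h'.le).2.1]
  open_source := isOpen_lt (by fun_prop) continuous_const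
  open_target := isOpen_lt (by fun_prop) continuous_const
  continuousOn_toFun := by fun_prop
  continuousOn_invFun := (Continuous.subtype_mk (by fun_prop) _).continuousOn

/-- the flip of the circle -/
def flK (k : KK) : KK := ⟨fl k.1, mem_sphere_zero_iff_norm.2 ((norm_fl _).trans (nK k))⟩

theorem c_flK : Continuous flK := Continuous.subtype_mk (by fun_prop) _

/-- the flip as a homeomorphism -/
def flH : KK ≃ₜ KK :=
  ⟨⟨flK, flK, fun k => Subtype.ext (fl_fl k.1), fun k => Subtype.ext (fl_fl k.1)⟩, c_flK, c_flK⟩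

theorem le_K (k : KK) : LE ℝ k := by
  by_cases h : k.1.2 < 1
  · exact ⟨chB, h⟩
  · exact ⟨flH.toOpenPartialHomeomorph.trans chB, trivial, show -k.1.2 < 1 by linarith⟩

theorem le_amb (x : R2 × KK × KK) : LE E4 x := by
  obtain ⟨e, he⟩ := le_K x.2.1
  obtain ⟨e', he'⟩ := le_K x.2.2
  obtain ⟨f⟩ : Nonempty ((R2 × ℝ × ℝ) ≃L[ℝ] E4) :=
    FiniteDimensional.nonempty_continuousLinearEquiv_of_finrank_eq (by simp)
  exact ⟨((OpenPartialHomeomorph.refl R2).prod (e.prod e')).trans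
    f.toHomeomorph.toOpenPartialHomeomorph, ⟨trivial, he, he'⟩, trivial⟩

theorem man (x : EB) (h : ∀ j, 0 < tB x.1 j) : LE E4 x := by
  obtain ⟨e, he⟩ := le_amb x.1
  have hU : IsOpen {y : R2 × KK × KK | ∀ j, 0 < tB y j} := by
    rw [ofPred_forall]
    exact isOpen_iInter_of_finite fun j => isOpen_lt continuous_const (c_tB j)
  classical
  let f : OpenPartialHomeomorph EB (R2 × KK × KK) :=
    { toFun := Subtype.val
      invFun := fun y => if a : ∀ j, 0 ≤ tB y j then ⟨y, a⟩ else x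
      source := {y | ∀ j, 0 < tB y.1 j}
      target := {y | ∀ j, 0 < tB y j}
      map_source' := fun _ a => a
      map_target' := fun y a => by rw [dif_pos fun j => (a j).le]; exact a
      left_inv' := fun y _ => dif_pos y.2
      right_inv' := fun y a => by rw [dif_pos fun j => (a j).le]
      open_source := hU.preimage continuous_subtype_val
      open_target := hU
      continuousOn_toFun := continuous_subtype_val.continuousOn
      continuousOn_invFun := IsEmbedding.subtypeVal.continuousOn_iff.2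
        (continuousOn_id.congr fun y a => by
          show Subtype.val (dite _ _ _) = y
          rw [dif_pos fun j => (a j).le]) }
  exact ⟨f.trans e, h, he⟩

theorem mx {a b : ℝ} (h : 0 ≤ 4 * max (a - 1) (1 - b)) (hb : 1 < b) : 1 ≤ a := by
  rcases le_max_iff.1 (show 0 ≤ max (a - 1) (1 - b) by linarith) with c | c <;> linarith

end GB

open GB in
/-- **the Borromean piece** -/
def gmB : Gm CB τB where
  E := EB
  t j := ⟨fun x => tB x.1 j, (c_tB j).comp continuous_subtype_val⟩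
  t_nonneg j x := x.2 j
  dis j j' x := dis j j' x.1
  κ := κB
  emb := emb
  tκ j v s := t_k0 j (v, s)
  κ_sur := κ_sur
  man := man
  r := ⟨fun x => ht x.1.1, by fun_prop⟩
  r_nonneg _ := le_max_left _ _
  π := ⟨fun x => (nz x.1.1, x.1.2.1.1, x.1.2.2.1), by fun_prop⟩
  π_mem x h := by
    have a := (ht_pos h).1
    refine ⟨norm_nz (by linarith), nK _, nK _, fun j => ?_⟩
    fin_cases j
    · have := x.2 0
      rw [tB0] at this
      show 1 ≤ nT x.1.2.1.1 x.1.2.2.1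
      linarith
    · exact mx (x.2 1) a
    · exact mx (x.2 2) a
  inj x x' h1 h2 h := by
    obtain ⟨a, b⟩ := ht_pos h
    obtain ⟨a', b'⟩ := ht_pos (z := x'.1.1) (h.trans_eq h1)
    have e : ‖x.1.1‖ = ‖x'.1.1‖ := by
      have : ht x.1.1 = ht x'.1.1 := h1
      linarith
    obtain ⟨e1, e2⟩ := Prod.ext_iff.1 h2
    obtain ⟨e2, e3⟩ := Prod.ext_iff.1 e2
    refine Subtype.ext (Prod.ext ?_ (Prod.ext (Subtype.ext e2) (Subtype.ext e3)))
    rw [← smul_nz (z := x.1.1) (by linarith), ← smul_nz (z := x'.1.1) (by linarith), e]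
    exact congrArg _ e1
  sur c hc a ha := by
    obtain ⟨h0, h1, h2, h⟩ := hc
    have e : nz ((1 + a) • c.1) = c.1 := nz_sm h0 (by linarith)
    refine ⟨⟨((1 + a) • c.1, ⟨c.2.1, mem_sphere_zero_iff_norm.2 h1⟩,
      ⟨c.2.2, mem_sphere_zero_iff_norm.2 h2⟩), fun j => ?_⟩, ?_, Prod.ext e rfl⟩
    · fin_cases j
      · exact mul_nonneg (by norm_num) (sub_nonneg.2 (h 0))
      · refine mul_nonneg (by norm_num) (le_max_of_le_left (sub_nonneg.2 ?_))
        rw [e]; exact h 1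
      · refine mul_nonneg (by norm_num) (le_max_of_le_left (sub_nonneg.2 ?_))
        rw [e]; exact h 2
    · show ht ((1 + a) • c.1) = a
      rw [ht, norm_sm h0 (by linarith), add_sub_cancel_left, max_eq_right ha.le]
  cpt R := by
    refine (closed_EB.isClosedEmbedding_subtypeVal.isCompact_preimage
      ((isCompact_closedBall (0 : R2) (R + 1)).prod isCompact_univ)).of_isClosed_subset
      (isClosed_le (by fun_prop) continuous_const) fun x hx => ⟨?_, trivial⟩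
    have : ‖x.1.1‖ - 1 ≤ R := (le_max_right _ _).trans hx
    exact mem_closedBall_zero_iff.2 (by linarith)
  rκ j v := by
    fin_cases j
    exacts [rfl, ht_qr _ (nK _), ht_qr _ (nK _)]
  πκ j v h := by
    obtain ⟨-, h2, -⟩ := q_all v.2 0
    have n : ‖nz v.2‖ ≤ 1 := (norm_nz (by linarith)).le
    fin_cases j
    · show (nz v.2, (bo ((1 + (0 : ℝ) / 4) • v.1.1)).1, (tp ((1 + (0 : ℝ) / 4) • v.1.1)).1) = _
      rw [zero_div, add_zero, one_smul, bo_one (nK _).le, to_one (nK _).le]; rfl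
    · show (nz (_ • _), v.1.1, (bo (qc v.2 0)).1) = _
      rw [nz_sm (nK _) h2]
      show ((tp (qc v.2 0)).1, _) = _
      rw [qc_zero h, bo_one n, to_one n]; rfl
    · show (nz (_ • _), (tp (qc v.2 0)).1, v.1.1) = _
      rw [nz_sm (nK _) h2]
      show ((bo (qc v.2 0)).1, _) = _
      rw [qc_zero h, bo_one n, to_one n]; rfl

end Crest.Agent.N233.Pc

end
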