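import Crest.Agent.N233.Pc.PrS
import Crest.Agent.N233.Pc.Ch

/-!
# Row 233 (helper25): the Seifert pieces as geometric pieces
-/

set_option autoImplicit false
open Set unitInterval Topology

noncomputable section

namespace Crest.Agent.N233.Pc

variable {n : ℕ} {ty : JS n → Bool}

namespace GS

theorem cont_dS (j : JS n) : Continuous (dS n j) := by
  rcases j with j | _ | _
  · change Continuous fun u : R2 =>
      max |2 * (2 * (n : ℝ) + 2 - ‖u‖) - (4 * ((j : ℕ) : ℝ) + 3)| (nb (nz u)) - 1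
    fun_prop
  · change Continuous fun u : R2 => ‖u‖ - 1
    fun_prop
  · change Continuous fun u : R2 => 1 - ‖u‖ / (2 * (n : ℝ) + 2)
    fun_prop

theorem cont_tS (j : JS n) : Continuous fun x => tS n ty x j := by
  have := cont_dS j
  unfold tS
  split_ifs <;> fun_prop

theorem abs_es (j : JS n) {s : ℝ} (h0 : 0 ≤ s) (h1 : s ≤ 1) : |eS n j * s| ≤ 1 / 4 := by
  rw [abs_mul, abs_of_nonneg h0]
  have := (eS_spec j (n := n)).1
  nlinarith [abs_nonneg (eS n j)]

theorem eS_tS {j : JS n} (hj : ty j = true) {w : R2} (hw : ‖w‖ ≤ 2) (z : R2) :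
    eS n j * tS n ty (σS n j w, z) j = ‖w‖ - 1 := by
  rw [tS, eS, dS_σS j hw, hj]
  simp only [if_true]
  split_ifs
  · rw [← mul_assoc, neg_mul, inv_mul_cancel₀ (by positivity)]; ring
  · ring

theorem dS_out_nonneg {x : R2 × R2} (h : 0 ≤ tS n ty x (.inr true)) : 0 ≤ dS n (.inr true) x.1 := by
  rw [tS, if_pos rfl] at h
  have h3 := nonneg_of_mul_nonneg_right h (by positivity)
  split_ifs at h3
  · exact h3
  · exact h3.trans (min_le_left _ _)

theorem norm_le {x : R2 × R2} (h : 0 ≤ tS n ty x (.inr true)) : ‖x.1‖ ≤ 2 * n + 2 := by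
  have h1 := Pr.dS_out (n := n) x.1
  have h2 := mul_nonneg (show (0 : ℝ) ≤ 4 * n + 4 by positivity) (dS_out_nonneg h)
  linarith

theorem dS_nonneg {x : R2 × R2} (h : ∀ j, 0 ≤ tS n ty x j) (hz : 1 < ‖x.2‖) (j : JS n) :
    0 ≤ dS n j x.1 := by
  by_cases e : j = .inr true
  · subst e; exact dS_out_nonneg (h _)
  have h1 := h j
  rw [tS, if_neg e] at h1
  have h3 := nonneg_of_mul_nonneg_right h1 (by norm_num)
  split_ifs at h3
  · exact h3
  · rcases le_max_iff.1 h3 with h4 | h4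
    · exact h4
    · linarith

theorem tS_nonneg {x : R2 × R2} (h : ∀ j, 0 ≤ dS n j x.1) (hz : 1 / 2 ≤ ‖x.2‖) (j : JS n) :
    0 ≤ tS n ty x j := by
  have := h j
  unfold tS
  split_ifs
  · positivity
  · exact mul_nonneg (by positivity) (le_min this (by linarith))
  · positivity
  · exact mul_nonneg (by norm_num) (le_max_of_le_left this)

theorem norm_pt (j : JS n) (m : KK) (s : I) : ‖(1 + eS n j * s) • m.1‖ = 1 + eS n j * s :=
  norm_smul_unit (norm_KK m) (by linarith [(abs_le.1 (abs_es j s.2.1 s.2.2)).1])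

theorem norm_pt_le (j : JS n) (m : KK) (s : I) : ‖(1 + eS n j * s) • m.1‖ ≤ 2 := by
  rw [norm_pt]; linarith [(abs_le.1 (abs_es j s.2.1 s.2.2)).2]

theorem tS_pt {j : JS n} (hj : ty j = true) (m : KK) (z : R2) (s : I) :
    tS n ty (σS n j ((1 + eS n j * s) • m.1), z) j = s :=
  mul_left_cancel₀ (eS_spec j).2.1 (by rw [eS_tS hj (norm_pt_le j m s), norm_pt]; ring)

theorem mem_pt (h : ty (.inr true) = false → ∀ j, ty j = false) {j : JS n} (hj : ty j = true)
    (m : KK) (z : R2) (s : I) (j' : JS n) :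
    0 ≤ tS n ty (σS n j ((1 + eS n j * s) • m.1), z) j' := by
  by_cases e : j = j'
  · subst e; rw [tS_pt hj]; exact s.2.1
  · exact zero_le_one.trans (tS_sep h e _ (by rw [tS_pt hj]; exact s.2.2)).le

/-- the collar of a product wall -/
def κP (h : ty (.inr true) = false → ∀ j, ty j = false) {j : JS n} (hj : ty j = true) :
    C(VW × I, ES n ty) :=
  ⟨fun y => ⟨(σS n j ((1 + eS n j * y.2) • y.1.1.1), y.1.2), mem_pt h hj _ _ _⟩,
    Continuous.subtype_mk (((cont_σS j).comp (by fun_prop)).prodMk (by fun_prop)) _⟩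

end GS

open GS

/-- the product walls -/
def pdS (n : ℕ) (ty : JS n → Bool) (h : ty (.inr true) = false → ∀ j, ty j = false) (j : JS n)
    (hj : ty j = true) : WD (fun x : ES n ty => tS n ty x.1 j) (fun x => ht x.1.2)
      (fun x => (nz x.1.1, 2 * n + 2 - ‖x.1.1‖, nz x.1.2)) (τS n ty j) where
  κ := κP h hj
  emb := by
    refine emb_of_amb (κP h hj).continuous
      (i := fun y : VW × I => (((y.1.1.1, y.1.2), y.2.1) : (R2 × R2) × ℝ))
      ((IsEmbedding.subtypeVal.prodMap IsEmbedding.id).prodMap IsEmbedding.subtypeVal)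
      (g := fun x : ES n ty => ((nz (σS' n j x.1.1), x.1.2), tS n ty x.1 j)) (U := univ)
      (fun _ => trivial) (Continuous.continuousOn ?_) fun y => ?_
    · have := cont_σS' j
      exact Continuous.prodMk (by fun_prop) ((cont_tS j).comp continuous_subtype_val)
    · change ((nz (σS' n j (σS n j _)), y.1.2), tS n ty (σS n j _, _) j) = _
      rw [tS_pt hj, σS_li j (norm_pt_le j _ _), nz_smul (norm_KK _)
        (by linarith [(abs_le.1 (abs_es j y.2.2.1 y.2.2.2)).1])]
  tκ v s := tS_pt hj _ _ _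
  sur x h1 := by
    have hri : σS n j (σS' n j x.1.1) = x.1.1 :=
      σS_ri fun hj' => by linarith [(Pr.tS_hole (ty := ty) hj' x.1).1]
    have hω : ‖σS' n j x.1.1‖ ≤ 2 := by
      by_cases e : j = .inr true
      · subst e
        have h3 := dS_out_nonneg (x.2 (.inr true))
        simp only [dS, σS'] at h3 ⊢
        rw [norm_smul, norm_inv, Real.norm_eq_abs, abs_of_nonneg (by positivity), ← div_eq_inv_mul]
        linarith
      · linarith [norm_σS' e x.1.1, (Pr.tS_hole (ty := ty) e x.1).1]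
    have e1 := GS.eS_tS hj hω x.1.2
    rw [hri] at e1
    have h2 : 1 / 2 ≤ ‖σS' n j x.1.1‖ := by
      linarith [(abs_le.1 (abs_es j (x.2 j) h1.le)).1]
    refine ⟨(kk _ (norm_nz h2), x.1.2), ⟨_, x.2 j, h1.le⟩, Subtype.ext (Prod.ext ?_ rfl)⟩
    change σS n j ((1 + eS n j * tS n ty x.1 j) • nz (σS' n j x.1.1)) = x.1.1
    rw [show 1 + eS n j * tS n ty x.1 j = ‖σS' n j x.1.1‖ by linarith, smul_nz h2, hri]
  rκ v := rfl
  πκ v _ := by
    have := π_σS j (norm_KK v.1)
    change (nz (σS n j ((1 + eS n j * (0 : ℝ)) • v.1.1)),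
      2 * (n : ℝ) + 2 - ‖σS n j ((1 + eS n j * (0 : ℝ)) • v.1.1)‖, nz v.2) = _
    rw [mul_zero, add_zero, one_smul]
    simp only [τS, hj, if_true, ← this]

/-- all walls -/
def wdS (n : ℕ) (ty : JS n → Bool) (h : ty (.inr true) = false → ∀ j, ty j = false) (j : JS n) :
    WD (fun x : ES n ty => tS n ty x.1 j) (fun x => ht x.1.2)
      (fun x => (nz x.1.1, 2 * n + 2 - ‖x.1.1‖, nz x.1.2)) (τS n ty j) :=
  if hj : ty j = true then pdS n ty h j hj else prS n ty h j (by simpa using hj)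

/-- **the Seifert pieces** -/
def gmS (n : ℕ) (ty : JS n → Bool) (h : ty (.inr true) = false → ∀ j, ty j = false) :
    Gm (CS n) (τS n ty) where
  E := ES n ty
  t j := ⟨fun x => tS n ty x.1 j, (cont_tS j).comp continuous_subtype_val⟩
  t_nonneg j x := x.2 j
  dis j j' x h1 h2 := by
    by_contra e
    exact lt_asymm h2 (tS_sep h e x.1 h1.le)
  κ j := (wdS n ty h j).κ
  emb j := (wdS n ty h j).emb
  tκ j := (wdS n ty h j).tκ
  κ_sur j := (wdS n ty h j).sur
  man x hx := LE.of_pos (t := tS n ty) cont_tS hx (le_RR _)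
  r := ⟨fun x => ht x.1.2, by fun_prop⟩
  r_nonneg x := ht_nonneg _
  π := ⟨fun x => (nz x.1.1, 2 * n + 2 - ‖x.1.1‖, nz x.1.2), by fun_prop⟩
  π_mem x hx := by
    have hz := ht_pos.1 hx
    have hd := dS_nonneg x.2 hz
    have h1 : 0 ≤ ‖x.1.1‖ - 1 := hd (.inr false)
    refine ⟨norm_nz (by linarith), ?_, ?_, norm_nz (by linarith), fun j => ?_⟩
    · exact sub_nonneg.2 (norm_le (x.2 _))
    · change 2 * (n : ℝ) + 2 - ‖x.1.1‖ ≤ _
      linarith
    · exact sub_nonneg.1 (hd (.inl j))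
  inj x x' h1 h2 hx := by
    have hd : 0 ≤ ‖x.1.1‖ - 1 := dS_nonneg x.2 (ht_pos.1 hx) (.inr false)
    have e1 : nz x.1.1 = nz x'.1.1 := congrArg Prod.fst h2
    have e2 : 2 * (n : ℝ) + 2 - ‖x.1.1‖ = 2 * n + 2 - ‖x'.1.1‖ := congrArg (·.2.1) h2
    have e3 : nz x.1.2 = nz x'.1.2 := congrArg (·.2.2) h2
    exact Subtype.ext (Prod.ext (eq_of_nz (by linarith) (by linarith) e1) (eq_of_ht hx h1 e3))
  sur := by
    rintro ⟨m, ρ, l⟩ ⟨h1, h2, h3, h4, h5⟩ a ha
    simp only at h1 h2 h3 h4 h5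
    have e1 : ‖(2 * n + 2 - ρ) • m‖ = 2 * n + 2 - ρ := norm_smul_unit h1 (by linarith)
    have e2 : nz ((2 * n + 2 - ρ) • m) = m := nz_smul h1 (by linarith)
    have e3 : ‖(a + 1) • l‖ = a + 1 := norm_smul_unit h4 (by linarith)
    refine ⟨⟨((2 * n + 2 - ρ) • m, (a + 1) • l), tS_nonneg (fun j => ?_) (by rw [e3]; linarith)⟩,
      ht_smul' h4 ha.le, ?_⟩
    · rcases j with j | _ | _
      · simp only [dS, e1, e2, sub_sub_cancel]
        exact sub_nonneg.2 (h5 j)
      · simp only [dS, e1]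
        linarith
      · simp only [dS, e1]
        rw [sub_nonneg, div_le_one (by positivity)]
        linarith
    · change (nz ((2 * n + 2 - ρ) • m), 2 * (n : ℝ) + 2 - ‖(2 * n + 2 - ρ) • m‖,
        nz ((a + 1) • l)) = _
      rw [e1, e2, nz_smul h4 (by linarith), sub_sub_cancel]
  cpt R := by
    have hc : IsClosed {x : R2 × R2 | ∀ j, 0 ≤ tS n ty x j} := by
      rw [Set.ofPred_forall]
      exact isClosed_iInter fun j => isClosed_le continuous_const (cont_tS j)
    refine (hc.isClosedEmbedding_subtypeVal.isCompact_preimage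
      ((isCompact_closedBall (0 : R2) (2 * n + 2)).prod
        (isCompact_closedBall (0 : R2) (R + 1)))).of_isClosed_subset
      (isClosed_le (by fun_prop) continuous_const) fun x hx => ⟨?_, ?_⟩
    · exact mem_closedBall_zero_iff.2 (norm_le (x.2 _))
    · exact mem_closedBall_zero_iff.2 (ht_le hx)
  rκ j := (wdS n ty h j).rκ
  πκ j := (wdS n ty h j).πκ

end Crest.Agent.N233.Pc

end
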