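import Crest.Agent.N233.Pc.Ch

/-!
# Row 233 (helper68): disjoint unions, renaming and reparametrisation of pieces
-/

set_option autoImplicit false
open Set unitInterval Topology

noncomputable section

namespace Crest.Agent.N233.Pc

namespace Su

variable {S S' S'' : Type} [Fintype S]

theorem pu_at {c : S → S'} (hc : Function.Injective c) (y : S → ℝ) (s : S) : pu c y (c s) = y s := by
  rw [pu, Finset.sum_eq_single s, if_pos rfl]
  · exact fun b _ h => if_neg fun e => h (hc e)
  · exact fun h => absurd (Finset.mem_univ s) h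

theorem pu_out {c : S → S'} (y : S → ℝ) {s' : S'} (h : s' ∉ range c) : pu c y s' = 0 :=
  Finset.sum_eq_zero fun s _ => if_neg fun e => h ⟨s, e⟩

theorem supp {c : S → S'} (hc : Function.Injective c) (y : S → ℝ) :
    {s' | pu c y s' ≠ 0} = c '' {s | y s ≠ 0} := by
  ext s'
  constructor
  · intro h
    by_cases hr : s' ∈ range c
    · obtain ⟨s, rfl⟩ := hr
      exact ⟨s, by simpa [pu_at hc] using h, rfl⟩
    · exact absurd (pu_out y hr) h
  · rintro ⟨s, h, rfl⟩
    simpa [pu_at hc] using h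

theorem nonneg (c : S → S') {y : S → ℝ} (h : ∀ s, 0 ≤ y s) (s' : S') : 0 ≤ pu c y s' :=
  Finset.sum_nonneg fun s _ => by split_ifs; exacts [h s, le_rfl]

theorem cont (c : S → S') : Continuous (pu c : (S → ℝ) → S' → ℝ) :=
  continuous_pi fun s' => continuous_finsetSum _ fun s _ => by
    split_ifs
    exacts [continuous_apply s, continuous_const]

theorem pu_pu' [Fintype S'] (d : S' → S'') (c : S → S') (y : S → ℝ) :
    pu d (pu c y) = pu (fun s => d (c s)) y := by
  classical
  funext s''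
  simp only [pu]
  have : ∀ s' : S', (if d s' = s'' then ∑ s, if c s = s' then y s else 0 else 0) =
      ∑ s, if c s = s' then (if d (c s) = s'' then y s else 0) else 0 := fun s' => by
    split_ifs with h
    · exact Finset.sum_congr rfl fun s _ => by
        split_ifs with a b
        exacts [rfl, absurd (a ▸ h) b, rfl]
    · exact (Finset.sum_eq_zero fun s _ => by
        split_ifs with a b
        exacts [absurd (a ▸ b) h, rfl, rfl]).symm
  rw [Finset.sum_congr rfl fun s' _ => by convert this s', Finset.sum_comm]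
  exact Finset.sum_congr rfl fun s _ => by simp

theorem pu_res {c : S → S'} (hc : Function.Injective c) {z : S' → ℝ}
    (hz : ∀ s', z s' ≠ 0 → s' ∈ range c) : pu c (fun s => z (c s)) = z := by
  funext s'
  by_cases hr : s' ∈ range c
  · obtain ⟨s, rfl⟩ := hr
    exact pu_at hc _ s
  · rw [pu_out _ hr]
    exact (not_not.1 fun h => hr (hz s' h)).symm

theorem norm_le [Fintype S'] {c : S → S'} (hc : Function.Injective c) (y : S → ℝ) :
    ‖y‖ ≤ ‖pu c y‖ :=
  (pi_norm_le_iff_of_nonneg (norm_nonneg _)).2 fun s => pu_at hc y s ▸ norm_le_pi_norm (pu c y) (c s)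

theorem pu_eqv [Fintype S'] (e : S ≃ S') (y : S → ℝ) : pu e y = fun s' => y (e.symm s') :=
  funext fun s' => by simpa using pu_at e.injective y (e.symm s')

end Su

open Su

/-! ### disjoint unions -/

section sigma

variable {N : Type} {J S : N → Type}

open Classical in
/-- the wall distance on a disjoint union -/
def tσ (W : ∀ n, Wl (J n)) (j : Σ n, J n) (x : Σ n, (W n).E) : ℝ :=
  if h : j.1 = x.1 then (W x.1).t (h ▸ j.2) x.2 else 1

theorem tσ_same (W : ∀ n, Wl (J n)) (n : N) (j : J n) (x : (W n).E) :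
    tσ W ⟨n, j⟩ ⟨n, x⟩ = (W n).t j x := dif_pos rfl

theorem tσ_ne (W : ∀ n, Wl (J n)) {j : Σ n, J n} {x : Σ n, (W n).E} (h : j.1 ≠ x.1) :
    tσ W j x = 1 := dif_neg h

theorem tσ_lt (W : ∀ n, Wl (J n)) {j : Σ n, J n} {x : Σ n, (W n).E} (h : tσ W j x < 1) :
    j.1 = x.1 := by
  by_contra e
  exact absurd (tσ_ne W e) h.ne

/-- disjoint union of manifolds with walls -/
def Wl.sigma (W : ∀ n, Wl (J n)) : Wl (Σ n, J n) where
  E := Σ n, (W n).E
  t j := ⟨tσ W j, continuous_sigma fun n => by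
    by_cases h : j.1 = n
    · obtain ⟨m, j⟩ := j
      obtain rfl : m = n := h
      simpa only [tσ_same] using ((W m).t j).continuous
    · simpa only [tσ_ne W (j := j) (x := ⟨n, _⟩) h] using continuous_const⟩
  t_nonneg j x := by
    change 0 ≤ tσ W j x
    unfold tσ
    split_ifs
    exacts [(W _).t_nonneg _ _, zero_le_one]
  dis := by
    rintro ⟨n, j⟩ ⟨n', j'⟩ ⟨m, x⟩ h h'
    obtain rfl : n = m := tσ_lt W h
    obtain rfl : n' = n := tσ_lt W h'
    exact congrArg _ ((W n').dis j j' x ((tσ_same W ..).symm.trans_lt h)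
      ((tσ_same W ..).symm.trans_lt h'))
  κ j := ⟨fun y => ⟨j.1, (W j.1).κ j.2 y⟩, continuous_sigmaMk.comp ((W j.1).κ j.2).continuous⟩
  emb j := IsEmbedding.sigmaMk.comp ((W j.1).emb j.2)
  tκ j v s := (tσ_same W ..).trans ((W j.1).tκ j.2 v s)
  κ_sur := by
    rintro ⟨n, j⟩ ⟨m, x⟩ h
    obtain rfl : n = m := tσ_lt W h
    obtain ⟨v, s, e⟩ := (W n).κ_sur j x ((tσ_same W ..).symm.trans_lt h)
    exact ⟨v, s, congrArg _ e⟩
  man := by
    rintro ⟨n, x⟩ h
    exact LE.map IsOpenEmbedding.sigmaMk ((W n).man x fun j => (h ⟨n, j⟩).trans_eq (tσ_same W ..))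

/-- faces of a disjoint union -/
def SF (Fc : ∀ n, Set (S n) → Prop) (A : Set (Σ n, S n)) : Prop :=
  ∃ n B, Fc n B ∧ A = Sigma.mk n '' B

/-- wall tori of a disjoint union -/
def wσ (wl : ∀ n, J n → Tor → S n) (j : Σ n, J n) (t : Tor) : Σ n, S n := ⟨j.1, wl j.1 j.2 t⟩

/-- disjoint union of pieces -/
def Bk.sigma [Fintype N] [∀ n, Fintype (S n)] {Fc : ∀ n, Set (S n) → Prop}
    {wl : ∀ n, J n → Tor → S n} (P : ∀ n, Bk (Fc n) (wl n)) : Bk (SF Fc) (wσ wl) where
  toWl := Wl.sigma fun n => (P n).toWl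
  p := ⟨fun x => pu (Sigma.mk x.1) ((P x.1).p x.2),
    continuous_sigma fun n => (cont (Sigma.mk n)).comp (P n).p.continuous⟩
  p_mem x := ⟨nonneg _ ((P x.1).p_mem x.2).1,
    x.1, _, ((P x.1).p_mem x.2).2, supp sigma_mk_injective _⟩
  inj := by
    rintro ⟨n, x⟩ ⟨n', x'⟩ h h0
    change pu (Sigma.mk n) ((P n).p x) = pu (Sigma.mk n') ((P n').p x') at h
    change pu (Sigma.mk n) ((P n).p x) ≠ 0 at h0
    obtain ⟨s, hs⟩ := Function.ne_iff.1 h0
    obtain ⟨a, ha, rfl⟩ : s ∈ Sigma.mk n '' {s | (P n).p x s ≠ 0} := by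
      rw [← supp sigma_mk_injective]; exact hs
    obtain ⟨b, -, e⟩ : (⟨n, a⟩ : Σ n, S n) ∈ Sigma.mk n' '' {s | (P n').p x' s ≠ 0} := by
      rw [← supp sigma_mk_injective, ← h]; exact hs
    obtain rfl : n' = n := congrArg Sigma.fst e
    refine congrArg _ ((P n').inj x x' (funext fun s => ?_) (Function.ne_iff.2 ⟨a, ha⟩))
    rw [← pu_at (c := Sigma.mk n') sigma_mk_injective ((P n').p x), h, pu_at sigma_mk_injective]
  sur := by
    rintro y ⟨h0, n, B, hB, e⟩ hy
    have hr : ∀ s, y s ≠ 0 → s ∈ range (Sigma.mk n) := fun s hs =>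
      image_subset_range _ B (e ▸ hs)
    have hB' : {s | y ⟨n, s⟩ ≠ 0} = B := by
      ext s
      rw [← sigma_mk_injective.mem_set_image (s := B), ← e]
      rfl
    obtain ⟨x, hx⟩ := (P n).sur (fun s => y ⟨n, s⟩) ⟨fun s => h0 _, hB' ▸ hB⟩ fun h => hy (by
      rw [← pu_res sigma_mk_injective hr, h]
      funext s
      simp [pu])
    exact ⟨⟨n, x⟩, (congrArg (pu (Sigma.mk n)) hx).trans (pu_res sigma_mk_injective hr)⟩
  cpt R := by
    refine (isCompact_iUnion fun n => ((P n).cpt R).image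
      (@continuous_sigmaMk N (fun n => (P n).E) _ n)).of_isClosed_subset
      (isClosed_le (Continuous.norm (continuous_sigma fun n =>
        (cont (Sigma.mk n)).comp (P n).p.continuous)) continuous_const) ?_
    rintro ⟨n, x⟩ hx
    exact mem_iUnion.2 ⟨n, x, (norm_le sigma_mk_injective _).trans hx, rfl⟩
  pκ j v := (congrArg (pu (Sigma.mk j.1)) ((P j.1).pκ j.2 v)).trans (pu_pu' ..)

end sigma

/-! ### renaming -/

/-- renaming the walls -/
def Wl.reindex {J J' : Type} (W : Wl J) (e : J' ≃ J) : Wl J' where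
  E := W.E
  t j := W.t (e j)
  t_nonneg _ := W.t_nonneg _
  dis _ _ x h h' := e.injective (W.dis _ _ x h h')
  κ j := W.κ (e j)
  emb _ := W.emb _
  tκ _ := W.tκ _
  κ_sur _ := W.κ_sur _
  man x h := W.man x fun j => by simpa using h (e.symm j)

/-- reparametrising the walls -/
def Wl.repar {J : Type} (W : Wl J) (e : J → VW ≃ₜ VW) : Wl J where
  E := W.E
  t := W.t
  t_nonneg := W.t_nonneg
  dis := W.dis
  κ j := (W.κ j).comp ⟨fun y => (e j y.1, y.2), by fun_prop⟩
  emb j := (W.emb j).comp ((e j).isEmbedding.prodMap IsEmbedding.id)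
  tκ j v s := W.tκ j _ s
  κ_sur j x h := by
    obtain ⟨v, s, h⟩ := W.κ_sur j x h
    exact ⟨(e j).symm v, s, by simpa using h⟩
  man := W.man

variable {S S' J J' : Type} [Fintype S] {Fc : Set S → Prop} {wl : J → Tor → S}

/-- renaming the walls -/
def Bk.reindex (P : Bk Fc wl) (e : J' ≃ J) : Bk Fc fun j => wl (e j) where
  toWl := P.toWl.reindex e
  p := P.p
  p_mem := P.p_mem
  inj := P.inj
  sur := P.sur
  cpt := P.cpt
  pκ _ := P.pκ _

/-- reparametrising the walls -/
def Bk.repar (P : Bk Fc wl) (e : J → VW ≃ₜ VW) (ρ : J → Tor → Tor)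
    (h : ∀ j v, pV (e j v) = pu (ρ j) (pV v)) : Bk Fc fun j t => wl j (ρ j t) where
  toWl := P.toWl.repar e
  p := P.p
  p_mem := P.p_mem
  inj := P.inj
  sur := P.sur
  cpt := P.cpt
  pκ j v := (P.pκ j (e j v)).trans (by rw [h, pu_pu'])

/-- changing the description of the faces and of the tori -/
def Bk.congr (P : Bk Fc wl) {Fc' : Set S → Prop} {wl' : J → Tor → S} (h : ∀ A, Fc' A ↔ Fc A)
    (h' : ∀ j t, wl' j t = wl j t) : Bk Fc' wl' where
  toWl := P.toWl
  p := P.p
  p_mem x := ⟨(P.p_mem x).1, (h _).2 (P.p_mem x).2⟩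
  inj := P.inj
  sur y hy := P.sur y ⟨hy.1, (h _).1 hy.2⟩
  cpt := P.cpt
  pκ j v := (P.pκ j v).trans (by rw [funext (h' j)])

/-- renaming the vertices -/
def Bk.relabel [Fintype S'] (P : Bk Fc wl) (e : S ≃ S') :
    Bk (fun A => Fc (e ⁻¹' A)) fun j t => e (wl j t) where
  toWl := P.toWl
  p := ⟨fun x => pu e (P.p x), (cont e).comp P.p.continuous⟩
  p_mem x := ⟨nonneg _ (P.p_mem x).1, by
    change Fc (e ⁻¹' {s | pu e (P.p x) s ≠ 0})
    rw [supp e.injective, e.injective.preimage_image]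
    exact (P.p_mem x).2⟩
  inj x x' h h0 := P.inj x x'
    (funext fun s => by rw [← pu_at e.injective (P.p x), ← pu_at e.injective (P.p x')]; exact congrFun h _)
    fun h1 => h0 (by
      change pu e (P.p x) = 0
      rw [h1, pu_eqv]; rfl)
  sur y hy h0 := by
    have hr : pu e (fun s => y (e s)) = y := pu_res e.injective fun s _ => e.surjective s
    obtain ⟨x, hx⟩ := P.sur (fun s => y (e s)) ⟨fun s => hy.1 _, hy.2⟩ fun h => h0 (by
      rw [← hr, h, pu_eqv]; rfl)
    exact ⟨x, (congrArg (pu e) hx).trans hr⟩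
  cpt R := (P.cpt R).of_isClosed_subset
    (isClosed_le ((cont e).comp P.p.continuous).norm continuous_const)
    fun x hx => (norm_le e.injective _).trans hx
  pκ j v := (congrArg (pu e) (P.pκ j v)).trans (pu_pu' ..)

/-! ### reflections of the wall -/

/-- the reflection of the four-cycle -/
def rK : Fin 4 ≃ Fin 4 := Equiv.swap 1 3

theorem norm_sw (z : R2) : ‖z.swap‖ = ‖z‖ := by rw [nrm, nrm, max_comm]; rfl

/-- the reflection of the circle -/
def swK : KK ≃ₜ KK where
  toFun k := ⟨k.1.swap, by rw [mem_KK, norm_sw, norm_KK]⟩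
  invFun k := ⟨k.1.swap, by rw [mem_KK, norm_sw, norm_KK]⟩
  left_inv _ := rfl
  right_inv _ := rfl
  continuous_toFun := by fun_prop
  continuous_invFun := by fun_prop

/-- reflections of the two factors of the wall -/
def swV (a b : Bool) : VW ≃ₜ VW :=
  (if a then swK else .refl _).prodCongr (if b then Homeomorph.prodComm _ _ else .refl _)

/-- reflections of the two factors of the torus -/
def rT (a b : Bool) : Tor ≃ Tor := (if a then rK else .refl _).prodCongr (if b then rK else .refl _)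

theorem vx_rK (i : Fin 4) : vx (rK i) = (vx i).swap := by fin_cases i <;> rfl

theorem hK_rK (i : Fin 4) : hK (rK i) = hK i := by fin_cases i <;> rfl

theorem KF_rK {A : Set (Fin 4)} (h : KF A) : KF (rK '' A) := by
  obtain ⟨i, h⟩ := h
  refine ⟨3 - i, ?_⟩
  rintro _ ⟨a, ha, rfl⟩
  have key : ∀ i a : Fin 4, a = i ∨ a = i + 1 → rK a = 3 - i ∨ rK a = 3 - i + 1 := by decide
  exact key i a (h ha)

theorem TF_rT (a b : Bool) {A : Set Tor} (h : TF A) : TF (rT a b '' A) := by
  obtain ⟨h1, h2, h3⟩ := h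
  have k1 : ∀ t, hK (rT a b t).1 = hK t.1 := fun t => by cases a <;> simp [rT, hK_rK]
  have k2 : ∀ t, hK (rT a b t).2 = hK t.2 := fun t => by cases b <;> simp [rT, hK_rK]
  refine ⟨?_, ?_, ?_⟩
  · cases a
    · convert h1 using 1; ext; simp [rT]
    · convert KF_rK h1 using 1; rw [image_image, image_image]; rfl
  · cases b
    · convert h2 using 1; ext; simp [rT]
    · convert KF_rK h2 using 1; rw [image_image, image_image]; rfl
  · rintro _ ⟨s, hs, rfl⟩ _ ⟨t, ht, rfl⟩
    simpa only [k1, k2] using h3 s hs t ht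

theorem rl_sw (y : Tor → ℝ) (f : Tor → R2) : rl (fun t => (f t).swap) y = (rl f y).swap := by
  ext <;> simp [rl, Prod.fst_sum, Prod.snd_sum]

theorem pV_sw (hT : Tri TF pT (Metric.sphere 0 1 ×ˢ Metric.sphere 0 1)) (a b : Bool) (v : VW) :
    pV (swV a b v) = pu (rT a b) (pV v) := by
  have e0 : ‖(swV a b v).2‖ = ‖v.2‖ := by cases b <;> simp [swV, norm_sw]
  have e1 : ht (swV a b v).2 = ht v.2 := by rw [ht, ht, e0]
  rw [pu_eqv, pV, pV, e1]
  rcases le_or_gt ‖v.2‖ 1 with h | h
  · have : ht v.2 = 0 := max_eq_left (by linarith)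
    rw [this, zero_smul, zero_smul]; rfl
  have hm : (v.1.1, nz v.2) ∈ Metric.sphere (0 : R2) 1 ×ˢ Metric.sphere (0 : R2) 1 :=
    ⟨v.1.2, mem_KK.2 (norm_nz (by linarith))⟩
  set y := iv TF pT (v.1.1, nz v.2) with hy
  have y1 : y ∈ Dl TF := Function.invFunOn_mem (hT.bij.surjOn hm)
  have y2 : rl pT y = (v.1.1, nz v.2) := Function.invFunOn_eq (hT.bij.surjOn hm)
  have z1 : pu (rT a b) y ∈ Dl TF := ⟨⟨nonneg _ y1.1.1, by
    rw [supp (rT a b).injective]; exact TF_rT a b y1.1.2⟩, by
    rw [pu_eqv, (rT a b).symm.sum_comp y]; exact y1.2⟩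
  have z2 : rl pT (pu (rT a b) y) = ((swV a b v).1.1, nz (swV a b v).2) := by
    have : rl pT (pu (rT a b) y) = rl (fun t => pT (rT a b t)) y := by
      rw [pu_eqv, rl, rl, ← (rT a b).sum_comp]; simp
    have f1 : rl (fun t : Tor => vx t.1) y = v.1.1 := by
      rw [← show (rl pT y).1 = v.1.1 from congrArg Prod.fst y2]; simp [rl, pT, Prod.fst_sum]
    have f2 : rl (fun t : Tor => vx t.2) y = nz v.2 := by
      rw [← show (rl pT y).2 = nz v.2 from congrArg Prod.snd y2]; simp [rl, pT, Prod.snd_sum]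
    have g : rl (fun t => pT (rT a b t)) y =
        (rl (fun t => vx (rT a b t).1) y, rl (fun t => vx (rT a b t).2) y) := by
      ext1 <;> simp [rl, pT, Prod.fst_sum, Prod.snd_sum]
    rw [this, g]
    refine Prod.ext ?_ ?_
    · cases a
      · simpa [rT, swV] using f1
      · have := rl_sw y fun t => vx t.1
        rw [f1] at this
        simpa [rT, swV, swK, vx_rK] using this
    · cases b
      · simpa [rT, swV] using f2
      · have := rl_sw y fun t => vx t.2
        rw [f2] at this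
        simpa [rT, swV, vx_rK, nz, norm_sw] using this
  have z3 : iv TF pT ((swV a b v).1.1, nz (swV a b v).2) = pu (rT a b) y := by
    rw [← z2]; exact hT.bij.injOn.leftInvOn_invFunOn z1
  rw [z3, pu_eqv]; rfl

/-- reflecting the walls -/
def Bk.refl' (hT : Tri TF pT (Metric.sphere 0 1 ×ˢ Metric.sphere 0 1)) (P : Bk Fc wl)
    (a b : J → Bool) : Bk Fc fun j t => wl j (rT (a j) (b j) t) :=
  P.repar (fun j => swV (a j) (b j)) (fun j => rT (a j) (b j)) fun j => pV_sw hT (a j) (b j)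

end Crest.Agent.N233.Pc

end
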