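import Crest.Agent.N233.Pc.Tri

/-!
# Row 233 (helper14): ordered products of triangulations
-/

set_option autoImplicit false
open Set Topology Filter

noncomputable section

namespace Crest.Agent.N233.Pc

section prod

variable {S S' G G' : Type} [Fintype S] [Fintype S'] [NormedAddCommGroup G] [NormedSpace ℝ G]
  [NormedAddCommGroup G'] [NormedSpace ℝ G'] {Fc : Set S → Prop} {Fc' : Set S' → Prop}
  {h : S → ℕ} {h' : S' → ℕ}

/-- the mass below the height `a` -/
def lo (h : S → ℕ) (μ : S → ℝ) (a : ℕ) : ℝ := ∑ t, if h t < a then μ t else 0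

theorem lo_nonneg {μ : S → ℝ} (p : ∀ s, 0 ≤ μ s) (a : ℕ) : 0 ≤ lo h μ a :=
  Finset.sum_nonneg fun s _ => by split_ifs; exacts [p s, le_rfl]

theorem lo_le {μ : S → ℝ} (p : ∀ s, 0 ≤ μ s) (a : ℕ) : lo h μ a ≤ ∑ s, μ s :=
  Finset.sum_le_sum fun s _ => by split_ifs; exacts [le_rfl, p s]

theorem hi_le {μ : S → ℝ} (p : ∀ s, 0 ≤ μ s) {s : S} {a : ℕ} (k : h s < a) :
    lo h μ (h s) + μ s ≤ lo h μ a := by
  classical
  have : μ s = ∑ t, if t = s then μ t else 0 := by simp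
  rw [this, lo, ← Finset.sum_add_distrib]
  refine Finset.sum_le_sum fun t _ => ?_
  have := p t
  by_cases e : t = s
  · simp [e, k]
  · simp only [e, if_false, add_zero]
    split_ifs <;> first | rfl | omega | exact this

theorem tele_aux {μ : S → ℝ} (hi : InjOn h {s | μ s ≠ 0}) (g : ℝ → ℝ) (a : ℕ) :
    ∑ s, (if h s < a then g (lo h μ (h s) + μ s) - g (lo h μ (h s)) else 0) =
      g (lo h μ a) - g 0 := by
  classical
  induction a with
  | zero => simp [lo]
  | succ a ih =>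
    have sp : ∀ φ : S → ℝ, ∑ s, (if h s < a + 1 then φ s else 0) =
        ∑ s, (if h s < a then φ s else 0) + ∑ s, if h s = a then φ s else 0 := fun φ => by
      rw [← Finset.sum_add_distrib]
      exact Finset.sum_congr rfl fun s _ => by split_ifs <;> first | omega | simp
    have e : lo h μ (a + 1) = lo h μ a + ∑ s, if h s = a then μ s else 0 := sp μ
    rw [sp, ih, e]
    by_cases k : ∃ s, μ s ≠ 0 ∧ h s = a
    · obtain ⟨s, k1, k2⟩ := k
      have z : ∀ t, t ≠ s → h t = a → μ t = 0 := fun t n e =>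
        by_contra fun w => n (hi w k1 (e.trans k2.symm))
      rw [Finset.sum_eq_single s (fun t _ n => by split_ifs with e; exacts [by simp [z t n e], rfl])
        (by simp), Finset.sum_eq_single s (fun t _ n => by split_ifs with e; exacts [z t n e, rfl])
        (by simp), if_pos k2, if_pos k2, k2]
      ring
    · have z : ∀ t, h t = a → μ t = 0 := fun t e => by_contra fun w => k ⟨t, w, e⟩
      rw [Finset.sum_eq_zero (fun t _ => by split_ifs with e; exacts [by simp [z t e], rfl]),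
        Finset.sum_eq_zero (fun t _ => by split_ifs with e; exacts [z t e, rfl])]
      simp

theorem tele {μ : S → ℝ} (hi : InjOn h {s | μ s ≠ 0}) (g : ℝ → ℝ) :
    ∑ s, (g (lo h μ (h s) + μ s) - g (lo h μ (h s))) = g (∑ s, μ s) - g 0 := by
  have k : ∀ s, h s < Finset.univ.sup h + 1 := fun s =>
    Nat.lt_succ_of_le (Finset.le_sup (f := h) (Finset.mem_univ s))
  simpa only [k, if_true, lo] using tele_aux hi g (Finset.univ.sup h + 1)

theorem min_box {a b c d : ℝ} (h1 : a ≤ b) (h2 : c ≤ d) :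
    0 ≤ min b d - min a d - (min b c - min a c) ∧
      (min b d - min a d - (min b c - min a c) ≠ 0 → a < d ∧ c < b ∧ a < b ∧ c < d) := by
  simp only [min_def]
  split_ifs <;> refine ⟨by linarith, fun k => ⟨?_, ?_, ?_, ?_⟩⟩ <;> by_contra w <;>
    exact k (by linarith)

/-- the monotone coupling -/
theorem exists_coupling {μ : S → ℝ} {μ' : S' → ℝ} (m : μ ∈ Dl Fc) (m' : μ' ∈ Dl Fc')
    (hi : InjOn h {s | μ s ≠ 0}) (hi' : InjOn h' {s | μ' s ≠ 0}) :
    ∃ ν ∈ Dl (PF Fc h Fc' h'), pu Prod.fst ν = μ ∧ pu Prod.snd ν = μ' := by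
  classical
  set ν : S × S' → ℝ := fun a =>
    min (lo h μ (h a.1) + μ a.1) (lo h' μ' (h' a.2) + μ' a.2) -
      min (lo h μ (h a.1)) (lo h' μ' (h' a.2) + μ' a.2) -
      (min (lo h μ (h a.1) + μ a.1) (lo h' μ' (h' a.2)) -
        min (lo h μ (h a.1)) (lo h' μ' (h' a.2))) with hν
  have bx := fun a : S × S' => min_box (le_add_of_nonneg_right (a := lo h μ (h a.1)) (m.1.1 a.1))
    (le_add_of_nonneg_right (a := lo h' μ' (h' a.2)) (m'.1.1 a.2))
  have e1 : pu Prod.fst ν = μ := funext fun s => by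
    have := tele hi' fun x => min (lo h μ (h s) + μ s) x - min (lo h μ (h s)) x
    have u := (hi_le m.1.1 (Nat.lt_succ_self (h s))).trans (lo_le m.1.1 _)
    have l := lo_nonneg (h := h) m.1.1 (h s)
    have := m.1.1 s
    rw [m.2] at u
    rw [m'.2, min_eq_left u, min_eq_left (by linarith), min_eq_right (by linarith),
      min_eq_right l] at *
    rw [pu, Fintype.sum_prod_type, Finset.sum_eq_single s (fun t _ n => by simp [n]) (by simp)]
    simp only [if_true, hν]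
    linarith
  have e2 : pu Prod.snd ν = μ' := funext fun s => by
    have := tele hi fun x => min x (lo h' μ' (h' s) + μ' s) - min x (lo h' μ' (h' s))
    have u := (hi_le m'.1.1 (Nat.lt_succ_self (h' s))).trans (lo_le m'.1.1 _)
    have l := lo_nonneg (h := h') m'.1.1 (h' s)
    have := m'.1.1 s
    rw [m'.2] at u
    rw [m.2, min_eq_right u, min_eq_right (by linarith), min_eq_left (by linarith),
      min_eq_left l] at *
    rw [pu, Fintype.sum_prod_type_right, Finset.sum_eq_single s (fun t _ n => by simp [n]) (by simp)]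
    simp only [if_true, hν]
    rw [Finset.sum_congr rfl fun t _ => sub_sub_sub_comm _ _ _ _]
    linarith
  have p : ∀ a, 0 ≤ ν a := fun a => (bx a).1
  refine ⟨ν, ⟨⟨p, ?_, ?_, fun a ha b hb => ?_⟩, ?_⟩, e1, e2⟩
  · rw [← supp_pu _ p, e1]; exact m.1.2
  · rw [← supp_pu _ p, e2]; exact m'.1.2
  · have x := (bx a).2 ha
    have y := (bx b).2 hb
    by_contra w
    rcases (by omega : (h a.1 < h b.1 ∧ h' b.2 < h' a.2) ∨ (h b.1 < h a.1 ∧ h' a.2 < h' b.2)) with
      ⟨k, k'⟩ | ⟨k, k'⟩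
    · linarith [hi_le m.1.1 k, hi_le m'.1.1 k', x.2.1, y.1]
    · linarith [hi_le m.1.1 k, hi_le m'.1.1 k', x.1, y.2.1]
  · rw [← sum_pu Prod.fst, e1, m.2]

theorem PF.fst {ν : S × S' → ℝ} (m : ν ∈ Dl (PF Fc h Fc' h')) : pu Prod.fst ν ∈ Dl Fc :=
  pu_Dl m fun _ k => k.1

theorem PF.snd {ν : S × S' → ℝ} (m : ν ∈ Dl (PF Fc h Fc' h')) : pu Prod.snd ν ∈ Dl Fc' :=
  pu_Dl m fun _ k => k.2.1

theorem lo_pu (c : S' → S) (ν : S' → ℝ) (a : ℕ) :
    lo h (pu c ν) a = ∑ p, if h (c p) < a then ν p else 0 := by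
  simpa [lo] using sum_pu_smul c ν fun s => if h s < a then (1 : ℝ) else 0

theorem box_min {ν : S × S' → ℝ} (m : ν ∈ Dl (PF Fc h Fc' h')) (a b : ℕ) :
    (∑ p, if h p.1 < a ∧ h' p.2 < b then ν p else 0) =
      min (lo h (pu Prod.fst ν) a) (lo h' (pu Prod.snd ν) b) := by
  rw [lo_pu, lo_pu]
  have p := m.1.1
  have l1 : (∑ p, if h p.1 < a ∧ h' p.2 < b then ν p else 0) ≤ ∑ p, if h p.1 < a then ν p else 0 :=
    Finset.sum_le_sum fun q _ => by split_ifs <;> first | rfl | omega | exact p q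
  have l2 : (∑ p, if h p.1 < a ∧ h' p.2 < b then ν p else 0) ≤ ∑ p, if h' p.2 < b then ν p else 0 :=
    Finset.sum_le_sum fun q _ => by split_ifs <;> first | rfl | omega | exact p q
  by_cases k : ∀ q, ν q ≠ 0 → h q.1 < a → h' q.2 < b
  · refine le_antisymm (le_min l1 l2) (min_le_of_left_le (le_of_eq (Finset.sum_congr rfl fun q _ => ?_)))
    by_cases z : ν q = 0
    · simp [z]
    · have := k q z
      split_ifs <;> first | rfl | omega
  · push Not at k
    obtain ⟨r, k1, k2, k3⟩ := k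
    refine le_antisymm (le_min l1 l2) (min_le_of_right_le (le_of_eq (Finset.sum_congr rfl fun q _ => ?_)))
    by_cases z : ν q = 0
    · simp [z]
    · have := m.1.2.2.2 q z r k1
      split_ifs <;> first | rfl | omega

theorem coupling_eq {ν : S × S' → ℝ} (m : ν ∈ Dl (PF Fc h Fc' h'))
    (hh : ∀ A, Fc A → InjOn h A) (hh' : ∀ A, Fc' A → InjOn h' A) {s : S} {s' : S'}
    (k : pu Prod.fst ν s ≠ 0) (k' : pu Prod.snd ν s' ≠ 0) :
    ν (s, s') = min (lo h (pu Prod.fst ν) (h s + 1)) (lo h' (pu Prod.snd ν) (h' s' + 1)) -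
      min (lo h (pu Prod.fst ν) (h s)) (lo h' (pu Prod.snd ν) (h' s' + 1)) -
      (min (lo h (pu Prod.fst ν) (h s + 1)) (lo h' (pu Prod.snd ν) (h' s')) -
        min (lo h (pu Prod.fst ν) (h s)) (lo h' (pu Prod.snd ν) (h' s'))) := by
  simp only [← box_min m, ← Finset.sum_sub_distrib]
  rw [Finset.sum_eq_single (s, s') (fun q _ n => ?_) (by simp)]
  · simp
  · by_cases z : ν q = 0
    · simp [z]
    · have : ¬(h q.1 = h s ∧ h' q.2 = h' s') := fun e => n (Prod.ext
        (hh _ m.1.2.1 ⟨q, z, rfl⟩ ((pu_ne _ m.1.1 _).1 k) e.1)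
        (hh' _ m.1.2.2.1 ⟨q, z, rfl⟩ ((pu_ne _ m.1.1 _).1 k') e.2))
      split_ifs <;> first | omega | simp

theorem PF_down (d : ∀ A B : Set S, A ⊆ B → Fc B → Fc A) (d' : ∀ A B : Set S', A ⊆ B → Fc' B → Fc' A)
    (A B : Set (S × S')) (k : A ⊆ B) (f : PF Fc h Fc' h' B) : PF Fc h Fc' h' A :=
  ⟨d _ _ (image_mono k) f.1, d' _ _ (image_mono k) f.2.1, fun a ha b hb => f.2.2 a (k ha) b (k hb)⟩

omit [Fintype S] [Fintype S'] in
theorem PF_injOn (hh : ∀ A, Fc A → InjOn h A) (hh' : ∀ A, Fc' A → InjOn h' A) (A : Set (S × S'))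
    (f : PF Fc h Fc' h' A) : InjOn (fun a => h a.1 + h' a.2) A := fun a ha b hb e => by
  have := f.2.2 a ha b hb
  simp only at e
  exact Prod.ext (hh _ f.1 ⟨a, ha, rfl⟩ ⟨b, hb, rfl⟩ (by omega))
    (hh' _ f.2.1 ⟨a, ha, rfl⟩ ⟨b, hb, rfl⟩ (by omega))

theorem rl_prod (pos : S → G) (pos' : S' → G') (ν : S × S' → ℝ) :
    rl (fun a => (pos a.1, pos' a.2)) ν = (rl pos (pu Prod.fst ν), rl pos' (pu Prod.snd ν)) := by
  rw [rl_pair, rl_pu, rl_pu]

/-- **ordered product** -/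
theorem Tri.prod {pos : S → G} {pos' : S' → G'} {C : Set G} {C' : Set G'} (T : Tri Fc pos C)
    (T' : Tri Fc' pos' C') (hh : ∀ A, Fc A → InjOn h A) (hh' : ∀ A, Fc' A → InjOn h' A) :
    Tri (PF Fc h Fc' h') (fun a => (pos a.1, pos' a.2)) (C ×ˢ C') := by
  refine ⟨PF_down T.down T'.down, ⟨by simpa using T.emp, by simpa using T'.emp, by simp⟩,
    fun ν m => ?_, fun ν m ν' m' e => ?_, fun x hx => ?_⟩
  · rw [rl_prod]
    exact ⟨T.rl_mem (PF.fst m), T'.rl_mem (PF.snd m)⟩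
  · rw [rl_prod, rl_prod, Prod.mk.injEq] at e
    have e1 := T.bij.injOn (PF.fst m) (PF.fst m') e.1
    have e2 := T'.bij.injOn (PF.snd m) (PF.snd m') e.2
    funext ⟨s, s'⟩
    have z : ∀ {μ : S × S' → ℝ}, μ ∈ Dl (PF Fc h Fc' h') →
        (pu Prod.fst μ s = 0 ∨ pu Prod.snd μ s' = 0) → μ (s, s') = 0 := fun {μ} k w =>
      le_antisymm (w.elim (fun w => w ▸ le_pu Prod.fst k.1.1 (s, s'))
        fun w => w ▸ le_pu Prod.snd k.1.1 (s, s')) (k.1.1 _)
    by_cases w : pu Prod.fst ν s = 0 ∨ pu Prod.snd ν s' = 0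
    · rw [z m w, z m' (e1 ▸ e2 ▸ w)]
    · rw [not_or] at w
      rw [coupling_eq m hh hh' w.1 w.2, coupling_eq m' hh hh' (e1 ▸ w.1) (e2 ▸ w.2), e1, e2]
  · obtain ⟨ν, m, e1, e2⟩ := exists_coupling (T.iv_mem hx.1) (T'.iv_mem hx.2)
      (hh _ (T.iv_mem hx.1).1.2) (hh' _ (T'.iv_mem hx.2).1.2)
    exact ⟨ν, m, by rw [rl_prod, e1, e2, T.rl_iv hx.1, T'.rl_iv hx.2]⟩

end prod

theorem hK_injOn (A : Set (Fin 4)) (f : KF A) : InjOn hK A := by
  obtain ⟨i, k⟩ := f
  refine InjOn.mono k fun a ha b hb => ?_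
  simp only [mem_insert_iff, mem_singleton_iff] at ha hb
  clear k
  revert i a b
  decide

theorem hT_injOn (A : Set Tor) (f : TF A) : InjOn hT A := PF_injOn hK_injOn hK_injOn A f

theorem hI_injOn (n : ℕ) (A : Set (Fin (2 * n + 2))) (f : IF n A) : InjOn (hI n) A := by
  obtain ⟨i, k⟩ := f
  intro a ha b hb e
  have := k a ha
  have := k b hb
  simp only [hI] at e
  apply Fin.ext
  split_ifs at e <;> omega

theorem triT : Tri TF pT (Metric.sphere (0 : R2) 1 ×ˢ Metric.sphere (0 : R2) 1) :=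
  triK.prod triK hK_injOn hK_injOn

theorem tt : TT := triT

end Crest.Agent.N233.Pc

end
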