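import Crest.Agent.N233.Pc.Kit
import Crest.Agent.N233.Pc.TriP
import Crest.Agent.N233.Pc.Sum
import Crest.Agent.N233.Pc.GmB
import Crest.Agent.N233.Pc.GmS
import Crest.Agent.N233.Wu.Tw
import Crest.Agent.N255.Da.Graph

/-!
# Row 233 (helper68): the bipartite filling, data

Even vertices of the tree omit the type `0`, odd ones the type `1`; on the loops of type `2` the central
hole is chosen.
-/

set_option autoImplicit false
open Set

noncomputable section

namespace Crest.Agent.N233.Pc.In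

open Crest.Agent.N255

/-- the free group -/
abbrev F3 : Type := FreeGroup (Fin 3)

/-- the height -/
def χ : F3 →* Multiplicative ℤ := FreeGroup.lift ![.ofAdd 1, .ofAdd 1, 1]

/-- the even elements -/
abbrev F2 : Subgroup F3 := Wu.Gn χ 2

/-- vertices of one piece -/
abbrev V3 : Type := Fin 4 × Fin 4 × Fin 4

/-- pieces: parity of the vertex; `none` Borromean, `some i` Seifert of type `i` -/
abbrev Nd : Type := Bool × Option (Fin 3)

/-- walls: `(ε, i, false)` between `B` and `S i` at parity `ε`; `(ε, i, true)` along the edge from `v` of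
parity `ε` to `v * of i` -/
abbrev Ed : Type := Bool × Fin 3 × Bool

/-- the omitted type -/
def om (ε : Bool) : Fin 3 := if ε then 1 else 0

/-- parity at the end of the edge -/
def nx (ε : Bool) (i : Fin 3) : Bool := if i = 2 then ε else !ε

/-- is the fibre killed -/
def ty (ε : Bool) (i : Fin 3) (j : JS 1) : Bool := decide (i ≠ om ε ∧ (i = 2 → j ≠ .inl 0))

theorem ty_ok (ε : Bool) (i : Fin 3) : ty ε i (.inr true) = false → ∀ j, ty ε i j = false := by
  revert ε i; decide

/-- walls of a Seifert piece: outer, central, side -/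
def e3 : Fin 3 ≃ JS 1 where
  toFun := ![.inr true, .inr false, .inl 0]
  invFun := Sum.elim (fun _ => 2) fun b => if b then 0 else 1
  left_inv := by decide
  right_inv := by decide

/-- the two sides of a wall -/
def eJ : Ed × Bool ≃ Σ _ : Nd, Fin 3 where
  toFun
    | ((ε, i, false), true) => ⟨(ε, none), i - om ε⟩
    | ((ε, i, false), false) => ⟨(ε, some i), 0⟩
    | ((ε, i, true), true) => ⟨(ε, some i), 2⟩
    | ((ε, i, true), false) => ⟨(nx ε i, some i), 1⟩
  invFun
    | ⟨(ε, none), k⟩ => ((ε, k + om ε, false), true)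
    | ⟨(ε, some i), k⟩ => if k = 0 then ((ε, i, false), false) else
        if k = 2 then ((ε, i, true), true) else ((nx ε i, i, true), false)
  left_inv := by decide
  right_inv := by decide

/-- the node of a side of a wall -/
def wn (j : Ed × Bool) : Nd := (eJ j).1

/-- faces -/
def Fn : Nd → Set V3 → Prop
  | (_, none) => FB
  | (_, some _) => FS 1

/-- wall tori before reflection -/
def w0 : Nd → Fin 3 → Tor → V3
  | (_, none) => wB
  | (ε, some i) => fun k => wS 1 (ty ε i) (e3 k)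

/-- reflect the surviving circle -/
def ra : Nd → Fin 3 → Bool
  | (_, none), _ => false
  | (ε, some i), k => decide (k = 2) && !ty ε i (.inl 0)

/-- reflect the killed circle -/
def rb : Nd → Fin 3 → Bool
  | (_, none), _ => false
  | (ε, some i), k => decide (k = 2) && ty ε i (.inl 0)

/-- wall tori -/
def w1 (n : Nd) (k : Fin 3) (t : Tor) : V3 := w0 n k (rT (ra n k) (rb n k) t)

/-- all vertices -/
abbrev SV : Type := Σ _ : Nd, V3

/-- all faces -/
abbrev Fc : Set SV → Prop := SF Fn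

/-- all wall tori -/
def wl (j : Ed × Bool) : Tor → SV := wσ w1 (eJ j)

/-- the triangulations -/
structure TM : Prop where
  tB : Tri FB pB CB
  tS : Tri (FS 1) (pS 1) (CS 1)
  hB : ∀ j, ∀ μ ∈ Dl TF, pu (wB j) μ ∈ Dl FB ∧ rl pB (pu (wB j) μ) = τB j (rl pT μ)
  hS : ∀ ty j, ∀ μ ∈ Dl TF,
    pu (wS 1 ty j) μ ∈ Dl (FS 1) ∧ rl (pS 1) (pu (wS 1 ty j) μ) = τS 1 ty j (rl pT μ)

/-- the pieces before reflection -/
def P0 (H : TM) : ∀ n : Nd, Bk (Fn n) (w0 n)
  | (_, none) => gmB.bk tt H.tB H.hB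
  | (ε, some i) => ((gmS 1 (ty ε i) (ty_ok ε i)).bk tt H.tS (H.hS _)).reindex e3

/-- the pieces -/
def P1 (H : TM) (n : Nd) : Bk (Fn n) (w1 n) := (P0 H n).refl' tt (ra n) (rb n)

/-- **the disconnected piece** -/
def PP (H : TM) : Bk Fc wl := (Bk.sigma (P1 H)).reindex eJ

/-- the coset representative -/
def tp (ε : Bool) : F3 := if ε then .of 0 else 1

theorem χ_of (i : Fin 3) : (χ (.of i)).toAdd = if i = 2 then 0 else 1 := by
  fin_cases i <;> simp [χ]

theorem χ_tp (ε : Bool) : (χ (tp ε)).toAdd = if ε then 1 else 0 := by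
  cases ε <;> simp [tp, χ_of]

theorem vg_mem (ε : Bool) (i : Fin 3) : tp ε * .of i * (tp (nx ε i))⁻¹ ∈ F2 := by
  rw [Wu.mem_Gn, χ.map_mul, χ.map_mul, χ.map_inv, toAdd_mul, toAdd_mul, toAdd_inv, χ_tp, χ_tp, χ_of]
  revert ε i; decide

/-- voltages -/
def g : Ed × Bool → F2
  | ((ε, i, true), false) => ⟨tp ε * .of i * (tp (nx ε i))⁻¹, vg_mem ε i⟩
  | _ => 1

/-- the vertex of the tree under the copy `f` of the node `n` -/
def vt (f : F2) (n : Nd) : F3 := f.1 * tp n.1

/-- codes of the vertices of the three-torus -/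
def cT (x y z : Fin 4) : ℕ := 48 + 16 * x.1 + 4 * y.1 + z.1

/-- codes of the vertices of `B`: the coordinate `k` has type `k + om ε` -/
def cB (ε : Bool) (a : V3) : ℕ := if ε then cT a.2.2 a.1 a.2.1 else cT a.1 a.2.1 a.2.2

/-- codes of the vertices `(m, r, l)` of `S i` -/
def cP (i : Fin 3) (a : V3) : ℕ :=
  if a.2.1 = 0 then ![cT a.1 (ea a.2.2) (eb a.2.2), cT (eb a.2.2) a.1 (ea a.2.2),
    cT (ea a.2.2) (eb a.2.2) a.1] i
  else if a.2.1 = 3 then 112 + 32 * i.1 + 4 * a.1.1 + a.2.2.1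
  else if 2 ≤ a.1.1 then 16 * i.1 + 8 * (a.2.1.1 - 1) + 4 * (a.1.1 - 2) + a.2.2.1
  else 128 + 32 * i.1 + 4 * (-a.2.2).1 + (if a.1 = 0 then a.2.1.1 - 1 else 4 - a.2.1.1)

/-- codes -/
def cd : Nd → V3 → ℕ
  | (ε, none), a => cB ε a
  | (_, some i), a => cP i a

/-- the vertex with a given code -/
def dec (c : ℕ) : Da.VV :=
  if h : c < 112 then .inl ⟨c, h⟩ else
    .inr ((Fin.ofNat 3 ((c - 112) / 32), decide ((c - 112) / 16 % 2 = 1)), Fin.ofNat 16 (c - 112))

/-- labels in the chamber -/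
def lab (a : SV) : Da.VV := dec (cd a.1 a.2)

/-- vertices of the cover -/
abbrev St : Type := Pt.St (Fin 3) (Fin 112) (Fin 16)

/-- the copies -/
def cp (f : F2) (a : SV) : St := Pt.cp (vt f a.1) (lab a)

end Crest.Agent.N233.Pc.In

end
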