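import Crest.Agent.N233.Pc.GmB
import Crest.Agent.N233.Ae.Q

/-!
# Row 233 (helper86): the Borromean piece collapses onto its walls `1, 2`; the wall `0` is
null-homotopic modulo either of them
-/

set_option autoImplicit false
open Set unitInterval Topology

noncomputable section

namespace Crest.Agent.N233.Pc

namespace QB

open GB Ae

theorem nb_bot {k : R2} (h : k.2 = -1) : nb k = |k.1| := by
  rw [nb, sc, h, show k.1 * (-1 + 2) = k.1 by ring, max_eq_left (by simp)]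

theorem nb_le {k : R2} (h : ‖k‖ = 1) : nb k ≤ 1 ↔ k.2 = -1 := by
  refine ⟨fun a => ?_, fun a => (nb_bot a).trans_le (h ▸ le_max_left _ _)⟩
  have b := al_sc h (by linarith)
  rw [al_in ((sc_le k).trans a)] at b
  exact (congrArg Prod.snd b).symm

theorem le_nb {k : R2} (h : ‖k‖ = 1) : 1 ≤ nb k ↔ -|k.1| ≤ k.2 := by
  have b : |k.1| ≤ 1 := h ▸ le_max_left _ _
  by_cases a : k.2 = -1
  · rw [nb_bot a, a, neg_le_neg_iff]
  refine iff_of_true (le_of_not_ge fun c => a ((nb_le h).1 c)) ?_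
  have c : |k.2| ≤ 1 := h ▸ le_max_right _ _
  rcases max_eq_iff.1 (show max |k.1| |k.2| = 1 from h) with ⟨e, -⟩ | ⟨e, -⟩
  · rw [e]; exact (abs_le.1 c).1
  · rcases (abs_eq zero_le_one).1 e with e | e
    · linarith [abs_nonneg k.1]
    · exact absurd e a

/-- the speed of the collapse -/
def sp (q : KK × I) : ℝ := q.2 * min 1 (2 * nb q.1.1)

theorem sp_mem (q : KK × I) : 0 ≤ sp q ∧ sp q ≤ 1 := by
  have a : 0 ≤ min 1 (2 * nb q.1.1) :=
    le_min zero_le_one (by linarith [sc_le q.1.1, abs_nonneg (sc q.1.1)])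
  exact ⟨mul_nonneg q.2.2.1 a, mul_le_one₀ q.2.2.2 a (min_le_left _ _)⟩

/-- towards the middle of the top edge -/
def ln (q : KK × I) : R2 := ((1 - sp q) * q.1.1.1, (1 - sp q) * q.1.1.2 + sp q)

theorem ln_ne (q : KK × I) : ‖ln q‖ ≠ 0 := by
  intro h
  obtain ⟨a, b⟩ := Prod.ext_iff.1 (norm_eq_zero.1 h)
  have a' : (1 - sp q) * q.1.1.1 = 0 := a
  have b' : (1 - sp q) * q.1.1.2 + sp q = 0 := b
  rcases mul_eq_zero.1 a' with c | c
  · rw [c] at b'; linarith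
  have e : |q.1.1.2| = 1 := by
    have := nK q.1
    rwa [nrm, c, abs_zero, max_eq_right (abs_nonneg _)] at this
  rcases (abs_eq zero_le_one).1 e with e | e
  · rw [e] at b'; linarith
  · have : sp q = 0 := by rw [sp, nb_bot e, c]; simp
    rw [this, e] at b'; linarith

/-- the collapse of the circle -/
def ph (q : KK × I) : KK := ⟨‖ln q‖⁻¹ • ln q, mem_sphere_zero_iff_norm.2 (by
  rw [norm_smul, norm_inv, norm_norm, inv_mul_cancel₀ (ln_ne q)])⟩

@[fun_prop] theorem c_ph : Continuous ph := by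
  have : Continuous ln := by unfold ln sp; fun_prop
  exact ((this.norm.inv₀ ln_ne).smul this).subtype_mk _

/-- the middle of the top edge -/
def pt : KK := ⟨(0, 1), by simp⟩

theorem ph_zero (k : KK) : ph (k, 0) = k := by
  have : ln (k, 0) = k.1 := by simp [ln, sp]
  exact Subtype.ext (by simp only [ph, this, nK, inv_one, one_smul])

theorem ph_one {k : KK} (h : 1 / 2 ≤ nb k.1) : ph (k, 1) = pt := by
  have : ln (k, 1) = pt.1 := by
    have : sp (k, 1) = 1 := by rw [sp, min_eq_left (by linarith)]; simp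
    simp [ln, this, pt]
  exact Subtype.ext (by simp only [ph, this, nK, inv_one, one_smul])

theorem ph_top {q : KK × I} (h : q.1.1.2 = 1) : (ph q).1.2 = 1 := by
  have a : (ln q).2 = 1 := by simp [ln, h]
  have b : ‖ln q‖ = 1 := by
    obtain ⟨c, d⟩ := sp_mem q
    have e : |q.1.1.1| ≤ 1 := (le_max_left _ _).trans (nK q.1).le
    rw [nrm, a, abs_one, max_eq_right]
    show |(1 - sp q) * q.1.1.1| ≤ 1
    rw [abs_mul, abs_of_nonneg (by linarith)]
    exact mul_le_one₀ (by linarith) (abs_nonneg _) e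
  simp only [ph, b, inv_one, one_smul, a]

theorem ph_nb {q : KK × I} (h : 1 ≤ nb q.1.1) : 1 ≤ nb (ph q).1 := by
  rw [le_nb (nK _)] at h ⊢
  obtain ⟨c, d⟩ := sp_mem q
  have e : 0 ≤ ‖ln q‖⁻¹ := by positivity
  show -|‖ln q‖⁻¹ * ((1 - sp q) * q.1.1.1)| ≤ ‖ln q‖⁻¹ * ((1 - sp q) * q.1.1.2 + sp q)
  rw [abs_mul, abs_mul, abs_of_nonneg e, abs_of_nonneg (sub_nonneg.2 d), ← mul_neg, ← mul_neg]
  exact mul_le_mul_of_nonneg_left
    (by linarith [mul_le_mul_of_nonneg_left h (sub_nonneg.2 d)]) e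

/-- the punctured torus -/
abbrev T0 : Type := {y : KK × KK // 1 ≤ nT y.1.1 y.2.1}

/-- its collapse -/
def Ph (q : T0 × I) : T0 := ⟨(ph (q.1.1.1, q.2), flK (ph (flK q.1.1.2, q.2))), by
  rcases le_max_iff.1 q.1.2 with h | h
  · refine le_max_of_le_left ?_
    show 1 ≤ nb (fl (fl _))
    rw [fl_fl]; exact ph_nb (q := (flK q.1.1.2, q.2)) h
  · exact le_max_of_le_right (ph_nb (q := (q.1.1.1, q.2)) h)⟩

theorem flK_flK (k : KK) : flK (flK k) = k := Subtype.ext (fl_fl _)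

@[fun_prop] theorem c_Ph : Continuous Ph :=
  have := c_flK
  Continuous.subtype_mk (by fun_prop) _

theorem Ph_zero (y : T0) : Ph (y, 0) = y :=
  Subtype.ext (Prod.ext (ph_zero _) ((congrArg flK (ph_zero _)).trans (flK_flK _)))

theorem Ph_bot {q : T0 × I} (h : q.1.1.2.1.2 = -1) : (Ph q).1.2.1.2 = -1 :=
  congrArg Neg.neg (ph_top (q := (flK q.1.1.2, q.2)) (show -q.1.1.2.1.2 = 1 by rw [h, neg_neg]))

/-- the base point -/
def y0 : T0 := ⟨(pt, flK pt), le_max_of_le_right (le_max_of_le_right (by norm_num [pt]))⟩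

/-- projection to the unit ball -/
def pb (z : R2) : R2 := (max 1 ‖z‖)⁻¹ • z

@[fun_prop] theorem c_pb : Continuous pb :=
  ((continuous_const.max continuous_norm).inv₀ fun _ => (lt_max_of_lt_left one_pos).ne').smul
    continuous_id

theorem pb_le (z : R2) : ‖pb z‖ ≤ 1 := by
  rw [pb, norm_smul, Real.norm_of_nonneg (by positivity), inv_mul_le_iff₀ (by positivity), mul_one]
  exact le_max_right _ _

theorem pb_eq {z : R2} (h : ‖z‖ ≤ 1) : pb z = z := by rw [pb, max_eq_left h, inv_one, one_smul]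

/-- points of the core -/
def mk (z : R2) (y : T0) : EB := ⟨(pb z, y.1), fun j => by
  have := pb_le z
  fin_cases j
  · exact mul_nonneg (by norm_num) (sub_nonneg.2 y.2)
  all_goals exact mul_nonneg (by norm_num) (le_max_of_le_right (sub_nonneg.2 this))⟩

@[fun_prop] theorem c_mk : Continuous fun q : R2 × T0 => mk q.1 q.2 :=
  Continuous.subtype_mk (by fun_prop) _

/-- the torus coordinates -/
def yy (x : EB) : T0 := ⟨x.1.2, by have := x.2 0; rw [tB0] at this; linarith⟩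

@[fun_prop] theorem c_yy : Continuous yy := Continuous.subtype_mk (by fun_prop) _

theorem mk_self {x : EB} (h : ‖x.1.1‖ ≤ 1) : mk x.1.1 (yy x) = x :=
  Subtype.ext (Prod.ext (pb_eq h) rfl)

theorem ht_le {z : R2} (h : ‖z‖ ≤ 1) {a : ℝ} (ha : 0 ≤ a) : ht z ≤ a := max_le ha (by linarith)

theorem wall {z : R2} (h : ‖z‖ ≤ 1) {b : R2 → ℝ} {P : R2 → Prop}
    (hb : ∀ k, ‖k‖ = 1 → (b k ≤ 1 ↔ P k)) (hP : P z → |z.2| = 1) :
    4 * max (b (nz z) - 1) (1 - ‖z‖) = 0 ↔ P z := by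
  have e : ‖z‖ = 1 → nz z = z := fun e => by simpa using nz_sm e (ρ := 1) (by norm_num)
  constructor
  · intro k
    have n : ‖z‖ = 1 := by linarith [le_max_right (b (nz z) - 1) (1 - ‖z‖)]
    rw [e n] at k
    exact (hb z n).1 (by linarith [le_max_left (b z - 1) (1 - ‖z‖)])
  · intro k
    have n : ‖z‖ = 1 := le_antisymm h (hP k ▸ le_max_right _ _)
    rw [e n, n, max_eq_right (by linarith [(hb z n).2 k])]; ring

theorem nT_le {b t : R2} (hb : ‖b‖ = 1) (ht : ‖t‖ = 1) : nT b t ≤ 1 ↔ t.2 = 1 ∧ b.2 = -1 := by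
  rw [nT, max_le_iff, nb_le hb, nb_le ((norm_fl t).trans ht), fl, neg_inj]

theorem wall1 {x : EB} (h : ‖x.1.1‖ ≤ 1) : tB x.1 1 = 0 ↔ x.1.1.2 = 1 ∧ x.1.2.2.1.2 = -1 :=
  wall h (b := nT x.1.2.2.1) (P := fun k => k.2 = 1 ∧ x.1.2.2.1.2 = -1)
    (fun _ hk => nT_le (nK _) hk) fun k => by rw [k.1, abs_one]

theorem wall2 {x : EB} (h : ‖x.1.1‖ ≤ 1) : tB x.1 2 = 0 ↔ x.1.2.1.1.2 = 1 ∧ x.1.1.2 = -1 :=
  wall h (b := fun k => nT k x.1.2.1.1) (P := fun k => x.1.2.1.1.2 = 1 ∧ k.2 = -1)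
    (fun _ hk => nT_le hk (nK _)) fun k => by rw [k.2, abs_neg, abs_one]

theorem mk1 {z : R2} {y : T0} (h : ‖z‖ ≤ 1) (a : z.2 = 1) (b : y.1.2.1.2 = -1) :
    tB (mk z y).1 1 = 0 := (wall1 (pb_le z)).2 ⟨(congrArg Prod.snd (pb_eq h)).trans a, b⟩

theorem mk2 {z : R2} {y : T0} (h : ‖z‖ ≤ 1) (a : z.2 = -1) (b : y.1.1.1.2 = 1) :
    tB (mk z y).1 2 = 0 := (wall2 (pb_le z)).2 ⟨b, (congrArg Prod.snd (pb_eq h)).trans a⟩

/-- the radial factor -/
def rf (z : R2) (t : ℝ) : ℝ := 1 - t + t * (max 1 ‖z‖)⁻¹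

theorem rf_big {z : R2} (h : 1 < ‖z‖) (t : I) :
    1 ≤ ‖rf z t • z‖ ∧ ‖rf z t • z‖ ≤ ‖z‖ ∧ nz (rf z t • z) = nz z := by
  have a := t.2.1
  have b := t.2.2
  have e : rf z t • z = ((1 - t) * ‖z‖ + t) • nz z := by
    conv_lhs => rw [rf, max_eq_right h.le]; arg 2; rw [← smul_nz (z := z) (by linarith)]
    rw [smul_smul]; congr 1; field_simp
  have n := norm_nz (z := z) (by linarith)
  have c : 1 ≤ (1 - t) * ‖z‖ + t := by nlinarith
  rw [e, norm_sm n (by linarith), nz_sm n (by linarith)]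
  exact ⟨c, by nlinarith, rfl⟩

theorem rf_small {z : R2} (h : ‖z‖ ≤ 1) (t : ℝ) : rf z t • z = z := by
  rw [rf, max_eq_left h]; simp

theorem tB_rf (x : EB) (t : I) (j : Fin 3) : tB (rf x.1.1 t • x.1.1, x.1.2) j = tB x.1 j := by
  rcases le_or_gt ‖x.1.1‖ 1 with h | h
  · rw [rf_small h]
  obtain ⟨a, -, c⟩ := rf_big h t
  have h1 : 1 ≤ nT x.1.2.2.1 (nz x.1.1) := mx (x.2 1) h
  have h2 : 1 ≤ nT (nz x.1.1) x.1.2.1.1 := mx (x.2 2) h
  fin_cases j
  · rfl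
  · refine (tB1 _).trans (Eq.trans ?_ (tB1 _).symm)
    dsimp only
    rw [c, max_eq_left (by linarith), max_eq_left (by linarith)]
  · refine (tB2 _).trans (Eq.trans ?_ (tB2 _).symm)
    dsimp only
    rw [c, max_eq_left (by linarith), max_eq_left (by linarith)]

/-- the radial deformation -/
def rad (q : EB × I) : EB :=
  ⟨(rf q.1.1.1 q.2 • q.1.1.1, q.1.1.2), fun j => (tB_rf q.1 q.2 j).symm ▸ q.1.2 j⟩

theorem c_rad : Continuous rad := by
  have : Continuous fun q : EB × I => (max 1 ‖q.1.1.1‖)⁻¹ :=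
    Continuous.inv₀ (by fun_prop) fun _ => (lt_max_of_lt_left one_pos).ne'
  exact Continuous.subtype_mk (by unfold rf; fun_prop) _

theorem rad_zero (x : EB) : rad (x, 0) = x := Subtype.ext (Prod.ext (by simp [rad, rf]) rfl)

theorem rad_one (x : EB) : rad (x, 1) = mk x.1.1 (yy x) :=
  Subtype.ext (Prod.ext (by simp [rad, rf, mk, pb]) rfl)

theorem ht_rad (q : EB × I) : ht (rad q).1.1 ≤ ht q.1.1.1 := by
  rcases le_or_gt ‖q.1.1.1‖ 1 with h | h
  · exact (congrArg ht (rf_small h _)).le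
  · exact max_le_max le_rfl (sub_le_sub_right (rf_big h q.2).2.1 _)

theorem seg_le {z w : R2} (hz : ‖z‖ ≤ 1) (hw : ‖w‖ ≤ 1) (t : I) :
    ‖(1 - (t : ℝ)) • z + (t : ℝ) • w‖ ≤ 1 := by
  have a := t.2.1
  have b := t.2.2
  refine (norm_add_le _ _).trans ?_
  rw [norm_smul, norm_smul, Real.norm_of_nonneg a, Real.norm_of_nonneg (by linarith)]
  nlinarith

/-- the walls -/
abbrev DB (j : Fin 3) : Set EB := {x | tB x.1 j = 0}

/-- the push towards the walls -/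
def tg (x : EB) : R2 := (0, max (-1) (min 1 (x.1.1.2 + 4 * (max 0 (1 - nb x.1.2.1.1) -
  max 0 (1 - nb (fl x.1.2.2.1))))))

theorem tg_le (x : EB) : ‖tg x‖ ≤ 1 :=
  max_le (by simp [tg]) (abs_le.2 ⟨le_max_left _ _, max_le (by norm_num) (min_le_left _ _)⟩)

theorem tg1 {x : EB} (h : 1 ≤ nb (fl x.1.2.2.1)) (k : 1 ≤ x.1.1.2 + 4 * max 0 (1 - nb x.1.2.1.1)) :
    (tg x).2 = 1 := by
  simp only [tg]
  rw [max_eq_left (a := (0 : ℝ)) (b := 1 - nb (fl _)) (by linarith), min_eq_left (by linarith),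
    max_eq_right (by norm_num)]

theorem tg2 {x : EB} (h : 1 ≤ nb x.1.2.1.1) (k : x.1.1.2 - 4 * max 0 (1 - nb (fl x.1.2.2.1)) ≤ -1) :
    (tg x).2 = -1 := by
  simp only [tg]
  rw [max_eq_left (a := (0 : ℝ)) (b := 1 - nb x.1.2.1.1) (by linarith),
    max_eq_left (min_le_of_right_le (by linarith))]

theorem top_nb {k : R2} (h : k.2 = 1) : 1 ≤ nb k := le_max_of_le_right (by rw [h]; norm_num)

variable {Y : Type} [TopologicalSpace Y]

theorem q5 : Q Y {x : EB | ‖x.1.1‖ ≤ 1 ∧ (x ∈ DB 1 ∨ x ∈ DB 2 ∨ (x.1.1.1 = 0 ∧ yy x = y0))}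
    (Rel DB {1, 2}) := by
  have n : ∀ {z : R2}, ‖z‖ ≤ 1 → ∀ t : I, ‖((0, (1 - t) * z.2) : R2)‖ ≤ 1 := fun {z} h t =>
    max_le (by simp) (by
      rw [norm_mul, Real.norm_of_nonneg (by linarith [t.2.2])]
      exact mul_le_one₀ (by linarith [t.2.1]) (norm_nonneg _) ((le_max_right _ _).trans h))
  have m : ∀ s : ℝ, mk (0, s) y0 ∈
      {x : EB | ‖x.1.1‖ ≤ 1 ∧ (x ∈ DB 1 ∨ x ∈ DB 2 ∨ (x.1.1.1 = 0 ∧ yy x = y0))} := fun s =>
    ⟨pb_le _, Or.inr (Or.inr ⟨by simp [mk, pb], rfl⟩)⟩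
  refine (q_of_rel (A := {mk (0, 0) y0}) rfl fun x hx => Or.inl hx).deform
    (singleton_subset_iff.2 (m 0)) (r := fun q => mk (0, (1 - q.2) * q.1.1.1.2) y0)
    (by fun_prop) (fun x _ t => m _) (fun x hx => ?_) (fun x _ => by simp) ?_
  · rcases hx.2 with h | h | h
    · exact Or.inr ⟨1, by simp, mk1 (n hx.1 0) (by simp [((wall1 hx.1).1 h).1]) rfl, h⟩
    · exact Or.inr ⟨2, by simp, mk2 (n hx.1 0) (by simp [((wall2 hx.1).1 h).2]) rfl, h⟩
    · left
      conv_rhs => rw [← mk_self hx.1, h.2]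
      exact congrArg (mk · y0) (Prod.ext h.1.symm (by simp))
  · rintro x hx x' hx' ⟨j, rfl | rfl, a, b⟩ t <;> left
    · simp only [((wall1 hx.1).1 a).1, ((wall1 hx'.1).1 b).1]
    · simp only [((wall2 hx.1).1 a).2, ((wall2 hx'.1).1 b).2]

theorem q1 : Q Y {x : EB | ‖x.1.1‖ ≤ 1} (Rel DB {1, 2}) := by
  have c : Continuous tg := by unfold tg; fun_prop
  have w1 : ∀ x : EB, ‖x.1.1‖ ≤ 1 → x ∈ DB 1 → ∀ t : I,
      mk ((1 - (t : ℝ)) • x.1.1 + (t : ℝ) • tg x) (Ph (yy x, t)) ∈ DB 1 := fun x hx h t => by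
    obtain ⟨a, b⟩ := (wall1 hx).1 h
    refine mk1 (seg_le hx (tg_le x) t) ?_ (Ph_bot b)
    simp [a, tg1 (x := x) (top_nb (by simp [fl, b])) (by linarith [le_max_left 0 (1 - nb x.1.2.1.1)])]
  have w2 : ∀ x : EB, ‖x.1.1‖ ≤ 1 → x ∈ DB 2 → ∀ t : I,
      mk ((1 - (t : ℝ)) • x.1.1 + (t : ℝ) • tg x) (Ph (yy x, t)) ∈ DB 2 := fun x hx h t => by
    obtain ⟨a, b⟩ := (wall2 hx).1 h
    refine mk2 (seg_le hx (tg_le x) t) ?_ (ph_top a)
    simp [b, tg2 (x := x) (top_nb a) (by linarith [le_max_left 0 (1 - nb (fl x.1.2.2.1))])]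
    ring
  refine q5.deform (fun _ h => h.1)
    (r := fun q => mk ((1 - (q.2 : ℝ)) • q.1.1.1 + (q.2 : ℝ) • tg q.1) (Ph (yy q.1, q.2)))
    (by fun_prop) (fun _ _ _ => pb_le _) (fun x hx => Or.inl ?_) (fun x hx => ⟨pb_le _, ?_⟩) ?_
  · simpa [Ph_zero] using mk_self hx
  · obtain ⟨z1, z2⟩ := abs_le.1 (show |x.1.1.2| ≤ 1 from (le_max_right _ _).trans hx)
    have T := le_max_iff.1 (yy x).2
    have e : (1 - ((1 : I) : ℝ)) • x.1.1 + ((1 : I) : ℝ) • tg x = tg x := by simp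
    simp only [e]
    by_cases a : nb x.1.2.1.1 < 1 / 2
    · have b : 1 ≤ nb (fl x.1.2.2.1) := T.resolve_right fun k : 1 ≤ nb x.1.2.1.1 => by linarith
      exact Or.inl (mk1 (tg_le x) (tg1 b (by linarith [le_max_right 0 (1 - nb x.1.2.1.1)]))
        (congrArg (fun k => (flK k).1.2) (ph_one (k := flK x.1.2.2) (b.trans' (by norm_num)))))
    by_cases b : nb (fl x.1.2.2.1) < 1 / 2
    · have a : 1 ≤ nb x.1.2.1.1 := T.resolve_left fun k : 1 ≤ nb (fl x.1.2.2.1) => by linarith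
      exact Or.inr (Or.inl (mk2 (tg_le x)
        (tg2 a (by linarith [le_max_right 0 (1 - nb (fl x.1.2.2.1))]))
        (congrArg (fun k => k.1.2) (ph_one (k := x.1.2.1) (a.trans' (by norm_num))))))
    · exact Or.inr (Or.inr ⟨by simp [mk, pb, tg], Subtype.ext (Prod.ext (ph_one (not_lt.1 a))
        (congrArg flK (ph_one (k := flK x.1.2.2) (not_lt.1 b))))⟩)
  · rintro x hx x' hx' ⟨j, rfl | rfl, a, b⟩ t
    exacts [Or.inr ⟨1, by simp, w1 x hx a t, w1 x' hx' b t⟩,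
      Or.inr ⟨2, by simp, w2 x hx a t, w2 x' hx' b t⟩]

theorem pre {a : ℝ} (ha : 0 ≤ a) {g : EB → Y} (c : ContinuousOn g {x | ht x.1.1 ≤ a}) {B : Set EB}
    (hB : B ⊆ {x | ht x.1.1 ≤ a}) (w : R2) (h : NulM (fun x => g (mk w (Ph (yy x, 1)))) B) :
    NulM g B := by
  refine NulM.of_htpy (G := fun q => g (rad q))
    (c.comp c_rad.continuousOn fun q hq => (ht_rad q).trans (hB hq.1))
    (fun x _ => congrArg g (rad_zero x)) (NulM.of_htpy
      (G := fun q => g (mk ((1 - (q.2 : ℝ)) • q.1.1.1 + (q.2 : ℝ) • w) (Ph (yy q.1, q.2))))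
      (c.comp (by fun_prop) fun _ _ => ht_le (pb_le _) ha) (fun x _ => ?_) (by simpa using h))
  simp [rad_one, Ph_zero]

theorem nul {a : ℝ} (ha : 0 ≤ a) {g : EB → Y} (c : ContinuousOn g {x | ht x.1.1 ≤ a}) (w : R2)
    {f : ℝ → T0} (cf : Continuous f) {s : EB → ℝ} (cs : Continuous s) (B : Set EB) :
    NulM (fun x => g (mk w (f (s x)))) B :=
  ⟨fun q => g (mk w (f ((1 - q.2) * s q.1))), g (mk w (f 0)),
    c.comp (by fun_prop) fun _ _ => ht_le (pb_le _) ha, fun x _ => by simp, fun x _ => by simp⟩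

end QB

open QB GB Ae

variable {Y : Type} [TopologicalSpace Y] {a : ℝ}

/-- **the Borromean piece collapses onto the walls `1, 2`** -/
theorem qB (ha : 0 ≤ a) :
    Q Y {x : EB | ht x.1.1 ≤ a} (Rel (fun j => {x : EB | tB x.1 j = 0}) {1, 2}) :=
  q1.deform (fun _ h => ht_le h ha) (r := rad) c_rad.continuousOn
    (fun x hx t => (ht_rad (x, t)).trans hx) (fun x _ => Or.inl (rad_zero x))
    (fun x _ => by rw [rad_one]; exact pb_le _) fun x _ x' _ ⟨j, hj, p, q⟩ t =>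
      Or.inr ⟨j, hj, (tB_rf x t j).trans p, (tB_rf x' t j).trans q⟩

/-- **the wall `0` is null-homotopic modulo the wall `1`** -/
theorem nqB1 (ha : 0 ≤ a) :
    Nq Y {x : EB | ht x.1.1 ≤ a} (Rel (fun j => {x : EB | tB x.1 j = 0}) {1})
      ({x : EB | ht x.1.1 ≤ a} ∩ {x : EB | tB x.1 0 = 0}) := fun g c r => by
  have := c_flK
  have n : ‖((0, 1) : R2)‖ ≤ 1 := by simp
  refine pre ha c inter_subset_left (0, 1) ((nul ha c (0, 1) (s := fun x => x.1.2.2.1.1)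
    (f := fun s => ⟨(pt, flK (ph (flK (tp (s, 0)), 1))), le_max_of_le_right (top_nb rfl)⟩)
    (Continuous.subtype_mk (by fun_prop) _) (by fun_prop) _).congr fun x hx => ?_)
  have k := (nT_le (nK x.1.2.1) (nK x.1.2.2)).1 (by have := hx.2; rw [mem_ofPred, tB0] at this; linarith)
  have e : tp (x.1.2.2.1.1, 0) = x.1.2.2 := Subtype.ext ((to_one (c := (x.1.2.2.1.1, 0)) (max_le
    ((le_max_left _ _).trans (nK x.1.2.2).le) (by simp))).trans (Prod.ext rfl k.1.symm))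
  simp only [e]
  rcases le_max_iff.1 (yy x).2 with h | h
  · have b := congrArg (fun k => (flK k).1.2) (ph_one (k := flK x.1.2.2) (h.trans' (by norm_num)))
    exact r _ (ht_le (pb_le _) ha) _ (ht_le (pb_le _) ha) ⟨1, rfl, mk1 n rfl b, mk1 n rfl b⟩
  · exact congrArg (fun y => g (mk _ y))
      (Subtype.ext (Prod.ext (ph_one (k := x.1.2.1) (h.trans' (by norm_num))) rfl))

/-- **the wall `0` is null-homotopic modulo the wall `2`** -/
theorem nqB2 (ha : 0 ≤ a) :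
    Nq Y {x : EB | ht x.1.1 ≤ a} (Rel (fun j => {x : EB | tB x.1 j = 0}) {2})
      ({x : EB | ht x.1.1 ≤ a} ∩ {x : EB | tB x.1 0 = 0}) := fun g c r => by
  have n : ‖((0, -1) : R2)‖ ≤ 1 := by simp
  refine pre ha c inter_subset_left (0, -1) ((nul ha c (0, -1) (s := fun x => x.1.2.1.1.1)
    (f := fun s => ⟨(ph (bo (0, s), 1), flK pt), le_max_of_le_left (top_nb (by simp [fl, flK, pt]))⟩)
    (Continuous.subtype_mk (by fun_prop) _) (by fun_prop) _).congr fun x hx => ?_)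
  have k := (nT_le (nK x.1.2.1) (nK x.1.2.2)).1 (by have := hx.2; rw [mem_ofPred, tB0] at this; linarith)
  have e : bo (0, x.1.2.1.1.1) = x.1.2.1 := Subtype.ext ((bo_one (max_le (by simp)
    ((le_max_left _ _).trans (nK x.1.2.1).le))).trans (Prod.ext rfl k.2.symm))
  simp only [e]
  rcases le_max_iff.1 (yy x).2 with h | h
  · exact congrArg (fun y => g (mk _ y)) (Subtype.ext (Prod.ext rfl
      (congrArg flK (ph_one (k := flK x.1.2.2) (h.trans' (by norm_num))))))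
  · have b := congrArg (fun k => k.1.2) (ph_one (k := x.1.2.1) (h.trans' (by norm_num)))
    exact r _ (ht_le (pb_le _) ha) _ (ht_le (pb_le _) ha) ⟨2, rfl, mk2 n rfl b, mk2 n rfl b⟩

/-- both cases -/
theorem nqB (ha : 0 ≤ a) {j : Fin 3} (hj : j ≠ 0) :
    Nq Y {x : EB | ht x.1.1 ≤ a} (Rel (fun j => {x : EB | tB x.1 j = 0}) {j})
      ({x : EB | ht x.1.1 ≤ a} ∩ {x : EB | tB x.1 0 = 0}) := by
  fin_cases j
  exacts [absurd rfl hj, nqB1 ha, nqB2 ha]

end Crest.Agent.N233.Pc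

end
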