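import Crest.Agent.N233.Pc.QS
import Crest.Agent.N233.Pc.PrS
import Crest.Agent.N233.Ae.Q2

/-!
# Row 233 (helper53): the Seifert pieces with an arbitrary pattern of inner walls
-/

set_option autoImplicit false
open Set unitInterval Topology

noncomputable section

namespace Crest.Agent.N233.Pc

open Ae QS Pr

variable {n : ℕ} {ty : JS n → Bool} {a : ℝ} {Y : Type} [TopologicalSpace Y] {j j' : JS n} {u : R2}

namespace QS

theorem cont_dS (j : JS n) : Continuous (dS n j) := by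
  rcases j with j | _ | _ <;> unfold dS <;> (try unfold nS) <;> fun_prop

theorem d_sep (hj : j ≠ .inr true) (e : j ≠ j') (h : dS n j u ≤ 0) : 0 < dS n j' u := by
  have := tS_sep (ty := fun _ => true) (by simp) e (u, 0) (by
    rw [tS, if_neg hj, if_pos rfl]; linarith)
  rw [tS, if_pos (rfl : true = true), if_pos (rfl : true = true)] at this
  split_ifs at this
  · exact (mul_pos_iff_of_pos_left (c_pos n)).1 (one_pos.trans this)
  · linarith

theorem ok_zero' (ho : ty (.inr true) = true) (h : ‖u‖ ≤ 2 * n + 2)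
    (h' : ∀ j, j ≠ .inr true → ty j = true → 0 ≤ dS n j u) (j : JS n) : 0 ≤ tS n ty (u, 0) j := by
  by_cases e : j = .inr true
  · rw [e]; exact out_iff.2 ⟨h, fun e => by simp [ho] at e⟩
  · refine (ne_iff e).2 ?_
    cases e' : ty j
    · exact Or.inr ⟨rfl, by simp⟩
    · exact Or.inl (h' j e e')

theorem mem_true (hj : j ≠ .inr true) (ht : ty j = true) {x : ES n ty} :
    x ∈ DS n ty j ↔ dS n j x.1.1 = 0 := by simp [DS, tS, hj, ht]

theorem le_of_mem (hj : j ≠ .inr true) {x : ES n ty} (h : x ∈ DS n ty j) : dS n j x.1.1 ≤ 0 := by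
  have := (tS_hole (ty := ty) hj x.1).1
  rw [show tS n ty x.1 j = 0 from h] at this
  linarith

theorem d_σ (hj : j ≠ .inr true) {w : R2} (hw : ‖w‖ ≤ 1) : dS n j (σS n j w) = ‖w‖ - 1 := by
  rw [dS_σS j (hw.trans one_le_two), if_neg hj]

/-- contraction of a hole -/
def ct (j : JS n) (u : R2) (t : ℝ) : R2 := σS n j (qp ((1 - t) • σS' n j u) 0).1

theorem ct_cont (j : JS n) : Continuous fun q : R2 × I => ct j q.1 q.2 :=
  have h : Continuous fun q : R2 × I => (1 - q.2 : ℝ) • σS' n j q.1 :=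
    Continuous.smul (f := fun q : R2 × I => (1 - q.2 : ℝ)) (by fun_prop)
      ((cont_σS' j).comp continuous_fst)
  (cont_σS j).comp (continuous_qp (X := R2 × I) h (continuous_const (y := (0 : ℝ)))).fst

theorem ct_mem (hj : j ≠ .inr true) (u : R2) (t : ℝ) : dS n j (ct j u t) ≤ 0 := by
  have := norm_qp_le ((1 - t) • σS' n j u) (by norm_num : (-1 : ℝ) ≤ 0)
  rw [add_zero] at this
  rw [ct, d_σ hj this]; linarith

theorem ct_zero (hj : j ≠ .inr true) (h : dS n j u ≤ 0) : ct j u 0 = u := by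
  have := norm_σS' hj u
  rw [ct, sub_zero, one_smul, qp_of_le (by linarith), add_zero, one_smul,
    σS_ri fun _ => by linarith]

theorem ct_one (j : JS n) (u : R2) : ct j u 1 = σS n j 0 := by simp [ct, qp]

theorem ball_of (hj : j ≠ .inr true) (h : dS n j u ≤ 0) : ‖u‖ ≤ 2 * n + 2 :=
  (d_out u).1 (d_sep hj hj h).le

end QS

/-- the chosen walls of a non-omitted piece -/
def JT (n : ℕ) (ty : JS n → Bool) : Set (JS n) := {j | j ≠ .inr true ∧ ty j = true}

/-- a non-omitted piece collapses onto its inner product walls -/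
theorem qS (hY : LNE Y) (ho : ty (.inr true) = true) (ha : 0 ≤ a) :
    Q Y (AS n ty a) (Rel (DS n ty) (JT n ty)) := by
  let A : Set R2 := {u | ‖u‖ ≤ 2 * n + 2 ∧ ∀ j ∈ JT n ty, 0 ≤ dS n j u}
  let N : JS n → Set R2 := fun j => {u | dS n j u ≤ 0}
  have cN : ∀ j, IsClosed (N j) := fun j => isClosed_le (cont_dS j) continuous_const
  have dN : ∀ i ∈ JT n ty, ∀ j ∈ JT n ty, ∀ x, x ∈ N i → x ∈ N j → i = j := fun i hi j _ x p q =>
    by_contra fun e => (d_sep hi.1 e p).not_ge q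
  have cA : IsClosed A := by
    have : A = {u | ‖u‖ ≤ 2 * n + 2} ∩ ⋂ j ∈ JT n ty, {u | 0 ≤ dS n j u} := by ext; simp [A]
    rw [this]
    exact (isClosed_le continuous_norm continuous_const).inter
      (isClosed_biInter fun j _ => isClosed_le continuous_const (cont_dS j))
  have sA : A ⊆ Metric.closedBall 0 (2 * n + 2) := fun u hu => mem_closedBall_zero_iff.2 hu.1
  have h0 : (0 : R2) ∈ Metric.closedBall (0 : R2) (2 * n + 2) :=
    Metric.mem_closedBall_self (by positivity)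
  have q0 : Q Y (Metric.closedBall (0 : R2) (2 * n + 2)) (Rel N (JT n ty)) :=
    q_contr hY (isCompact_closedBall _ _) (toFinite _) (fun j _ => cN j)
      (fun i hi j hj x _ => dN i hi j hj x) (fun j => σS n j 0)
      (fun j hj => ct_one j 0 ▸ ct_mem hj.1 0 1)
      (fun j hj => ⟨fun q => ct j q.1 q.2, (ct_cont j).continuousOn, fun x _ t =>
        ⟨mem_closedBall_zero_iff.2 (ball_of hj.1 (ct_mem hj.1 x t)), ct_mem hj.1 x t⟩,
        fun x hx => ct_zero hj.1 hx.2, fun x _ => ct_one j x⟩)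
      ((df_star ((convex_closedBall _ _).starConvex h0)).q (singleton_subset_iff.2 h0) (q_pt _ _))
  have hn : ‖((1 : ℝ), (0 : ℝ))‖ = 1 := by norm_num [nrm]
  have q1 : Q Y A (Rel (fun j => {u | dS n j u = 0}) (JT n ty)) := by
    refine q0.fill (toFinite _) cA (fun j _ => cN j) sA (fun u hu => ?_) dN
      (fun j hj u hu => ⟨fun k => le_antisymm k (hu.2 j hj), fun k => le_of_eq k⟩)
      (fun j => σS n j (1, 0)) fun j hj => ?_
    · by_cases k : ∃ j ∈ JT n ty, dS n j u ≤ 0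
      · exact Or.inr (mem_iUnion₂.2 (let ⟨j, hj, k⟩ := k; ⟨j, hj, k⟩))
      · exact Or.inl ⟨mem_closedBall_zero_iff.1 hu, fun j hj => le_of_not_ge fun k' => k ⟨j, hj, k'⟩⟩
    · have e : dS n j (σS n j (1, 0)) = 0 := by rw [d_σ hj.1 hn.le, hn, sub_self]
      refine ⟨⟨ball_of hj.1 e.le, fun i _ => ?_⟩, e⟩
      by_cases k : j = i
      · exact k ▸ e.ge
      · exact (d_sep hj.1 k e.le).le
  have mA : ∀ x : ES n ty, x.1.1 ∈ A := fun x => ⟨le_out x, fun j hj =>
    ((ne_iff hj.1).1 (x.2 j)).elim id fun k => by simp [hj.2] at k⟩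
  have mk : ∀ u ∈ A, ∀ j, 0 ≤ tS n ty (u, 0) j := fun u hu =>
    ok_zero' ho hu.1 fun j h1 h2 => hu.2 j ⟨h1, h2⟩
  have e1 : (fun x : ES n ty => x.1.1) '' Z0 n ty = A :=
    Subset.antisymm (by rintro _ ⟨x, -, rfl⟩; exact mA x) fun u hu => ⟨⟨(u, 0), mk u hu⟩, rfl, rfl⟩
  have e2 : Subtype.val '' Z0 n ty = A ×ˢ {0} :=
    Subset.antisymm (by rintro _ ⟨x, hx, rfl⟩; exact ⟨mA x, hx⟩) fun u hu =>
      ⟨⟨(u.1, 0), mk _ hu.1⟩, rfl, Prod.ext rfl (Eq.symm hu.2)⟩
  have kZ : IsCompact (Z0 n ty) := IsInducing.subtypeVal.isCompact_iff.2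
    (e2 ▸ ((isCompact_closedBall _ _).of_isClosed_subset cA sA).prod isCompact_singleton)
  have hb : ‖((2 * n + 2 : ℝ), (0 : ℝ))‖ = 2 * n + 2 := by
    rw [nrm, abs_zero, abs_of_nonneg (by positivity), max_eq_left (by positivity)]
  have q2 : Q Y (Z0 n ty) (Rel (DS n ty) (JT n ty)) :=
    Q.comap (φ := fun x : ES n ty => x.1.1) (R := Rel (fun j => {u | dS n j u = 0}) (JT n ty))
      (e1 ▸ q1) kZ (Continuous.continuousOn (by fun_prop))
      (fun x hx x' hx' e => Subtype.ext (Prod.ext e (hx.trans (Eq.symm hx'))))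
      (fun x _ x' _ => exists_congr fun j => and_congr_right fun hj =>
        and_congr (mem_true hj.1 hj.2) (mem_true hj.1 hj.2))
      ⟨((2 * n + 2, 0), 0), ok_zero' ho hb.le fun j h _ => le_of_not_gt fun k => by
        have := d_sep h h k.le
        rw [dS, hb, div_self (by positivity), sub_self] at this
        exact this.false⟩
  refine q2.deform (Z0_sub ha) (sh_cont ho).continuousOn (fun x hx t => sh_mem ho hx t)
    (fun x _ => Or.inl (sh_zero ho x)) (fun x _ => sh_one ho x) ?_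
  rintro x - x' - ⟨j, hj, k, k'⟩ t
  exact Or.inr ⟨j, hj, (mem_true hj.1 hj.2).2 ((mem_true hj.1 hj.2 (x := x)).1 k),
    (mem_true hj.1 hj.2).2 ((mem_true hj.1 hj.2 (x := x')).1 k')⟩

/-- in a non-omitted piece the prism walls are null-homotopic -/
theorem nqS' (ho : ty (.inr true) = true) (hj : ty j = false) (ha : 0 ≤ a)
    (R : ES n ty → ES n ty → Prop) : Nq Y (AS n ty a) R (AS n ty a ∩ DS n ty j) := by
  have hj' : j ≠ .inr true := fun e => by simp [e, ho] at hj
  let r : ES n ty × I → ES n ty := fun q =>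
    ⟨(ct j q.1.1.1 q.2, 0), ok_zero' ho (ball_of hj' (ct_mem hj' _ _)) fun i _ hi =>
      (d_sep hj' (fun e => by simp [← e, hj] at hi) (ct_mem hj' _ _)).le⟩
  have cr : Continuous r := Continuous.subtype_mk (((ct_cont j).comp
    (f := fun q : ES n ty × I => (q.1.1.1, q.2)) (by fun_prop)).prodMk continuous_const) _
  let x₀ : ES n ty := ⟨(ct j 0 0, 0), ok_zero' ho (ball_of hj' (ct_mem hj' _ _)) fun i _ hi =>
    (d_sep hj' (fun e => by simp [← e, hj] at hi) (ct_mem hj' _ _)).le⟩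
  have n1 : Nq Y (AS n ty a) R {x | x.1.2 = 0 ∧ dS n j x.1.1 ≤ 0} :=
    (nq_of_rel (B := {r (x₀, 1)}) (Z0_sub ha (rfl : (r (x₀, 1)).1.2 = 0))
      (singleton_subset_iff.2 (Z0_sub ha rfl)) fun x hx => Or.inl hx).deform
      (fun x hx => Z0_sub ha hx.1) cr.continuousOn (fun _ _ _ => Z0_sub ha rfl)
      (fun x hx => Or.inl (Subtype.ext (Prod.ext (ct_zero hj' hx.2) hx.1.symm)))
      fun x _ => Subtype.ext (Prod.ext ((ct_one j _).trans (ct_one j _).symm) rfl)
  exact n1.deform inter_subset_left (sh_cont ho).continuousOn (fun x hx t => sh_mem ho hx.1 t)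
    (fun x _ => Or.inl (sh_zero ho x)) (fun x hx => ⟨sh_one ho x, le_of_mem hj' (x := x) hx.2⟩)

end Crest.Agent.N233.Pc

end
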