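import Crest.Agent.N233.Pc.Defs

/-!
# Row 233 (helper67): weights, barycentric coordinates, geometric pieces are pieces
-/

set_option autoImplicit false
open Set unitInterval Topology Filter

noncomputable section

namespace Crest.Agent.N233.Pc

theorem contOn_of_compact {X Y : Type} [TopologicalSpace X] [TopologicalSpace Y] [T2Space Y]
    {K : Set X} (hK : IsCompact K) {f : X → Y} (hf : Continuous f) {j : Y → X}
    (h : ∀ x ∈ K, j (f x) = x) : ContinuousOn j (f '' K) := by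
  refine continuousOn_iff_isClosed.2 fun D hD =>
    ⟨f '' (K ∩ D), ((hK.inter_right hD).image hf).isClosed, ?_⟩
  ext y
  constructor
  · rintro ⟨h1, x, hx, rfl⟩
    rw [mem_preimage, h x hx] at h1
    exact ⟨⟨x, ⟨hx, h1⟩, rfl⟩, x, hx, rfl⟩
  · rintro ⟨⟨x, hx, rfl⟩, h2⟩
    exact ⟨by rw [mem_preimage, h x hx.1]; exact hx.2, h2⟩

section pu

variable {S S' S'' : Type} [Fintype S] {c : S → S'} {y : S → ℝ}

theorem pu_nonneg (c : S → S') (hy : ∀ s, 0 ≤ y s) (s' : S') : 0 ≤ pu c y s' :=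
  Finset.sum_nonneg fun s _ => by split_ifs; exacts [hy s, le_rfl]

theorem pu_eq_zero {s' : S'} (h : ∀ s, y s ≠ 0 → c s ≠ s') : pu c y s' = 0 :=
  Finset.sum_eq_zero fun s _ => by
    split_ifs with e
    · by_contra n; exact h s n e
    · rfl

theorem supp_pu (c : S → S') (hy : ∀ s, 0 ≤ y s) : {s' | pu c y s' ≠ 0} = c '' {s | y s ≠ 0} := by
  ext s'
  constructor
  · intro h
    by_contra n
    exact h (pu_eq_zero fun s hs e => n ⟨s, hs, e⟩)
  · rintro ⟨s, hs, rfl⟩ h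
    have := (Finset.sum_eq_zero_iff_of_nonneg fun s _ => by
      split_ifs; exacts [hy s, le_rfl]).1 h s (Finset.mem_univ _)
    exact hs (by simpa using this)

theorem pu_apply {A : Set S} (h : InjOn c A) (hA : ∀ s, y s ≠ 0 → s ∈ A) {a : S} (ha : a ∈ A) :
    pu c y (c a) = y a := by
  rw [pu, Finset.sum_eq_single a, if_pos rfl]
  · intro b _ n
    split_ifs with e
    · by_contra hb; exact n (h (hA b hb) ha e)
    · rfl
  · simp

theorem pu_apply' (h : Function.Injective c) (y : S → ℝ) (a : S) : pu c y (c a) = y a :=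
  pu_apply h.injOn (fun _ _ => mem_univ _) (mem_univ a)

theorem pu_smul (c : S → S') (a : ℝ) (y : S → ℝ) : pu c (a • y) = a • pu c y := by
  funext s'
  simp [pu, Finset.mul_sum]

@[simp] theorem pu_zero (c : S → S') : pu c (0 : S → ℝ) = 0 := by
  funext s'; simp [pu]

theorem pu_congr {c' : S → S'} (h : ∀ s, y s ≠ 0 → c s = c' s) : pu c y = pu c' y := by
  funext s'
  refine Finset.sum_congr rfl fun s _ => ?_
  by_cases e : y s = 0
  · simp [e]
  · rw [h s e]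

theorem rl_pu [Fintype S'] {G : Type} [NormedAddCommGroup G] [NormedSpace ℝ G] (pos : S' → G)
    (c : S → S') (y : S → ℝ) : rl pos (pu c y) = rl (fun s => pos (c s)) y := by
  classical
  simp only [rl, pu, Finset.sum_smul]
  rw [Finset.sum_comm]
  refine Finset.sum_congr rfl fun s _ => ?_
  simp [ite_smul]

theorem sum_pu [Fintype S'] (c : S → S') (y : S → ℝ) : ∑ s', pu c y s' = ∑ s, y s := by
  simpa [rl] using rl_pu (fun _ => (1 : ℝ)) c y

theorem pu_pu [Fintype S'] (c' : S' → S'') (c : S → S') (y : S → ℝ) :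
    pu c' (pu c y) = pu (fun s => c' (c s)) y := by
  classical
  funext s''
  have := rl_pu (fun s' => if c' s' = s'' then (1 : ℝ) else 0) c y
  simpa [rl, pu] using this

theorem continuous_pu (c : S → S') : Continuous (pu c : (S → ℝ) → S' → ℝ) :=
  continuous_pi fun s' => continuous_finsetSum _ fun s _ => by
    split_ifs
    exacts [continuous_apply s, continuous_const]

/-- a weight supported on the range of an injection is a push forward -/
theorem pu_comp (h : Function.Injective c) {z : S' → ℝ} (hz : ∀ s', z s' ≠ 0 → s' ∈ range c) :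
    pu c (fun s => z (c s)) = z := by
  funext s'
  by_cases e : s' ∈ range c
  · obtain ⟨a, rfl⟩ := e
    exact pu_apply' h _ a
  · rw [pu_eq_zero fun s _ n => e ⟨s, n⟩]
    by_contra n
    exact e (hz s' fun m => n m.symm)

end pu

section tri

variable {S G : Type} [Fintype S] [NormedAddCommGroup G] [NormedSpace ℝ G] {Fc : Set S → Prop}
  {pos : S → G} {C : Set G}

theorem continuous_rl (pos : S → G) : Continuous (rl pos) :=
  continuous_finsetSum _ fun s _ => (continuous_apply s).smul continuous_const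

theorem rl_smul (pos : S → G) (a : ℝ) (y : S → ℝ) : rl pos (a • y) = a • rl pos y := by
  simp [rl, Finset.smul_sum, mul_smul]

theorem isCompact_Dl (down : ∀ A B : Set S, A ⊆ B → Fc B → Fc A) : IsCompact (Dl Fc) := by
  have : Dl Fc = ⋃ A ∈ {A | Fc A}, stdSimplex ℝ S ∩ {y | ∀ s, s ∉ A → y s = 0} := by
    ext y
    simp only [mem_iUnion, mem_inter_iff, exists_prop]
    constructor
    · rintro ⟨⟨h1, h2⟩, h3⟩
      exact ⟨_, h2, ⟨h1, h3⟩, fun s hs => not_not.1 hs⟩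
    · rintro ⟨A, hA, ⟨h1, h3⟩, h⟩
      exact ⟨⟨h1, down _ A (fun s hs => by_contra fun n => hs (h s n)) hA⟩, h3⟩
  rw [this]
  refine (toFinite _).isCompact_biUnion fun A _ => (isCompact_stdSimplex ℝ S).inter_right ?_
  simp only [ofPred_forall]
  exact isClosed_iInter fun s => isClosed_iInter fun _ =>
    isClosed_eq (continuous_apply s) continuous_const

theorem Dl.norm_le {y : S → ℝ} (h : y ∈ Dl Fc) : ‖y‖ ≤ 1 :=
  (pi_norm_le_iff_of_nonneg zero_le_one).2 fun s => by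
    rw [Real.norm_of_nonneg (h.1.1 s), ← h.2]
    exact Finset.single_le_sum (fun t _ => h.1.1 t) (Finset.mem_univ s)

omit [Fintype S] in
theorem Cn.smul {y : S → ℝ} (h : y ∈ Cn Fc) {a : ℝ} (ha : 0 < a) : a • y ∈ Cn Fc :=
  ⟨fun s => mul_nonneg ha.le (h.1 s), by
    convert h.2 using 1
    ext s
    simp [ha.ne']⟩

theorem Cn.sum_pos {y : S → ℝ} (h : y ∈ Cn Fc) (h0 : y ≠ 0) : 0 < ∑ s, y s := by
  obtain ⟨s, hs⟩ := Function.ne_iff.1 h0
  exact Finset.sum_pos' (fun t _ => h.1 t) ⟨s, Finset.mem_univ s, (h.1 s).lt_of_ne' hs⟩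

theorem Cn.norm_mem {y : S → ℝ} (h : y ∈ Cn Fc) (h0 : y ≠ 0) : (∑ s, y s)⁻¹ • y ∈ Dl Fc :=
  ⟨Cn.smul h (inv_pos.2 (Cn.sum_pos h h0)), by
    simp only [Pi.smul_apply, smul_eq_mul, ← Finset.mul_sum]
    exact inv_mul_cancel₀ (Cn.sum_pos h h0).ne'⟩

namespace Tri

variable (T : Tri Fc pos C)
include T

theorem iv_mem {c : G} (hc : c ∈ C) : iv Fc pos c ∈ Dl Fc := Function.invFunOn_mem (T.bij.surjOn hc)

theorem rl_iv {c : G} (hc : c ∈ C) : rl pos (iv Fc pos c) = c :=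
  Function.invFunOn_eq (T.bij.surjOn hc)

theorem iv_rl {y : S → ℝ} (hy : y ∈ Dl Fc) : iv Fc pos (rl pos y) = y :=
  T.bij.injOn.leftInvOn_invFunOn hy

theorem cont_iv : ContinuousOn (iv Fc pos) C := by
  rw [← T.bij.image_eq]
  exact contOn_of_compact (isCompact_Dl T.down) (continuous_rl pos) fun _ => T.iv_rl

theorem zero_mem : (0 : S → ℝ) ∈ Cn Fc := ⟨fun _ => le_rfl, by simpa using T.emp⟩

theorem smul_mem {c : G} {a : ℝ} (ha : 0 ≤ a) (hc : 0 < a → c ∈ C) : a • iv Fc pos c ∈ Cn Fc := by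
  rcases ha.eq_or_lt with rfl | h
  · rw [zero_smul]; exact T.zero_mem
  · exact Cn.smul (T.iv_mem (hc h)).1 h

theorem sum_smul {c : G} {a : ℝ} (ha : 0 ≤ a) (hc : 0 < a → c ∈ C) :
    ∑ s, (a • iv Fc pos c) s = a := by
  rcases ha.eq_or_lt with rfl | h
  · simp
  · simp only [Pi.smul_apply, smul_eq_mul, ← Finset.mul_sum, (T.iv_mem (hc h)).2, mul_one]

theorem smul_inj {c c' : G} {a a' : ℝ} (ha : 0 ≤ a) (hc : 0 < a → c ∈ C) (ha' : 0 ≤ a')
    (hc' : 0 < a' → c' ∈ C) (h : a • iv Fc pos c = a' • iv Fc pos c') (h0 : a • iv Fc pos c ≠ 0) :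
    0 < a ∧ a = a' ∧ c = c' := by
  obtain rfl : a = a' := by rw [← T.sum_smul ha hc, h, T.sum_smul ha' hc']
  have hp : 0 < a := ha.lt_of_ne' fun e => h0 (by rw [e, zero_smul])
  refine ⟨hp, rfl, ?_⟩
  rw [← T.rl_iv (hc hp), smul_right_injective _ hp.ne' h, T.rl_iv (hc' hp)]

theorem smul_sur {y : S → ℝ} (h : y ∈ Cn Fc) (h0 : y ≠ 0) :
    ∃ c ∈ C, ∃ a : ℝ, 0 < a ∧ a • iv Fc pos c = y :=
  ⟨_, T.bij.mapsTo (Cn.norm_mem h h0), _, Cn.sum_pos h h0, by
    rw [T.iv_rl (Cn.norm_mem h h0), smul_inv_smul₀ (Cn.sum_pos h h0).ne']⟩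

theorem continuous_smul {E : Type} [TopologicalSpace E] {r : E → ℝ} {π : E → G} (hr : Continuous r)
    (h0 : ∀ x, 0 ≤ r x) (hπ : Continuous π) (hm : ∀ x, 0 < r x → π x ∈ C) :
    Continuous fun x => r x • iv Fc pos (π x) := by
  refine continuous_iff_continuousAt.2 fun x => ?_
  rcases (h0 x).eq_or_lt with e | h
  · refine tendsto_iff_norm_sub_tendsto_zero.2 (squeeze_zero (fun _ => norm_nonneg _) (fun y => ?_)
      (e ▸ hr.tendsto x))
    beta_reduce
    rw [← e, zero_smul, sub_zero]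
    rcases (h0 y).eq_or_lt with e' | h'
    · rw [← e', zero_smul, norm_zero]
    · rw [norm_smul, Real.norm_of_nonneg (h0 y)]
      exact mul_le_of_le_one_right (h0 y) (Dl.norm_le (T.iv_mem (hm y h')))
  · exact hr.continuousAt.smul ((T.cont_iv.comp hπ.continuousOn hm).continuousAt
      ((isOpen_lt continuous_const hr).mem_nhds h))

end Tri

end tri

/-- the torus is triangulated -/
def TT : Prop := Tri TF pT (Metric.sphere 0 1 ×ˢ Metric.sphere 0 1)

theorem TA.ht_nonneg (z : R2) : 0 ≤ ht z := le_max_left _ _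

theorem TA.ht_pos {z : R2} : 0 < ht z ↔ 1 < ‖z‖ := by simp [ht]

theorem TA.ht_eq {z : R2} (h : 1 < ‖z‖) : ht z = ‖z‖ - 1 := max_eq_right (by linarith)

theorem TA.nz_eq {z : R2} (h : 1 < ‖z‖) : nz z = ‖z‖⁻¹ • z := by
  rw [nz, max_eq_left (by linarith)]

theorem TA.nz_mem {z : R2} (h : 1 < ‖z‖) : nz z ∈ Metric.sphere (0 : R2) 1 := by
  rw [mem_sphere_zero_iff_norm, TA.nz_eq h, norm_smul, norm_inv, norm_norm,
    inv_mul_cancel₀ (by linarith)]

theorem TA.mem (v : VW) (h : 0 < ht v.2) :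
    (v.1.1, nz v.2) ∈ Metric.sphere (0 : R2) 1 ×ˢ Metric.sphere (0 : R2) 1 :=
  ⟨v.1.2, TA.nz_mem (TA.ht_pos.1 h)⟩

theorem pV_mem (hT : TT) (v : VW) : pV v ∈ Cn TF := Tri.smul_mem hT (TA.ht_nonneg _) (TA.mem v)

theorem sum_pV (hT : TT) (v : VW) : ∑ a, pV v a = ht v.2 :=
  Tri.sum_smul hT (TA.ht_nonneg _) (TA.mem v)

theorem pV_eq_zero {v : VW} (h : ‖v.2‖ ≤ 1) : pV v = 0 := by
  rw [pV, ht, max_eq_left (by linarith), zero_smul]

theorem pV_inj (hT : TT) {v v' : VW} (h : pV v = pV v') (h0 : pV v ≠ 0) : v = v' := by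
  obtain ⟨hp, h1, h2⟩ :=
    Tri.smul_inj hT (TA.ht_nonneg _) (TA.mem v) (TA.ht_nonneg _) (TA.mem v') h h0
  have a := TA.ht_pos.1 hp
  have a' := TA.ht_pos.1 (h1 ▸ hp)
  obtain ⟨h3, h4⟩ := Prod.mk.inj h2
  rw [TA.ht_eq a, TA.ht_eq a', sub_left_inj] at h1
  rw [TA.nz_eq a, TA.nz_eq a', h1] at h4
  exact Prod.ext (Subtype.ext h3) (smul_right_injective _ (inv_ne_zero (by linarith)) h4)

theorem pV_sur (hT : TT) {y : Tor → ℝ} (h : y ∈ Cn TF) (h0 : y ≠ 0) : ∃ v, pV v = y := by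
  obtain ⟨⟨k, l⟩, ⟨hk, hl⟩, a, ha, rfl⟩ := Tri.smul_sur hT h h0
  have hn : ‖(a + 1) • l‖ = a + 1 := by
    rw [norm_smul, mem_sphere_zero_iff_norm.1 hl, mul_one, Real.norm_of_nonneg (by linarith)]
  refine ⟨(⟨k, hk⟩, (a + 1) • l), ?_⟩
  rw [pV, TA.ht_eq (by rw [hn]; linarith), TA.nz_eq (by rw [hn]; linarith), hn,
    inv_smul_smul₀ (by linarith), add_sub_cancel_right]

/-- a triangulated geometric piece is a piece -/
def Gm.bk {S G J : Type} [Fintype S] [NormedAddCommGroup G] [NormedSpace ℝ G] {Fc : Set S → Prop}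
    {pos : S → G} {C : Set G} {τ : J → R2 × R2 → G} (g : Gm C τ) (hT : TT) (T : Tri Fc pos C)
    {wl : J → Tor → S}
    (h : ∀ j, ∀ μ ∈ Dl TF, pu (wl j) μ ∈ Dl Fc ∧ rl pos (pu (wl j) μ) = τ j (rl pT μ)) :
    Bk Fc wl where
  toWl := g.toWl
  p := ⟨fun x => g.r x • iv Fc pos (g.π x),
    T.continuous_smul g.r.continuous g.r_nonneg g.π.continuous g.π_mem⟩
  p_mem x := T.smul_mem (g.r_nonneg x) (g.π_mem x)
  inj x x' e h0 :=
    let a := T.smul_inj (g.r_nonneg x) (g.π_mem x) (g.r_nonneg x') (g.π_mem x') e h0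
    g.inj x x' a.2.1 a.2.2 a.1
  sur y hy h0 := by
    obtain ⟨c, hc, a, ha, rfl⟩ := T.smul_sur hy h0
    obtain ⟨x, rfl, rfl⟩ := g.sur c hc a ha
    exact ⟨x, rfl⟩
  cpt R := by
    refine (g.cpt (Fintype.card S * R)).of_isClosed_subset (isClosed_le (continuous_norm.comp
      (T.continuous_smul g.r.continuous g.r_nonneg g.π.continuous g.π_mem)) continuous_const)
      fun x hx => ?_
    show g.r x ≤ _
    rw [← T.sum_smul (g.r_nonneg x) (g.π_mem x), ← nsmul_eq_mul]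
    exact Finset.sum_le_card_nsmul _ _ _ fun s _ =>
      (le_abs_self _).trans ((norm_le_pi_norm _ s).trans hx)
  pκ j v := by
    show g.r _ • iv Fc pos (g.π _) = _
    rw [g.rκ, pV, pu_smul]
    rcases (TA.ht_nonneg v.2).eq_or_lt with e | hp
    · rw [← e, zero_smul, zero_smul]
    · have m := TA.mem v hp
      obtain ⟨h1, h2⟩ := h j _ (Tri.iv_mem hT m)
      rw [g.πκ j v (TA.ht_pos.1 hp), ← T.iv_rl h1, h2, Tri.rl_iv hT m]

end Crest.Agent.N233.Pc

end
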