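import Crest.Agent.N233.Pc.Gl
import Crest.Agent.N233.Pc.TriA
import Crest.Agent.N233.Pc.Ch
import Crest.Agent.N233.Ae.Ext

/-!
# Row 233 (helper67): an assembly of pieces is a filling
-/

set_option autoImplicit false
open Set unitInterval Topology Filter
open scoped ENNReal

noncomputable section

namespace Crest.Agent.N233.Pc

open Classical in
/-- push forward into bounded functions -/
def puL {S St : Type} [Fintype S] (c : S → St) (y : S → ℝ) : LI St :=
  ∑ a, y a • lp.single ∞ (c a) (1 : ℝ)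

theorem puL_apply {S St : Type} [Fintype S] (c : S → St) (y : S → ℝ) (s : St) :
    puL c y s = pu c y s := by
  classical
  simp only [puL, pu, lp.coeFn_sum, Finset.sum_apply, lp.coeFn_smul, Pi.smul_apply,
    lp.single_apply, Pi.single_apply, smul_eq_mul]
  refine Finset.sum_congr rfl fun a _ => ?_
  by_cases h : c a = s
  · simp [h]
  · simp [h, Ne.symm h]

theorem continuous_puL {S St : Type} [Fintype S] (c : S → St) : Continuous (puL c) :=
  continuous_finsetSum _ fun a _ => (continuous_apply a).smul continuous_const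

theorem puL_eq {S S' St : Type} [Fintype S] [Fintype S'] {c : S → St} {c' : S' → St} {y : S → ℝ}
    {y' : S' → ℝ} : puL c y = puL c' y' ↔ pu c y = pu c' y' :=
  ⟨fun h => funext fun s => by rw [← puL_apply, h, puL_apply],
    fun h => lp.ext (funext fun s => by rw [puL_apply, puL_apply, h])⟩

theorem puL_zero {S St : Type} [Fintype S] (c : S → St) : puL c 0 = 0 := by simp [puL]

theorem norm_le_puL {S St : Type} [Fintype S] {c : S → St} {y : S → ℝ}
    (h : InjOn c {s | y s ≠ 0}) : ‖y‖ ≤ ‖puL c y‖ :=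
  (pi_norm_le_iff_of_nonneg (norm_nonneg _)).2 fun a => by
    by_cases e : y a = 0
    · rw [e, norm_zero]; exact norm_nonneg _
    · rw [← pu_apply h (fun _ => id) e, ← puL_apply]
      exact lp.norm_apply_le_norm ENNReal.top_ne_zero _ _

variable {S Ed St F : Type} [Fintype S] [Group F] {Fc : Set S → Prop}
  {wl : Ed × Bool → Tor → S} {Ft : Set St → Prop} {π : F → St → St}

omit [Fintype S] in
theorem Asm.glue' (A : Asm Fc wl Ft F π) (f : F) (j : Ed × Bool) (t : Tor) :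
    A.cp (f * A.g j) (wl j t) = A.cp (f * A.g (op j)) (wl (op j) t) := by
  obtain ⟨e, _ | _⟩ := j
  · exact (A.glue f e t).symm
  · exact A.glue f e t

namespace Bk

variable (P : Bk Fc wl) (A : Asm Fc wl Ft F π)

/-- the glued manifold -/
abbrev X : Type := P.toWl.Gl A.g

/-- the copy `f` -/
abbrev cy (f : F) (x : P.E) : P.X A := P.toWl.cy A.g f x

theorem p_w (j : Ed × Bool) (v : VW) : P.p (P.w j v) = pu (wl j) (pV v) := P.pκ j v

/-- the map to the cone -/
def pp : C(P.X A, LI St) where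
  toFun := Wl.lift (fun f x => puL (A.cp f) (P.p x)) fun f j v => by
    rw [puL_eq, p_w, p_w, pu_pu, pu_pu]
    exact pu_congr fun t _ => A.glue' f j t
  continuous_toFun := Wl.continuous_iff.2 fun f => (continuous_puL (A.cp f)).comp P.p.continuous

theorem pp_cy (f : F) (x : P.E) : P.pp A (P.cy A f x) = puL (A.cp f) (P.p x) := rfl

theorem pp_apply (f : F) (x : P.E) (s : St) : P.pp A (P.cy A f x) s = pu (A.cp f) (P.p x) s :=
  puL_apply _ _ _

theorem supp_pp (f : F) (x : P.E) :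
    {s | P.pp A (P.cy A f x) s ≠ 0} = A.cp f '' {a | P.p x a ≠ 0} := by
  simp only [pp_apply]; exact supp_pu _ (P.p_mem x).1

theorem pp_mem (x : P.X A) : P.pp A x ∈ Cone Ft := by
  obtain ⟨f, x, rfl⟩ := Wl.exists_cy x
  exact ⟨fun s => by rw [pp_apply]; exact pu_nonneg _ (P.p_mem x).1 s,
    (A.face _).2 ⟨f, _, (P.p_mem x).2, P.supp_pp A f x⟩⟩

theorem pp_smul (γ : F) (x : P.X A) (s : St) : P.pp A (γ • x) (π γ s) = P.pp A x s := by
  obtain ⟨f, x, rfl⟩ := Wl.exists_cy x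
  rw [Wl.smul_cy, pp_apply, pp_apply]
  refine Finset.sum_congr rfl fun a _ => ?_
  rw [← A.cp_smul]
  by_cases h : A.cp f a = s
  · simp [h]
  · rw [if_neg h, if_neg fun e => h (A.π_inj γ e)]

theorem pp_cp (f : F) (x : P.E) {a : S} (ha : P.p x a ≠ 0) :
    P.pp A (P.cy A f x) (A.cp f a) = P.p x a := by
  rw [pp_apply]; exact pu_apply (A.injOn f _ (P.p_mem x).2) (fun _ => id) ha

theorem norm_p_le (f : F) (x : P.E) : ‖P.p x‖ ≤ ‖P.pp A (P.cy A f x)‖ :=
  norm_le_puL (A.injOn f _ (P.p_mem x).2)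

theorem pp_eq_zero (f : F) (x : P.E) : P.pp A (P.cy A f x) = 0 ↔ P.p x = 0 :=
  ⟨fun h => norm_le_zero_iff.1 ((P.norm_p_le A f x).trans_eq (by rw [h, norm_zero])),
    fun h => by rw [pp_cy, h, puL_zero]⟩

include A in
/-- points over a wall torus lie on the wall -/
theorem on_wall (hT : TT) {j : Ed × Bool} {x : P.E} {T : Set Tor} (h0 : P.p x ≠ 0)
    (h : {a | P.p x a ≠ 0} = wl j '' T) : ∃ v, P.w j v = x ∧ pV v = fun t => P.p x (wl j t) := by
  have e : pu (wl j) (fun t => P.p x (wl j t)) = P.p x :=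
    pu_comp (A.wl_inj j) fun a ha => image_subset_range _ T (h ▸ ha)
  have s : {t | P.p x (wl j t) ≠ 0} = T := by
    ext t
    exact (Set.ext_iff.1 h _).trans (A.wl_inj j).mem_set_image
  obtain ⟨v, hv⟩ := pV_sur hT (y := fun t => P.p x (wl j t))
    ⟨fun t => (P.p_mem x).1 _, s ▸ A.full j T (h ▸ (P.p_mem x).2)⟩
    fun n => h0 (by rw [← e, n, pu_zero])
  exact ⟨v, (P.inj _ _ (by rw [p_w, hv, e]) h0).symm, hv⟩

theorem pp_inj (hT : TT) {x x' : P.X A} (h : P.pp A x = P.pp A x') (h0 : P.pp A x ≠ 0) : x = x' := by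
  obtain ⟨f, x, rfl⟩ := Wl.exists_cy x
  obtain ⟨f', x', rfl⟩ := Wl.exists_cy x'
  have n : P.p x ≠ 0 := fun e => h0 ((P.pp_eq_zero A f x).2 e)
  have n' : P.p x' ≠ 0 := fun e => h0 (h ▸ (P.pp_eq_zero A f' x').2 e)
  have key : ∀ a a', A.cp f a = A.cp f' a' → (P.p x a ≠ 0 ↔ P.p x' a' ≠ 0) → P.p x a = P.p x' a' :=
    fun a a' e i => by
      by_cases z : P.p x a = 0
      · rw [z, not_not.1 fun m => i.2 m z]
      · rw [← P.pp_cp A f x z, ← P.pp_cp A f' x' (i.1 z), e]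
        exact congrArg (fun y : LI St => y (A.cp f' a')) h
  rcases A.two f f' _ _ (P.p_mem x).2 (P.p_mem x').2 (Function.ne_iff.1 n)
    (by rw [← supp_pp, ← supp_pp]; exact congrArg (fun y : LI St => {s | y s ≠ 0}) h) with
    ⟨rfl, e⟩ | ⟨f0, e, b, T, rfl, rfl, h1, h2⟩
  · rw [P.inj x x' (funext fun a => key a a rfl (Set.ext_iff.1 e a)) n]
  · obtain ⟨v, rfl, hv⟩ := P.on_wall A hT n h1
    obtain ⟨v', rfl, hv'⟩ := P.on_wall A hT n' h2
    have : pV v = pV v' := by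
      rw [hv, hv']
      funext t
      refine key _ _ (A.glue' f0 (e, b) t) ?_
      exact ((Set.ext_iff.1 h1 _).trans (A.wl_inj _).mem_set_image).trans
        ((Set.ext_iff.1 h2 _).trans (A.wl_inj _).mem_set_image).symm
    obtain rfl := pV_inj hT this fun m => n (by rw [p_w, m, pu_zero])
    exact Wl.cy_w f0 (e, b) v

theorem pp_sur {y : LI St} (hy : y ∈ Cone Ft) (h0 : y ≠ 0) : ∃ x, P.pp A x = y := by
  classical
  obtain ⟨f, B, hB, e⟩ := (A.face _).1 hy.2
  have m : ∀ a ∈ B, y (A.cp f a) ≠ 0 := fun a ha => (Set.ext_iff.1 e _).2 ⟨a, ha, rfl⟩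
  have s : {a | (if a ∈ B then y (A.cp f a) else 0) ≠ 0} = B := by
    ext a
    by_cases h : a ∈ B <;> simp [h, m]
  have k : puL (A.cp f) (fun a => if a ∈ B then y (A.cp f a) else 0) = y := by
    refine lp.ext (funext fun s' => ?_)
    rw [puL_apply]
    by_cases h : y s' = 0
    · rw [h]
      refine pu_eq_zero fun a ha n => m a (s ▸ ha) (n ▸ h)
    · obtain ⟨a, ha, rfl⟩ := (Set.ext_iff.1 e _).1 h
      rw [pu_apply (A.injOn f B hB) (fun a ha => s ▸ ha) ha, if_pos ha]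
  obtain ⟨x, hx⟩ := P.sur (fun a => if a ∈ B then y (A.cp f a) else 0)
    ⟨fun a => by beta_reduce; split_ifs; exacts [hy.1 _, le_rfl], s.symm ▸ hB⟩
    fun n => h0 (by rw [← k, n, puL_zero])
  exact ⟨P.cy A f x, by rw [pp_cy, hx, k]⟩

theorem exists_compact (s : St) (R : ℝ) : ∃ K : Set (P.X A), IsCompact K ∧
    ∀ x, P.pp A x s ≠ 0 → ‖P.pp A x‖ ≤ R → x ∈ K := by
  refine ⟨⋃ f ∈ {f | ∃ a, A.cp f a = s}, P.cy A f '' {x | ‖P.p x‖ ≤ R},
    (A.fin s).isCompact_biUnion fun f _ => (P.cpt R).image (Wl.continuous_cy f), fun x h1 h2 => ?_⟩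
  obtain ⟨f, x, rfl⟩ := Wl.exists_cy x
  obtain ⟨a, -, e⟩ := (Set.ext_iff.1 (P.supp_pp A f x) s).1 h1
  exact mem_biUnion (t := fun f => P.cy A f '' {x | ‖P.p x‖ ≤ R}) ⟨a, e⟩
    ⟨x, (P.norm_p_le A f x).trans h2, rfl⟩

variable [Nonempty P.E]

instance : Nonempty (P.X A) := ⟨P.cy A 1 (Classical.arbitrary _)⟩

/-- the inverse off the apex -/
def jj : LI St → P.X A := Function.invFun (P.pp A)

theorem pp_jj {y : LI St} (hy : y ∈ Cone Ft) (h0 : y ≠ 0) : P.pp A (P.jj A y) = y :=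
  Function.invFun_eq (P.pp_sur A hy h0)

theorem jj_pp (hT : TT) {x : P.X A} (h0 : P.pp A x ≠ 0) : P.jj A (P.pp A x) = x :=
  (P.pp_inj A hT (P.pp_jj A (P.pp_mem A x) h0).symm h0).symm

theorem jj_cont (hT : TT) : ContinuousOn (P.jj A) (Cone Ft \ {0}) := by
  rintro y ⟨hy, h0⟩
  obtain ⟨s, hs⟩ : ∃ s, y s ≠ 0 := by
    by_contra n
    push Not at n
    exact h0 (lp.ext (funext n))
  have hp : 0 < y s := (hy.1 s).lt_of_ne' hs
  have ce : Continuous fun z : LI St => z s := (lp.lipschitzWith_one_eval ∞ s).continuous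
  obtain ⟨K, hK, h⟩ := P.exists_compact A s (‖y‖ + 1)
  have hc := contOn_of_compact (hK.inter_right ((isClosed_le continuous_const ce).preimage
    (P.pp A).continuous : IsClosed (P.pp A ⁻¹' {z | y s / 2 ≤ z s}))) (P.pp A).continuous
    (j := P.jj A) fun x hx => P.jj_pp A hT fun e => by
      have : y s / 2 ≤ P.pp A x s := hx.2
      rw [e] at this
      exact absurd this (not_le.2 (half_pos hp))
  have key : ∀ z ∈ Cone Ft \ {0}, y s / 2 < z s → ‖z‖ < ‖y‖ + 1 →
      z ∈ P.pp A '' (K ∩ P.pp A ⁻¹' {z | y s / 2 ≤ z s}) := fun z hz h1 h2 => by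
    have e := P.pp_jj A hz.1 hz.2
    exact ⟨_, ⟨h _ (by rw [e]; linarith) (by rw [e]; exact h2.le),
      by rw [mem_preimage, e]; exact h1.le⟩, e⟩
  refine (hc y (key y ⟨hy, h0⟩ (half_lt_self hp) (lt_add_one _))).mono_of_mem_nhdsWithin ?_
  filter_upwards [self_mem_nhdsWithin, nhdsWithin_le_nhds ((isOpen_lt continuous_const ce).mem_nhds
    (half_lt_self hp)), nhdsWithin_le_nhds ((isOpen_lt continuous_norm continuous_const).mem_nhds
    (lt_add_one ‖y‖))] with z h1 h2 h3 using key z h1 h2 h3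

omit [Nonempty P.E] in
theorem sigmaCompact [Countable F] : SigmaCompactSpace (P.X A) := by
  refine SigmaCompactSpace.of_countable (range fun q : F × ℕ => P.cy A q.1 '' {x | ‖P.p x‖ ≤ q.2})
    (countable_range _) (forall_mem_range.2 fun q => (P.cpt _).image (Wl.continuous_cy _))
    (eq_univ_of_forall fun x => ?_)
  obtain ⟨f, x, rfl⟩ := Wl.exists_cy x
  obtain ⟨n, hn⟩ := exists_nat_ge ‖P.p x‖
  exact ⟨_, ⟨(f, n), rfl⟩, x, hn, rfl⟩

/-- **the filling** -/
def pre [Finite Ed] [Countable F] (hT : TT) : Ae.Pre Ft F π where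
  X := P.X A
  ch := charted (Wl.le_all le_VW)
  sc := P.sigmaCompact A
  free := Wl.free
  p := P.pp A
  p_mem := P.pp_mem A
  p_smul := P.pp_smul A
  j := P.jj A
  j_cont := P.jj_cont A hT
  pj _ := P.pp_jj A
  jp _ := P.jj_pp A hT
  cpt := ⟨P.cy A 1 '' {x | ‖P.p x‖ ≤ 1}, (P.cpt 1).image (Wl.continuous_cy 1), fun x hx => by
    obtain ⟨f, x, rfl⟩ := Wl.exists_cy x
    exact ⟨f⁻¹, x, (P.norm_p_le A f x).trans hx, by rw [Wl.smul_cy, inv_mul_cancel]⟩⟩

end Bk

end Crest.Agent.N233.Pc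

end
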