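import Crest.Agent.N233.Pc.TriP
import Crest.Agent.N233.Pc.Ch

/-!
# Row 233 (helper14): the triangulations of the Borromean piece and of the Seifert pieces
-/

set_option autoImplicit false
open Set Topology

noncomputable section

namespace Crest.Agent.N233.Pc

/-- a flag complex of dimension at most `d`, described by its directed edges `D` (loops included) -/
structure Dr {S : Type} (Fc : Set S → Prop) (h : S → ℕ) (D : S → S → Prop) (d : ℕ) : Prop where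
  iff : ∀ A, Fc A ↔ ∀ a ∈ A, ∀ b ∈ A, D a b ∨ D b a
  le : ∀ a b, D a b → h a ≤ h b ∧ h b ≤ h a + d
  eq : ∀ a b, D a b → h b ≤ h a → a = b

namespace Dr

variable {S S' : Type} {Fc Fc₁ : Set S → Prop} {h : S → ℕ} {D : S → S → Prop} {d : ℕ}
  {Fc' : Set S' → Prop} {h' : S' → ℕ} {D' : S' → S' → Prop} {d' : ℕ}

theorem of_le (R : Dr Fc h D d) {a b : S} (k : D a b ∨ D b a) (l : h a ≤ h b) : D a b :=
  k.elim id fun k => by
    obtain rfl := R.eq _ _ k l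
    exact k

theorem down (R : Dr Fc h D d) (A B : Set S) (k : A ⊆ B) (f : Fc B) : Fc A :=
  (R.iff A).2 fun a ha b hb => (R.iff B).1 f a (k ha) b (k hb)

theorem emp (R : Dr Fc h D d) : Fc ∅ := (R.iff _).2 (by simp)

theorem injOn (R : Dr Fc h D d) (A : Set S) (f : Fc A) : InjOn h A := fun a ha b hb e =>
  R.eq _ _ (R.of_le ((R.iff A).1 f a ha b hb) e.le) e.ge

/-- flagness -/
theorem pair (R : Dr Fc h D d) (A : Set S) : Fc A ↔ ∀ a ∈ A, ∀ b ∈ A, Fc {a, b} :=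
  ⟨fun f a ha b hb => R.down _ _ (by simp [insert_subset_iff, ha, hb]) f,
    fun f => (R.iff A).2 fun a ha b hb => (R.iff _).1 (f a ha b hb) a (by simp) b (by simp)⟩

theorem dim (R : Dr Fc h D d) {A : Set S} (f : Fc A) : ∃ p : S → Fin (d + 1), InjOn p A := by
  rcases A.eq_empty_or_nonempty with rfl | ne
  · exact ⟨fun _ => 0, by simp⟩
  obtain ⟨c, hc, m⟩ := (wellFounded_lt.onFun (f := h)).has_min A ne
  have k : ∀ a ∈ A, h c ≤ h a ∧ h a ≤ h c + d := fun a ha =>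
    R.le _ _ (R.of_le ((R.iff A).1 f c hc a ha) (not_lt.1 (m a ha)))
  refine ⟨fun a => ⟨min (h a - h c) d, by omega⟩, fun a ha b hb e => R.injOn A f ha hb ?_⟩
  have := k a ha
  have := k b hb
  simp only [Fin.mk.injEq] at e
  omega

theorem card (R : Dr Fc h D d) (σ : Finset S) (f : Fc σ) : σ.card ≤ d + 1 := by
  obtain ⟨p, hp⟩ := R.dim f
  simpa using Finset.card_le_card_of_injOn (t := Finset.univ) p (fun _ _ => by simp) hp

theorem prod (R : Dr Fc h D d) (R' : Dr Fc' h' D' d') :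
    Dr (PF Fc h Fc' h') (fun a => h a.1 + h' a.2) (fun a b => D a.1 b.1 ∧ D' a.2 b.2) (d + d') := by
  refine ⟨fun A => ⟨fun f a ha b hb => ?_, fun f => ⟨(R.iff _).2 ?_, (R'.iff _).2 ?_,
    fun a ha b hb => ?_⟩⟩, fun a b k => ?_, fun a b k l => ?_⟩
  · have x := (R.iff _).1 f.1 _ ⟨a, ha, rfl⟩ _ ⟨b, hb, rfl⟩
    have y := (R'.iff _).1 f.2.1 _ ⟨a, ha, rfl⟩ _ ⟨b, hb, rfl⟩
    exact (f.2.2 a ha b hb).imp (fun k => ⟨R.of_le x k.1, R'.of_le y k.2⟩)
      fun k => ⟨R.of_le x.symm k.1, R'.of_le y.symm k.2⟩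
  · rintro _ ⟨a, ha, rfl⟩ _ ⟨b, hb, rfl⟩
    exact (f a ha b hb).imp And.left And.left
  · rintro _ ⟨a, ha, rfl⟩ _ ⟨b, hb, rfl⟩
    exact (f a ha b hb).imp And.right And.right
  · exact (f a ha b hb).imp (fun k => ⟨(R.le _ _ k.1).1, (R'.le _ _ k.2).1⟩)
      fun k => ⟨(R.le _ _ k.1).1, (R'.le _ _ k.2).1⟩
  · have := R.le _ _ k.1
    have := R'.le _ _ k.2
    omega
  · have := R.le _ _ k.1
    have := R'.le _ _ k.2
    exact Prod.ext (R.eq _ _ k.1 (by omega)) (R'.eq _ _ k.2 (by omega))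

/-- removing edges -/
theorem sub (R : Dr Fc h D d) {N : S → S → Prop} (hN : ∀ a b, N a b → ¬D b a)
    (e : ∀ A, Fc₁ A ↔ Fc A ∧ ∀ a ∈ A, ∀ b ∈ A, ¬N a b) :
    Dr Fc₁ h (fun a b => D a b ∧ ¬N a b) d := by
  refine ⟨fun A => (e A).trans ⟨fun f a ha b hb => ?_, fun f => ⟨(R.iff A).2 fun a ha b hb =>
    (f a ha b hb).imp And.left And.left, fun a ha b hb n => ?_⟩⟩, fun a b k => R.le a b k.1,
    fun a b k => R.eq a b k.1⟩
  · exact ((R.iff A).1 f.1 a ha b hb).imp (fun k => ⟨k, f.2 a ha b hb⟩) fun k => ⟨k, f.2 b hb a ha⟩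
  · exact (f a ha b hb).elim (fun k => k.2 n) fun k => hN a b n k.1

theorem image (R : Dr Fc h D d) (R' : Dr Fc' h' D' d') {w : S' → S}
    (hw : ∀ a b, D (w a) (w b) ↔ D' a b) (A : Set S') : Fc (w '' A) ↔ Fc' A := by
  simp only [R.iff, R'.iff, forall_mem_image, hw]

end Dr

/-- directed edges of the four-cycle -/
def DK (a b : Fin 4) : Prop := (a = b ∨ a = b + 1 ∨ b = a + 1) ∧ hK a ≤ hK b

instance (a b : Fin 4) : Decidable (DK a b) := by unfold DK; infer_instance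

theorem drK : Dr KF hK DK 1 := by
  refine ⟨fun A => ⟨?_, fun f => ?_⟩, by decide, by decide⟩
  · rintro ⟨i, k⟩ a ha b hb
    have x := k ha
    have y := k hb
    simp only [mem_insert_iff, mem_singleton_iff] at x y
    clear k ha hb
    revert i a b
    decide
  · have n02 : 0 ∈ A → 2 ∉ A := fun a b => absurd (f 0 a 2 b) (by decide)
    have n13 : 1 ∈ A → 3 ∉ A := fun a b => absurd (f 1 a 3 b) (by decide)
    have key : ∀ i : Fin 4, i + 2 ∉ A → i + 3 ∉ A → KF A := fun i a b => ⟨i, fun s hs => by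
      have x : s ≠ i + 2 := fun e => a (e ▸ hs)
      have y : s ≠ i + 3 := fun e => b (e ▸ hs)
      simp only [mem_insert_iff, mem_singleton_iff]
      clear a b hs
      revert i s
      decide⟩
    by_cases a : 0 ∈ A <;> by_cases b : 1 ∈ A
    exacts [key 0 (n02 a) (n13 b), key 3 b (n02 a), key 1 (n13 b) a, key 2 a b]

/-- directed edges of the torus -/
def DT (a b : Tor) : Prop := DK a.1 b.1 ∧ DK a.2 b.2

instance (a b : Tor) : Decidable (DT a b) := by unfold DT; infer_instance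

theorem drT : Dr TF hT DT 2 := drK.prod drK

/-- directed edges of the path -/
def DI (n : ℕ) (a b : Fin (2 * n + 2)) : Prop := (a.1 ≤ b.1 + 1 ∧ b.1 ≤ a.1 + 1) ∧ hI n a ≤ hI n b

theorem drI (n : ℕ) : Dr (IF n) (hI n) (DI n) 1 := by
  refine ⟨fun A => ⟨?_, fun f => ?_⟩, fun a b k => ⟨k.2, ?_⟩, fun a b k l => Fin.ext ?_⟩
  · rintro ⟨i, k⟩ a ha b hb
    have := k a ha
    have := k b hb
    unfold DI
    omega
  · rcases A.eq_empty_or_nonempty with rfl | ne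
    · exact ⟨0, by simp⟩
    obtain ⟨c, hc, m⟩ := wellFounded_lt.has_min A ne
    refine ⟨c.1, fun a ha => ?_⟩
    have := f c hc a ha
    have := m a ha
    simp only [DI, Fin.lt_def] at *
    omega
  · have := k.1
    simp only [hI]
    split_ifs <;> omega
  · have := k.1
    have := k.2
    simp only [hI] at *
    split_ifs at * <;> omega

/-! ### the Borromean piece -/

/-- the diagonal of the cross section of a tube -/
def Dg {S : Type} (f g : S → Fin 4) (a b : S) : Prop := f a = 0 ∧ f b = 1 ∧ g a = 3 ∧ g b = 2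

instance {S : Type} (f g : S → Fin 4) (a b : S) : Decidable (Dg f g a b) := by
  unfold Dg; infer_instance

theorem tb_iff {S : Type} {f g : S → Fin 4} {A : Set S} (h : ∀ a ∈ A, ∀ b ∈ A,
    (DK (f a) (f b) ∧ DK (g a) (g b)) ∨ (DK (f b) (f a) ∧ DK (g b) (g a))) :
    Tb f g A ↔ ∃ a ∈ A, ∃ b ∈ A, Dg f g a b := by
  refine ⟨?_, fun ⟨a, ha, b, hb, k⟩ => ⟨⟨a, ha, k.1⟩, ⟨b, hb, k.2.1⟩, ⟨b, hb, k.2.2.2⟩,
    ⟨a, ha, k.2.2.1⟩⟩⟩
  rintro ⟨⟨a, ha, e1⟩, ⟨b, hb, e2⟩, ⟨c, hc, e3⟩, ⟨d, hd, e4⟩⟩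
  have k1 := h a ha d hd
  have k2 := h a ha c hc
  have k3 := h b hb c hc
  rw [e1, e4] at k1
  rw [e1, e3] at k2
  rw [e2, e3] at k3
  have x : g a = 3 ∨ f d = 0 := by
    revert k1 k2
    generalize g a = p, f d = q, f c = r
    revert p q r
    decide
  have y : g b = 2 ∨ f c = 1 := by
    revert k3 k2
    generalize g a = p, g b = q, f c = r
    revert p q r
    decide
  rcases x with x | x <;> rcases y with y | y
  exacts [⟨a, ha, b, hb, e1, e2, x, y⟩, ⟨a, ha, c, hc, e1, y, x, e3⟩, ⟨d, hd, b, hb, x, e2, e4, y⟩,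
    ⟨d, hd, c, hc, x, y, e4, e3⟩]

/-- heights -/
def gB (a : Fin 4 × Tor) : ℕ := hK a.1 + hT a.2

/-- the removed edges -/
def NB (a b : Fin 4 × Tor) : Prop :=
  Dg (·.2.1) (·.2.2) a b ∨ Dg (·.2.2) (·.1) a b ∨ Dg (·.1) (·.2.1) a b

/-- directed edges -/
def DrB (a b : Fin 4 × Tor) : Prop := (DK a.1 b.1 ∧ DT a.2 b.2) ∧ ¬NB a b

instance (a b : Fin 4 × Tor) : Decidable (DrB a b) := by unfold DrB NB; infer_instance

theorem drB : Dr FB gB DrB 3 := by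
  refine (drK.prod drT).sub (N := NB) (fun a b n k => ?_) fun A => and_congr_right fun f => ?_
  · have x : ¬DK 1 0 := by decide
    rcases n with n | n | n
    · exact x (by simpa only [← n.1, ← n.2.1] using k.2.1)
    · exact x (by simpa only [← n.1, ← n.2.1] using k.2.2)
    · exact x (by simpa only [← n.1, ← n.2.1] using k.1)
  · have k := ((drK.prod drT).iff A).1 f
    rw [tb_iff fun a ha b hb => (k a ha b hb).imp And.right And.right,
      tb_iff fun a ha b hb => (k a ha b hb).imp (fun z => ⟨z.2.2, z.1⟩) fun z => ⟨z.2.2, z.1⟩,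
      tb_iff fun a ha b hb => (k a ha b hb).imp (fun z => ⟨z.1, z.2.1⟩) fun z => ⟨z.1, z.2.1⟩]
    simp only [NB, not_or, not_exists, not_and (a := _ ∈ A), forall_and]

theorem nb_rl {m : Fin 4 → ℝ} (hm : m ∈ Dl KF) : (nb (rl vx m) < 1 ↔ m 0 ≠ 0 ∧ m 1 ≠ 0) ∧
    (nb (fl (rl vx m)) < 1 ↔ m 2 ≠ 0 ∧ m 3 ≠ 0) := by
  have n := mem_KK.1 (triK.rl_mem hm)
  rw [nb_lt_one_iff n, nb_lt_one_iff ((norm_fl _).trans n), rl_vx, fl_mk]
  obtain ⟨a, b, c⟩ := Dl_KF.1 hm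
  have h0 := a 0; have h1 := a 1; have h2 := a 2; have h3 := a 3
  simp only [abs_lt, ← h0.lt_iff_ne', ← h1.lt_iff_ne', ← h2.lt_iff_ne', ← h3.lt_iff_ne']
  refine ⟨⟨fun k => ⟨by linarith [k.1, k.2.2], by linarith [k.1, k.2.1]⟩, fun k => ?_⟩,
    fun k => ⟨by linarith [k.1, k.2.1], by linarith [k.1, k.2.2]⟩, fun k => ?_⟩ <;>
    rcases c with c | c | c | c <;>
    exact ⟨by linarith [c.1, c.2, k.1, k.2], by linarith [c.1, c.2, k.1, k.2],
      by linarith [c.1, c.2, k.1, k.2]⟩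

theorem nT_iff {S : Type} [Fintype S] {y : S → ℝ} (p : ∀ s, 0 ≤ y s) {f g : S → Fin 4}
    (hf : pu f y ∈ Dl KF) (hg : pu g y ∈ Dl KF) :
    1 ≤ nT (rl (fun s => vx (f s)) y) (rl (fun s => vx (g s)) y) ↔ ¬Tb f g {s | y s ≠ 0} := by
  rw [← not_lt, nT, max_lt_iff, ← rl_pu vx f, ← rl_pu vx g, (nb_rl hf).1, (nb_rl hg).2]
  simp only [pu_ne _ p, Tb]
  tauto

theorem triB : Tri FB pB CB := by
  refine (triK.prod triT hK_injOn hT_injOn).sub (fun _ f => f.1) drB.down drB.emp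
    (fun x k => ⟨mem_KK.2 k.1, mem_KK.2 k.2.1, mem_KK.2 k.2.2.1⟩) fun y hy => ?_
  have m := (triK.prod triT hK_injOn hT_injOn).rl_mem hy
  have e : rl pB y = (rl (fun s => vx s.1) y, rl (fun s => vx s.2.1) y, rl (fun s => vx s.2.2) y) := by
    rw [← rl_pair, ← rl_pair]; rfl
  have m0 : pu (·.1) y ∈ Dl KF := pu_Dl hy fun _ k => k.1
  have m1 : pu (·.2.1) y ∈ Dl KF := pu_Dl hy fun _ k => by simpa only [image_image] using k.2.1.1
  have m2 : pu (·.2.2) y ∈ Dl KF := pu_Dl hy fun _ k => by simpa only [image_image] using k.2.1.2.1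
  have c : (∀ j, 1 ≤ nB (rl pB y) j) ↔ ¬Tb (·.2.1) (·.2.2) {s | y s ≠ 0} ∧
      ¬Tb (·.2.2) (·.1) {s | y s ≠ 0} ∧ ¬Tb (·.1) (·.2.1) {s | y s ≠ 0} := by
    rw [e, Fin.forall_fin_succ, Fin.forall_fin_succ, Fin.forall_fin_one]
    exact and_congr (nT_iff hy.1.1 m1 m2) (and_congr (nT_iff hy.1.1 m2 m0) (nT_iff hy.1.1 m0 m1))
  exact ⟨fun k => ⟨hy.1.2, c.1 k.2.2.2⟩,
    fun k => ⟨mem_KK.1 m.1, mem_KK.1 m.2.1, mem_KK.1 m.2.2, c.2 k.2⟩⟩

theorem DrB_wB : ∀ j a b, DrB (wB j a) (wB j b) ↔ DT a b := by decide +kernel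

theorem wB_eq : ∀ j j' a b, wB j a = wB j' b → j = j' ∧ a = b := by decide +kernel

theorem wB_inj (j : Fin 3) : Function.Injective (wB j) := fun a b e => (wB_eq j j a b e).2

theorem FB_wB (j : Fin 3) (T : Set Tor) : FB (wB j '' T) ↔ TF T := drB.image drT (DrB_wB j) T

theorem fullB (j : Fin 3) (T : Set Tor) : FB (wB j '' T) → TF T := (FB_wB j T).1

theorem vx_ea (q : Fin 4) : vx (ea q) = ((vx q).2, -1) := by fin_cases q <;> rfl

theorem vx_eb (q : Fin 4) : vx (eb q) = ((vx q).1, 1) := by fin_cases q <;> rfl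

theorem hB (j : Fin 3) (μ : Tor → ℝ) (hμ : μ ∈ Dl TF) :
    pu (wB j) μ ∈ Dl FB ∧ rl pB (pu (wB j) μ) = τB j (rl pT μ) := by
  refine ⟨pu_Dl hμ fun A => (FB_wB j A).2, ?_⟩
  rw [rl_pu]
  fin_cases j <;>
    simp [pB, pT, wB, τB, vx_ea, vx_eb, rl_pair, rl_const hμ.2, rl_fst, rl_snd]

/-! ### the Seifert pieces -/

/-- heights -/
def gS (n : ℕ) (a : SS n) : ℕ := hK a.1 + (hI n a.2.1 + hK a.2.2)

/-- the removed edges -/
def NS (n : ℕ) (a b : SS n) : Prop := a.1 = 0 ∧ b.1 = 1 ∧ a.2.1.1 % 2 = 1 ∧ b.2.1.1 = a.2.1.1 + 1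

/-- directed edges -/
def DrS (n : ℕ) (a b : SS n) : Prop :=
  (DK a.1 b.1 ∧ DI n a.2.1 b.2.1 ∧ DK a.2.2 b.2.2) ∧ ¬NS n a b

theorem DK_zero : ∀ q, DK q 0 → q = 0 := by decide

theorem DK_one : ∀ q, DK 1 q → DK 0 q ∨ DK q 0 → q = 1 := by decide

theorem drS (n : ℕ) : Dr (FS n) (gS n) (DrS n) 3 := by
  refine (drK.prod ((drI n).prod drK)).sub (N := NS n) (fun a b n k => ?_)
    fun A => and_congr_right fun f => ?_
  · exact (by decide : ¬DK 1 0) (by simpa only [← n.1, ← n.2.1] using k.1)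
  have k := ((drK.prod ((drI n).prod drK)).iff A).1 f
  refine ⟨fun w a ha b hb z => ?_, fun w j => ?_⟩
  · obtain ⟨z1, z2, z3, z4⟩ := z
    have := b.2.1.2
    exact w ⟨a.2.1.1 / 2, by omega⟩ ⟨⟨a, ha, z1⟩, ⟨b, hb, z2⟩, ⟨a, ha, by simp only; omega⟩,
      ⟨b, hb, by simp only; omega⟩⟩
  · rintro ⟨⟨a, ha, e1⟩, ⟨b, hb, e2⟩, ⟨d, hd, e4⟩, ⟨c, hc, e3⟩⟩
    simp only at e1 e2 e3 e4
    have x : a.2.1.1 = 2 * j.1 + 1 ∨ d.1 = 0 := by
      refine (k a ha d hd).imp (fun z => ?_) fun z => DK_zero _ (e1 ▸ z.1)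
      have u := z.2.1
      have v := (k a ha c hc).imp (·.2.1.1) (·.2.1.1)
      simp only [DI, hI] at u
      split_ifs at u <;> omega
    have y : b.2.1.1 = 2 * j.1 + 2 ∨ c.1 = 1 := by
      refine (k c hc b hb).imp (fun z => ?_) fun z => DK_one _ (e2 ▸ z.1)
        ((k a ha c hc).imp (fun t => e1 ▸ t.1) fun t => e1 ▸ t.1)
      have u := z.2.1
      simp only [DI, hI] at u
      split_ifs at u <;> omega
    rcases x with x | x <;> rcases y with y | y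
    exacts [w a ha b hb ⟨e1, e2, by omega, by omega⟩, w a ha c hc ⟨e1, y, by omega, by omega⟩,
      w d hd b hb ⟨x, e2, by omega, by omega⟩, w d hd c hc ⟨x, y, by omega, by omega⟩]

theorem mean_iff {S : Type} [Fintype S] {y : S → ℝ} (p : ∀ s, 0 ≤ y s) (h1 : ∑ s, y s = 1)
    {f : S → ℕ} {i : ℕ} (hi : ∀ s, y s ≠ 0 → f s = i ∨ f s = i + 1) (k : ℕ) :
    ((k : ℝ) < rl (fun s => (f s : ℝ)) y ∧ rl (fun s => (f s : ℝ)) y < k + 1) ↔
      k ∈ f '' {s | y s ≠ 0} ∧ k + 1 ∈ f '' {s | y s ≠ 0} := by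
  have l := le_mean (φ := fun s => (f s : ℝ)) p h1 (c := i) fun s z => by
    rcases hi s z with e | e <;> simp [e]
  have u := mean_le (φ := fun s => (f s : ℝ)) p h1 (c := i + 1) fun s z => by
    rcases hi s z with e | e <;> simp [e]
  constructor
  · rintro ⟨a, b⟩
    have x : k < i + 1 := by exact_mod_cast a.trans_le u.1
    have x' : i < k + 1 := by exact_mod_cast l.1.trans_lt b
    obtain rfl : k = i := by omega
    obtain ⟨s, s1, s2⟩ := l.2.1 a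
    obtain ⟨t, t1, t2⟩ := u.2.1 b
    have s3 : k < f s := by exact_mod_cast s2
    have t3 : f t < k + 1 := by exact_mod_cast t2
    exact ⟨⟨t, t1, by have := hi t t1; omega⟩, s, s1, by have := hi s s1; omega⟩
  · rintro ⟨⟨t, t1, t2⟩, s, s1, s2⟩
    obtain rfl : k = i := by have := hi t t1; have := hi s s1; omega
    exact ⟨l.2.2 ⟨s, s1, by simp [s2]⟩, u.2.2 ⟨t, t1, by simp [t2]⟩⟩

theorem triS (n : ℕ) : Tri (FS n) (pS n) (CS n) := by
  have T := triK.prod ((triI n).prod triK (hI_injOn n) hK_injOn) hK_injOn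
    (PF_injOn (hI_injOn n) hK_injOn)
  refine T.sub (fun _ f => f.1) (drS n).down (drS n).emp
    (fun x k => ⟨mem_KK.2 k.1, ⟨k.2.1, k.2.2.1⟩, mem_KK.2 k.2.2.2.1⟩) fun y hy => ?_
  have m := T.rl_mem hy
  have e : rl (pS n) y = (rl (fun s => vx s.1) y, rl (fun s => (s.2.1.1 : ℝ)) y,
      rl (fun s => vx s.2.2) y) := by
    rw [← rl_pair, ← rl_pair]; rfl
  have m0 : pu (·.1) y ∈ Dl KF := pu_Dl hy fun _ k => k.1
  obtain ⟨i, hi⟩ := hy.1.2.2.1.1
  have c : ∀ j : Fin n, 1 ≤ nS j (rl (pS n) y).1 (rl (pS n) y).2.1 ↔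
      ¬(0 ∈ (·.1) '' {s | y s ≠ 0} ∧ 1 ∈ (·.1) '' {s | y s ≠ 0} ∧
        2 * j.1 + 1 ∈ (·.2.1.1) '' {s | y s ≠ 0} ∧ 2 * j.1 + 2 ∈ (·.2.1.1) '' {s | y s ≠ 0}) := by
    intro j
    rw [← mean_iff hy.1.1 hy.2 (fun s z => hi _ ⟨_, ⟨s, z, rfl⟩, rfl⟩) (2 * j.1 + 1), e, ← not_lt,
      nS, max_lt_iff, ← rl_pu vx (fun s : SS n => s.1), (nb_rl m0).1, abs_lt]
    simp only [pu_ne _ hy.1.1]
    push_cast
    exact not_congr ⟨fun k => ⟨k.2.1, k.2.2, by linarith [k.1.1], by linarith [k.1.2]⟩,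
      fun k => ⟨⟨by linarith [k.2.2.1], by linarith [k.2.2.2]⟩, k.1, k.2.1⟩⟩
  exact ⟨fun k => ⟨hy.1.2, fun j => (c j).1 (k.2.2.2.2 j)⟩,
    fun k => ⟨mem_KK.1 m.1, m.2.1.1, m.2.1.2, mem_KK.1 m.2.2, fun j => (c j).2 (k.2 j)⟩⟩

theorem cS_dir (n : ℕ) (j : JS n) (q q' : Fin 4) :
    (DK (cS n j q).1 (cS n j q').1 ∧ DI n (cS n j q).2 (cS n j q').2 ∧
      ¬((cS n j q).1 = 0 ∧ (cS n j q').1 = 1 ∧ (cS n j q).2.1 % 2 = 1 ∧
        (cS n j q').2.1 = (cS n j q).2.1 + 1)) ↔ DK q q' := by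
  rcases j with j | _ | _
  · fin_cases q <;> fin_cases q' <;>
      simp [cS, DI, hI, ea, eb, DK, hK, Nat.add_mod]
  · simp [cS, DI]
  · simp [cS, DI]

theorem DrS_wS (n : ℕ) (ty : JS n → Bool) (j : JS n) (a b : Tor) :
    DrS n (wS n ty j a) (wS n ty j b) ↔ DT a b := by
  have x := cS_dir n j a.1 b.1
  have y := cS_dir n j a.2 b.2
  unfold wS DrS NS DT
  split_ifs <;> simp only <;> tauto

theorem cS_eq {n : ℕ} {j j' : JS n} {q q' : Fin 4} (e : cS n j q = cS n j' q') : j = j' ∧ q = q' := by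
  have x : ∀ q q' : Fin 4, ea q = ea q' → min 1 (3 - (eb q).1) = min 1 (3 - (eb q').1) → q = q' := by
    decide
  rcases j with j | _ | _ <;> rcases j' with j' | _ | _ <;>
    simp only [cS, Prod.mk.injEq, Fin.ext_iff, Fin.val_last, Fin.val_zero, Sum.inl.injEq,
      Sum.inr.injEq, reduceCtorEq, false_and, true_and, and_true] at e ⊢
  · exact ⟨by omega, Fin.ext_iff.1 (x q q' (Fin.ext e.1) (by omega))⟩
  all_goals first
    | exact e | (have := j.2; omega) | (have := j'.2; omega) | omega | (simp at e)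

theorem wS_eq {n : ℕ} {ty : JS n → Bool} {j j' : JS n} {a b : Tor}
    (e : wS n ty j a = wS n ty j' b) : j = j' ∧ a = b := by
  have x : ∀ {q q' l l'}, ((cS n j q).1, (cS n j q).2, l) = (((cS n j' q').1, (cS n j' q').2, l') :
      SS n) → j = j' ∧ q = q' ∧ l = l' := fun k => by
    simp only [Prod.mk.injEq] at k
    have := cS_eq (Prod.ext k.1 k.2.1)
    exact ⟨this.1, this.2, k.2.2⟩
  have : j = j' := by
    unfold wS at e
    split_ifs at e <;> exact (x e).1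
  subst this
  unfold wS at e
  split_ifs at e
  exacts [⟨rfl, Prod.ext (x e).2.1 (x e).2.2⟩, ⟨rfl, Prod.ext (x e).2.2 (x e).2.1⟩]

theorem wS_inj (n : ℕ) (ty : JS n → Bool) (j : JS n) : Function.Injective (wS n ty j) :=
  fun _ _ e => (wS_eq e).2

theorem FS_wS (n : ℕ) (ty : JS n → Bool) (j : JS n) (T : Set Tor) :
    FS n (wS n ty j '' T) ↔ TF T := (drS n).image drT (DrS_wS n ty j) T

theorem fullS (n : ℕ) (ty : JS n → Bool) (j : JS n) (T : Set Tor) :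
    FS n (wS n ty j '' T) → TF T := (FS_wS n ty j T).1

theorem pos_cS (n : ℕ) (j : JS n) (q : Fin 4) :
    vx (cS n j q).1 = (γS n j (vx q)).1 ∧ ((cS n j q).2.1 : ℝ) = (γS n j (vx q)).2 := by
  rcases j with j | _ | _
  · refine ⟨vx_ea q, ?_⟩
    fin_cases q <;> simp [cS, γS, eb, vx] <;> ring
  · simp [cS, γS]
  · simp [cS, γS]

theorem rl_γS {S : Type} [Fintype S] {y : S → ℝ} (h1 : ∑ s, y s = 1) (n : ℕ) (j : JS n)
    (f : S → R2) : rl (fun s => γS n j (f s)) y = γS n j (rl f y) := by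
  rcases j with j | _ | _
  · simp only [γS, rl_pair, rl_const h1, rl_snd, rl_fst, Prod.mk.injEq, true_and]
    simp only [rl, smul_eq_mul, ← mul_div_assoc, mul_add _ (f _).1, ← Finset.sum_div,
      Finset.sum_add_distrib, ← Finset.sum_mul, h1, one_mul]
  · simp only [γS, rl_pair, rl_const h1]
  · simp only [γS, rl_pair, rl_const h1]

theorem hS (n : ℕ) (ty : JS n → Bool) (j : JS n) (μ : Tor → ℝ) (hμ : μ ∈ Dl TF) :
    pu (wS n ty j) μ ∈ Dl (FS n) ∧ rl (pS n) (pu (wS n ty j) μ) = τS n ty j (rl pT μ) := by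
  refine ⟨pu_Dl hμ fun A => (FS_wS n ty j A).2, ?_⟩
  rw [rl_pu]
  have e1 : (rl pT μ).1 = rl (fun a => vx a.1) μ := rl_fst _ _
  have e2 : (rl pT μ).2 = rl (fun a => vx a.2) μ := rl_snd _ _
  unfold τS wS
  split_ifs <;> simp only [pS, (pos_cS n j _).1, (pos_cS n j _).2] <;>
    rw [e1, e2, ← rl_γS hμ.2, rl_fst (fun s => γS n j _), rl_snd (fun s => γS n j _), ← rl_pair,
      ← rl_pair]

end Crest.Agent.N233.Pc

end
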