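import Crest.Agent.N233.Pc.In0
import Crest.Agent.N233.Pc.TriM

/-!
# Row 233 (helper14): the triangulation hypotheses of the bipartite filling hold
-/

set_option autoImplicit false

namespace Crest.Agent.N233.Pc.In

theorem tm : TM := ⟨triB, triS 1, Pc.hB, Pc.hS 1⟩

end Crest.Agent.N233.Pc.In
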