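import Crest.Agent.N233.Pc.TriM
import Crest.Agent.N233.Pc.GmB
import Crest.Agent.N233.Pc.GmS

/-!
# Row 233 (helper14): the Borromean piece and the Seifert pieces over their complexes
-/

set_option autoImplicit false

noncomputable section

namespace Crest.Agent.N233.Pc

/-- the Borromean piece -/
def bkB : Bk FB wB := gmB.bk tt triB hB

/-- the Seifert pieces -/
def bkS (n : ℕ) (ty : JS n → Bool) (h : ty (.inr true) = false → ∀ j, ty j = false) :
    Bk (FS n) (wS n ty) := (gmS n ty h).bk tt (triS n) (hS n ty)

theorem bkB_toWl : bkB.toWl = gmB.toWl := rfl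

theorem bkS_toWl (n : ℕ) (ty : JS n → Bool) (h : ty (.inr true) = false → ∀ j, ty j = false) :
    (bkS n ty h).toWl = (gmS n ty h).toWl := rfl

end Crest.Agent.N233.Pc

end
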