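import Crest.Agent.N233.Pc.InT

/-!
# Row 233 (helper14): the wall tori of the bipartite filling are full
-/

set_option autoImplicit false
open Set

namespace Crest.Agent.N233.Pc.In

theorem rT_rT (a b : Bool) (t : Tor) : rT a b (rT a b t) = t := by
  revert a b t; decide

theorem TF_rT_iff (a b : Bool) (T : Set Tor) : TF (rT a b '' T) ↔ TF T :=
  ⟨fun h => by simpa only [image_image, rT_rT, image_id'] using TF_rT a b h, TF_rT a b⟩

theorem Fn_w0 (n : Nd) (k : Fin 3) (T : Set Tor) : Fn n (w0 n k '' T) ↔ TF T := by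
  obtain ⟨ε, _ | i⟩ := n
  exacts [FB_wB k T, FS_wS 1 _ _ T]

theorem Fn_w1 (n : Nd) (k : Fin 3) (T : Set Tor) : Fn n (w1 n k '' T) ↔ TF T := by
  rw [← TF_rT_iff (ra n k) (rb n k), ← Fn_w0 n k, image_image]
  rfl

theorem Fc_mk (n : Nd) (B : Set V3) : Fc (Sigma.mk n '' B) ↔ Fn n B := by
  refine ⟨?_, fun h => ⟨n, B, h, rfl⟩⟩
  rintro ⟨m, C, h, e⟩
  rcases B.eq_empty_or_nonempty with rfl | ⟨b, hb⟩
  · obtain ⟨ε, _ | i⟩ := n
    exacts [drB.emp, (drS 1).emp]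
  · obtain ⟨c, -, k⟩ := e.subset ⟨b, hb, rfl⟩
    obtain rfl : m = n := congrArg Sigma.fst k
    rwa [image_injective.2 sigma_mk_injective e]

theorem Fc_wl (j : Ed × Bool) (T : Set Tor) : Fc (wl j '' T) ↔ TF T := by
  rw [← Fn_w1 (eJ j).1 (eJ j).2, ← Fc_mk, image_image]
  rfl

theorem full_wl (j : Ed × Bool) (T : Set Tor) : Fc (wl j '' T) → TF T := (Fc_wl j T).1

end Crest.Agent.N233.Pc.In
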