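import Crest.Agent.N233.Pc.Defs

/-!
# Row 233 (helper68): collar data of one wall, prism walls
-/

set_option autoImplicit false
open Set unitInterval Topology

noncomputable section

namespace Crest.Agent.N233.Pc

/-- the collar of one wall -/
structure WD {E G : Type} [TopologicalSpace E] (t r : E → ℝ) (π : E → G) (τ : R2 × R2 → G) where
  κ : C(VW × I, E)
  emb : IsEmbedding κ
  tκ : ∀ v s, t (κ (v, s)) = s
  sur : ∀ x, t x < 1 → ∃ v s, κ (v, s) = x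
  rκ : ∀ v, r (κ (v, 0)) = ht v.2
  πκ : ∀ v, 1 < ‖v.2‖ → π (κ (v, 0)) = τ (v.1.1, nz v.2)

namespace Pr

/-- horizontal part of the prism -/
def pw (w : R2) (a : ℝ) : R2 := ((1 + a) / max 1 ‖w‖) • w

/-- vertical part of the prism -/
def pr (w : R2) (a : ℝ) : ℝ := max 1 ‖w‖ - a

/-- the level -/
def ta (ω : R2) (ρ : ℝ) : ℝ := max (‖ω‖ - 1) (1 - ρ)

/-- the foot point -/
def pi' (ω : R2) (ρ : ℝ) : R2 := ((ρ + ta ω ρ) / max (1 + ta ω ρ) (1 / 2)) • ω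

theorem norm_pw (w : R2) {a : ℝ} (ha : |a| ≤ 1 / 4) : ‖pw w a‖ = (1 + a) * ‖w‖ / max 1 ‖w‖ := by
  have h := abs_le.1 ha
  have hM : 0 < max 1 ‖w‖ := lt_max_of_lt_left one_pos
  rw [pw, norm_smul, Real.norm_eq_abs, abs_of_nonneg (div_nonneg (by linarith) hM.le)]
  ring

theorem ta_p (w : R2) {a : ℝ} (ha : |a| ≤ 1 / 4) : ta (pw w a) (pr w a) = a := by
  have h := abs_le.1 ha
  rw [ta, norm_pw w ha, pr]
  rcases le_total 1 ‖w‖ with h1 | h1
  · rw [max_eq_right h1, mul_div_assoc, div_self (by linarith), max_eq_left (by linarith)]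
    ring
  · rw [max_eq_left h1, div_one, max_eq_right (by nlinarith [norm_nonneg w])]
    ring

theorem pi_p (w : R2) {a : ℝ} (ha : |a| ≤ 1 / 4) : pi' (pw w a) (pr w a) = w := by
  have h := abs_le.1 ha
  have hM : 0 < max 1 ‖w‖ := lt_max_of_lt_left one_pos
  rw [pi', ta_p w ha, max_eq_left (by linarith), pw, pr, smul_smul]
  have : (max 1 ‖w‖ - a + a) / (1 + a) * ((1 + a) / max 1 ‖w‖) = 1 := by
    have : 1 + a ≠ 0 := by linarith
    field_simp
    ring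
  rw [this, one_smul]

theorem max_pi {ω : R2} {ρ : ℝ} (ha : |ta ω ρ| ≤ 1 / 4) : max 1 ‖pi' ω ρ‖ = ρ + ta ω ρ := by
  have h := abs_le.1 ha
  have h2 : 1 - ρ ≤ ta ω ρ := le_max_right _ _
  have h3 : ‖ω‖ - 1 ≤ ta ω ρ := le_max_left _ _
  have h4 : 0 < 1 + ta ω ρ := by linarith
  rw [pi', max_eq_left (by linarith : 1 / 2 ≤ 1 + ta ω ρ), norm_smul, Real.norm_eq_abs,
    abs_of_nonneg (div_nonneg (by linarith) h4.le)]
  rcases le_total (‖ω‖ - 1) (1 - ρ) with h1 | h1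
  · have e : ta ω ρ = 1 - ρ := max_eq_right h1
    have e' : ρ + ta ω ρ = 1 := by linarith
    rw [e', max_eq_left]
    rw [div_mul_eq_mul_div, div_le_one h4]
    linarith
  · have e : ta ω ρ = ‖ω‖ - 1 := max_eq_left h1
    have e' : ‖ω‖ = 1 + ta ω ρ := by linarith
    rw [e', div_mul_cancel₀ _ h4.ne', max_eq_right (by linarith)]

theorem pw_pi {ω : R2} {ρ : ℝ} (ha : |ta ω ρ| ≤ 1 / 4) : pw (pi' ω ρ) (ta ω ρ) = ω := by
  have h := abs_le.1 ha
  have h2 : 1 - ρ ≤ ta ω ρ := le_max_right _ _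
  rw [pw, max_pi ha, pi', max_eq_left (by linarith : 1 / 2 ≤ 1 + ta ω ρ), smul_smul]
  have : (1 + ta ω ρ) / (ρ + ta ω ρ) * ((ρ + ta ω ρ) / (1 + ta ω ρ)) = 1 := by
    have : 1 + ta ω ρ ≠ 0 := by linarith
    have : ρ + ta ω ρ ≠ 0 := by linarith
    field_simp
  rw [this, one_smul]

theorem pr_pi {ω : R2} {ρ : ℝ} (ha : |ta ω ρ| ≤ 1 / 4) : pr (pi' ω ρ) (ta ω ρ) = ρ := by
  rw [pr, max_pi ha]; ring

theorem cont_pw : Continuous fun x : R2 × ℝ => pw x.1 x.2 := by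
  unfold pw
  refine Continuous.smul (Continuous.div (continuous_const.add continuous_snd)
    (continuous_const.max continuous_fst.norm) fun x => ?_) continuous_fst
  exact (lt_max_of_lt_left one_pos).ne'

theorem cont_pr : Continuous fun x : R2 × ℝ => pr x.1 x.2 := by unfold pr; fun_prop

theorem cont_ta : Continuous fun x : R2 × ℝ => ta x.1 x.2 := by unfold ta; fun_prop

theorem cont_pi : Continuous fun x : R2 × ℝ => pi' x.1 x.2 := by
  unfold pi'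
  refine Continuous.smul (Continuous.div (continuous_snd.add cont_ta)
    ((continuous_const.add cont_ta).max continuous_const) fun x => ?_) continuous_fst
  exact (lt_max_of_lt_right (by norm_num)).ne'

theorem nz_of {z : R2} (h : 1 / 2 ≤ ‖z‖) : nz z = ‖z‖⁻¹ • z := by rw [nz, max_eq_left h]

theorem norm_nz' {z : R2} (h : 1 / 2 ≤ ‖z‖) : ‖nz z‖ = 1 := by
  rw [nz_of h, norm_smul, norm_inv, norm_norm, inv_mul_cancel₀ (by linarith)]

theorem smul_nz' {z : R2} (h : 1 / 2 ≤ ‖z‖) : ‖z‖ • nz z = z := by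
  rw [nz_of h, smul_smul, mul_inv_cancel₀ (by linarith), one_smul]

theorem nz_smul' {l : R2} (hl : ‖l‖ = 1) {a : ℝ} (h : 1 / 2 ≤ a) : nz (a • l) = l ∧ ‖a • l‖ = a := by
  have e : ‖a • l‖ = a := by rw [norm_smul, hl, mul_one, Real.norm_eq_abs, abs_of_nonneg (by linarith)]
  refine ⟨?_, e⟩
  rw [nz_of (by linarith), e, smul_smul, inv_mul_cancel₀ (by linarith), one_smul]

theorem cont_nz' : Continuous nz := by
  unfold nz
  refine Continuous.smul (Continuous.inv₀ (continuous_norm.max continuous_const) fun x => ?_)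
    continuous_id
  exact (lt_max_of_lt_right (by norm_num)).ne'

theorem nK (l : KK) : ‖l.1‖ = 1 := by simp

theorem abs_es {e : ℝ} (he : |e| ≤ 1 / 4) {s : ℝ} (h0 : 0 ≤ s) (h1 : s ≤ 1) : |e * s| ≤ 1 / 4 := by
  rw [abs_mul, abs_of_nonneg h0]
  nlinarith [abs_nonneg e]

end Pr

open Pr in
/-- a prism wall from a chart `Φ (surviving circle, cross section, height)` -/
def WD.prism {A G : Type} [TopologicalSpace A] (P : A → Prop) (t r : A → ℝ) (π : A → G)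
    (τ : R2 × R2 → G) (e c : ℝ) (Φ : KK × R2 × ℝ → A) (Ψ : A → R2 × R2 × ℝ) (hΦ : Continuous Φ)
    (hΨ : Continuous Ψ) (he : |e| ≤ 1 / 4) (e0 : e ≠ 0) (hc : 0 < c) (hc1 : c ≤ 1)
    (h1 : ∀ l ω ρ s, 0 ≤ s → s ≤ 1 → ta ω ρ = e * s →
      Ψ (Φ (l, ω, ρ)) = (l.1, ω, ρ) ∧ P (Φ (l, ω, ρ)) ∧ t (Φ (l, ω, ρ)) = s)
    (h2 : ∀ x, P x → t x < 1 → ∃ l ω ρ s, 0 ≤ s ∧ s ≤ 1 ∧ ta ω ρ = e * s ∧ Φ (l, ω, ρ) = x)
    (hr : ∀ l ω ρ, 1 ≤ ρ → r (Φ (l, ω, ρ)) = max 0 (c * ρ - 1))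
    (hπ : ∀ l m ρ, ‖m‖ = 1 → 1 < c * ρ → π (Φ (l, m, ρ)) = τ (l.1, m)) :
    WD (fun x : {x // P x} => t x.1) (fun x => r x.1) (fun x => π x.1) τ :=
  have hq : ∀ (v : VW) (s : I), ta (pw (c⁻¹ • v.2) (e * s)) (pr (c⁻¹ • v.2) (e * s)) = e * s :=
    fun _ s => ta_p _ (abs_es he s.2.1 s.2.2)
  have hk : Continuous fun y : VW × I =>
      Φ (y.1.1, pw (c⁻¹ • y.1.2) (e * y.2), pr (c⁻¹ • y.1.2) (e * y.2)) := by
    have h : Continuous fun y : VW × I => (c⁻¹ • y.1.2, e * (y.2 : ℝ)) := by fun_prop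
    exact hΦ.comp ((continuous_fst.comp continuous_fst).prodMk
      ((cont_pw.comp h).prodMk (cont_pr.comp h)))
  { κ := ⟨fun y => ⟨Φ (y.1.1, pw (c⁻¹ • y.1.2) (e * y.2), pr (c⁻¹ • y.1.2) (e * y.2)),
      (h1 _ _ _ _ y.2.2.1 y.2.2.2 (hq y.1 y.2)).2.1⟩, hk.subtype_mk _⟩
    emb := by
      have hg : Continuous fun x : {x // P x} => ((((Ψ x.1).1, c • pi' (Ψ x.1).2.1 (Ψ x.1).2.2),
          ta (Ψ x.1).2.1 (Ψ x.1).2.2 / e) : (R2 × R2) × ℝ) := by
        have h : Continuous fun x : {x // P x} => Ψ x.1 := hΨ.comp continuous_subtype_val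
        exact (h.fst.prodMk ((cont_pi.comp h.snd).const_smul c)).prodMk
          ((cont_ta.comp h.snd).div_const e)
      refine IsEmbedding.of_comp (hk.subtype_mk _) hg ?_
      have : IsEmbedding fun y : VW × I => (((y.1.1.1, y.1.2), (y.2 : ℝ)) : (R2 × R2) × ℝ) :=
        (IsEmbedding.subtypeVal.prodMap IsEmbedding.id).prodMap IsEmbedding.subtypeVal
      convert this using 1
      funext y
      simp only [Function.comp, ContinuousMap.coe_mk, (h1 _ _ _ _ y.2.2.1 y.2.2.2 (hq y.1 y.2)).1, hq,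
        pi_p _ (abs_es he y.2.2.1 y.2.2.2), smul_smul, mul_inv_cancel₀ hc.ne', one_smul,
        mul_div_cancel_left₀ _ e0]
    tκ := fun v s => (h1 _ _ _ _ s.2.1 s.2.2 (hq v s)).2.2
    sur := fun x hx => by
      obtain ⟨l, ω, ρ, s, s0, s1, hs, e1⟩ := h2 x.1 x.2 hx
      have ha : |ta ω ρ| ≤ 1 / 4 := hs ▸ abs_es he s0 s1
      refine ⟨(l, c • pi' ω ρ), ⟨s, s0, s1⟩, Subtype.ext ?_⟩
      change Φ (l, pw (c⁻¹ • c • pi' ω ρ) (e * s), pr (c⁻¹ • c • pi' ω ρ) (e * s)) = x.1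
      rw [smul_smul, inv_mul_cancel₀ hc.ne', one_smul, ← hs, pw_pi ha, pr_pi ha, e1]
    rκ := fun v => by
      change r (Φ (v.1, pw (c⁻¹ • v.2) (e * 0), pr (c⁻¹ • v.2) (e * 0))) = ht v.2
      rw [mul_zero, hr _ _ _ (by rw [pr, sub_zero]; exact le_max_left _ _), pr, sub_zero, ht,
        norm_smul, norm_inv, Real.norm_eq_abs, abs_of_pos hc, mul_max_of_nonneg _ _ hc.le, mul_one,
        ← mul_assoc, mul_inv_cancel₀ hc.ne', one_mul]
      rcases le_total c ‖v.2‖ with h | h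
      · rw [max_eq_right h]
      · rw [max_eq_left h, max_eq_left (by linarith), max_eq_left (by linarith)]
    πκ := fun v hv => by
      change π (Φ (v.1, pw (c⁻¹ • v.2) (e * 0), pr (c⁻¹ • v.2) (e * 0))) = _
      have e1 : ‖c⁻¹ • v.2‖ = c⁻¹ * ‖v.2‖ := by
        rw [norm_smul, norm_inv, Real.norm_eq_abs, abs_of_pos hc]
      have e2 : 1 ≤ c⁻¹ * ‖v.2‖ := by
        rw [← div_eq_inv_mul, one_le_div hc]; linarith
      have e3 : pw (c⁻¹ • v.2) (e * 0) = nz v.2 := by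
        rw [pw, e1, max_eq_right e2, nz_of (by linarith), smul_smul]
        congr 1
        have : ‖v.2‖ ≠ 0 := by linarith
        field_simp
        ring
      rw [e3, hπ _ _ _ (norm_nz' (by linarith))]
      rw [pr, e1, max_eq_right e2, mul_zero, sub_zero, ← mul_assoc, mul_inv_cancel₀ hc.ne', one_mul]
      exact hv }

end Crest.Agent.N233.Pc

end
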