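import Crest.Agent.N233.Pc.Ch
import Crest.Agent.N233.Ae.Q

/-!
# Row 233 (helper53): the Seifert pieces collapse onto their chosen walls
-/

set_option autoImplicit false
open Set unitInterval Topology

noncomputable section

namespace Crest.Agent.N233.Pc

open Ae

/-- the compact part -/
def AS (n : ℕ) (ty : JS n → Bool) (a : ℝ) : Set (ES n ty) := {x | ht x.1.2 ≤ a}

/-- the walls -/
def DS (n : ℕ) (ty : JS n → Bool) (j : JS n) : Set (ES n ty) := {x | tS n ty x.1 j = 0}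

namespace QS

variable {n : ℕ} {ty : JS n → Bool} {j : JS n} {x : R2 × R2} {a : ℝ}

theorem c_pos (n : ℕ) : (0 : ℝ) < 4 * n + 4 := by positivity

theorem d_out (u : R2) : 0 ≤ dS n (.inr true) u ↔ ‖u‖ ≤ 2 * n + 2 := by
  rw [dS, sub_nonneg, div_le_one (by positivity)]

theorem out_iff : 0 ≤ tS n ty x (.inr true) ↔
    ‖x.1‖ ≤ 2 * n + 2 ∧ (ty (.inr true) = false → 1 / 2 ≤ ‖x.2‖) := by
  rw [tS, if_pos rfl, mul_nonneg_iff_of_pos_left (c_pos n)]
  cases ty (.inr true)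
  · simp only [Bool.false_eq_true, if_false, le_min_iff, d_out, forall_const]
    exact and_congr_right fun _ => ⟨fun h => by linarith, fun h => by linarith⟩
  · simp [d_out]

theorem ne_iff (h : j ≠ .inr true) :
    0 ≤ tS n ty x j ↔ 0 ≤ dS n j x.1 ∨ (ty j = false ∧ ‖x.2‖ ≤ 1) := by
  rw [tS, if_neg h, mul_nonneg_iff_of_pos_left four_pos]
  cases ty j <;> simp

theorem ok_shrink (x : ES n ty) {z : R2} (h : ‖z‖ ≤ ‖x.1.2‖)
    (h' : ty (.inr true) = false → 1 / 2 ≤ ‖z‖) (j : JS n) : 0 ≤ tS n ty (x.1.1, z) j := by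
  by_cases e : j = .inr true
  · rw [e]; exact out_iff.2 ⟨(out_iff.1 (x.2 _)).1, h'⟩
  · exact (ne_iff e).2 (((ne_iff e).1 (x.2 j)).imp_right fun k => ⟨k.1, h.trans k.2⟩)

theorem ok_zero (ho : ty (.inr true) = true) (hs : ∀ i, ty (.inl i) = false) {u : R2}
    (h : ‖u‖ ≤ 2 * n + 2) (h' : ty (.inr false) = true → 1 ≤ ‖u‖) (j : JS n) :
    0 ≤ tS n ty (u, 0) j := by
  rcases j with i | _ | _
  · exact (ne_iff (by simp)).2 (Or.inr ⟨hs i, by simp⟩)
  · refine (ne_iff (by simp)).2 ?_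
    cases e : ty (.inr false)
    · exact Or.inr ⟨rfl, by simp⟩
    · exact Or.inl (sub_nonneg.2 (h' e))
  · exact out_iff.2 ⟨h, fun e => by simp [ho] at e⟩

theorem le_out (x : ES n ty) : ‖x.1.1‖ ≤ 2 * n + 2 := (out_iff.1 (x.2 _)).1

theorem one_le (hc : ty (.inr false) = true) (x : ES n ty) : 1 ≤ ‖x.1.1‖ :=
  ((ne_iff (by simp)).1 (x.2 (.inr false))).elim sub_nonneg.1 fun k => by simp [hc] at k

theorem mem_cen (hc : ty (.inr false) = true) {x : ES n ty} :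
    x ∈ DS n ty (.inr false) ↔ ‖x.1.1‖ = 1 := by
  simp [DS, tS, hc, dS, sub_eq_zero]

theorem ht_mono {z z' : R2} (h : ‖z‖ ≤ ‖z'‖) : ht z ≤ ht z' :=
  max_le_max le_rfl (sub_le_sub_right h _)

theorem norm_sm (t : I) (z : R2) : ‖(1 - t : ℝ) • z‖ ≤ ‖z‖ := by
  rw [norm_smul, Real.norm_of_nonneg (sub_nonneg.2 t.2.2)]
  exact mul_le_of_le_one_left (norm_nonneg _) (by linarith [t.2.1])

theorem rad {z : R2} (h : 1 / 2 ≤ ‖z‖) (t : I) {c : ℝ} (hc : 0 ≤ c) :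
    ‖(1 - t : ℝ) • z + (t * c : ℝ) • nz z‖ = (1 - t) * ‖z‖ + t * c := by
  have h1 := t.2.1
  have h2 : (0 : ℝ) ≤ 1 - t := sub_nonneg.2 t.2.2
  conv_lhs => rw [← smul_nz h, smul_smul, nz_smul_nz h h, ← add_smul]
  exact norm_smul_unit (norm_nz h) (by positivity)

variable {Y : Type} [TopologicalSpace Y]

/-- the zero section -/
def Z0 (n : ℕ) (ty : JS n → Bool) : Set (ES n ty) := {x | x.1.2 = 0}

theorem Z0_sub (ha : 0 ≤ a) : Z0 n ty ⊆ AS n ty a := fun x (hx : x.1.2 = 0) => by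
  show ht x.1.2 ≤ a
  rwa [hx, ht_eq_zero.2 (by simp)]

/-- shrinking the fibre -/
def sh (ho : ty (.inr true) = true) (q : ES n ty × I) : ES n ty :=
  ⟨(q.1.1.1, (1 - q.2 : ℝ) • q.1.1.2), ok_shrink q.1 (norm_sm _ _) fun e => by simp [ho] at e⟩

theorem sh_cont (ho : ty (.inr true) = true) : Continuous (sh ho) :=
  Continuous.subtype_mk (by fun_prop) _

theorem sh_mem (ho : ty (.inr true) = true) {x : ES n ty} (hx : x ∈ AS n ty a) (t : I) :
    sh ho (x, t) ∈ AS n ty a := (ht_mono (norm_sm _ _)).trans hx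

theorem sh_zero (ho : ty (.inr true) = true) (x : ES n ty) : sh ho (x, 0) = x :=
  Subtype.ext (by simp [sh])

theorem sh_one (ho : ty (.inr true) = true) (x : ES n ty) : (sh ho (x, 1)).1.2 = 0 := by simp [sh]

end QS

open QS

variable {n : ℕ} {ty : JS n → Bool} {a : ℝ} {Y : Type} [TopologicalSpace Y]

/-- (S1) the omitted type -/
theorem qS1 (h : ∀ j, ty j = false) (ha : 0 ≤ a) :
    Q Y (AS n ty a) (Rel (DS n ty) {.inr true}) := by
  have ho := h (.inr true)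
  have hz : ∀ x : ES n ty, 1 / 2 ≤ ‖x.1.2‖ := fun x => (out_iff.1 (x.2 _)).2 ho
  have h1 : ∀ (x : ES n ty) (t : I), 1 / 2 ≤ ‖(1 - t : ℝ) • x.1.2 + (t * (1 / 2) : ℝ) • nz x.1.2‖ ∧
      ‖(1 - t : ℝ) • x.1.2 + (t * (1 / 2) : ℝ) • nz x.1.2‖ ≤ ‖x.1.2‖ := fun x t => by
    rw [rad (hz x) t one_half_pos.le]
    have := hz x
    constructor <;> nlinarith [t.2.1, t.2.2]
  let r : ES n ty × I → ES n ty := fun q =>
    ⟨(q.1.1.1, (1 - q.2 : ℝ) • q.1.1.2 + (q.2 * (1 / 2) : ℝ) • nz q.1.1.2),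
      ok_shrink q.1 (h1 _ _).2 fun _ => (h1 _ _).1⟩
  have hD : ∀ x : ES n ty, x ∈ DS n ty (.inr true) ↔
      min (dS n (.inr true) x.1.1) (2 * ‖x.1.2‖ - 1) ≤ 0 := fun x => by
    have := x.2 (.inr true)
    simp only [DS, mem_setOf_eq, tS, if_true, ho, Bool.false_eq_true, if_false] at this ⊢
    rw [mul_eq_zero, or_iff_right (c_pos n).ne']
    exact ⟨le_of_eq, fun k => le_antisymm k ((mul_nonneg_iff_of_pos_left (c_pos n)).1 this)⟩
  have hn : ‖((1 / 2 : ℝ), (0 : ℝ))‖ = 1 / 2 := by norm_num [nrm]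
  let x₀ : ES n ty := ⟨(0, (1 / 2, 0)), fun j => by
    by_cases e : j = .inr true
    · rw [e]; exact out_iff.2 ⟨by rw [norm_zero]; positivity, fun _ => hn.ge⟩
    · exact (ne_iff e).2 (Or.inr ⟨h j, by rw [hn]; norm_num⟩)⟩
  have h0 : x₀ ∈ AS n ty a ∩ DS n ty (.inr true) :=
    ⟨(ht_eq_zero.2 (by rw [hn]; norm_num)).trans_le ha,
      (hD _).2 (min_le_of_right_le (by rw [hn]; norm_num))⟩
  refine (q_of_rel h0 fun x hx => Or.inr ⟨_, rfl, hx.2, h0.2⟩).deform inter_subset_left (r := r)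
    (Continuous.continuousOn (Continuous.subtype_mk (by fun_prop) _))
    (fun x hx t => (ht_mono (h1 x t).2).trans hx) (fun x _ => Or.inl (Subtype.ext (by simp [r])))
    (fun x hx => ⟨(ht_mono (h1 x 1).2).trans hx, (hD _).2 (min_le_of_right_le ?_)⟩) ?_
  · simp only [r, rad (hz x) 1 one_half_pos.le]; norm_num
  · rintro x - x' - ⟨_, rfl, k, k'⟩ t
    have key : ∀ y ∈ DS n ty (.inr true), r (y, t) ∈ DS n ty (.inr true) := fun y hy =>
      (hD _).2 ((min_le_min le_rfl (by have := (h1 y t).2; simp only [r]; linarith)).trans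
        ((hD y).1 hy))
    exact Or.inr ⟨_, rfl, key x k, key x' k'⟩

/-- (S2) the central wall is chosen -/
theorem qS2 (ho : ty (.inr true) = true) (hc : ty (.inr false) = true)
    (hs : ∀ i, ty (.inl i) = false) (ha : 0 ≤ a) : Q Y (AS n ty a) (Rel (DS n ty) {.inr false}) := by
  have hu : ∀ x : ES n ty, 1 / 2 ≤ ‖x.1.1‖ := fun x => by linarith [one_le hc x]
  have h1 : ∀ (x : ES n ty) (t : I), 1 ≤ ‖(1 - t : ℝ) • x.1.1 + (t * 1 : ℝ) • nz x.1.1‖ ∧
      ‖(1 - t : ℝ) • x.1.1 + (t * 1 : ℝ) • nz x.1.1‖ ≤ ‖x.1.1‖ := fun x t => by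
    rw [rad (hu x) t zero_le_one]
    have := one_le hc x
    constructor <;> nlinarith [t.2.1, t.2.2]
  let r : ES n ty × I → ES n ty := fun q =>
    ⟨((1 - q.2 : ℝ) • q.1.1.1 + (q.2 * 1 : ℝ) • nz q.1.1.1, 0),
      ok_zero ho hs ((h1 _ _).2.trans (le_out _)) fun _ => (h1 _ _).1⟩
  have hn : ‖((1 : ℝ), (0 : ℝ))‖ = 1 := by norm_num [nrm]
  let x₀ : ES n ty := ⟨((1, 0), 0), ok_zero ho hs (by rw [hn]; linarith [n.cast_nonneg (α := ℝ)])
    fun _ => hn.ge⟩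
  have h0 : x₀ ∈ Z0 n ty ∩ DS n ty (.inr false) := ⟨rfl, (mem_cen hc).2 hn⟩
  have q1 : Q Y (Z0 n ty) (Rel (DS n ty) {.inr false}) := by
    refine (q_of_rel h0 fun x hx => Or.inr ⟨_, rfl, hx.2, h0.2⟩).deform inter_subset_left (r := r)
      (Continuous.continuousOn (Continuous.subtype_mk (by fun_prop) _)) (fun _ _ _ => rfl)
      (fun x hx => Or.inl (Subtype.ext (Prod.ext (by simp [r]) (Eq.symm hx))))
      (fun x _ => ⟨rfl, (mem_cen hc).2 ?_⟩) ?_
    · simp only [r, rad (hu x) 1 zero_le_one]; norm_num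
    · rintro x - x' - ⟨_, rfl, k, k'⟩ t
      have key : ∀ y ∈ DS n ty (.inr false), r (y, t) ∈ DS n ty (.inr false) := fun y hy =>
        (mem_cen hc).2 (le_antisymm ((h1 y t).2.trans ((mem_cen hc).1 hy).le) (h1 y t).1)
      exact Or.inr ⟨_, rfl, key x k, key x' k'⟩
  refine q1.deform (Z0_sub ha) (sh_cont ho).continuousOn (fun x hx t => sh_mem ho hx t)
    (fun x _ => Or.inl (sh_zero ho x)) (fun x _ => sh_one ho x) ?_
  rintro x - x' - ⟨_, rfl, k, k'⟩ t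
  exact Or.inr ⟨_, rfl, (mem_cen hc).2 ((mem_cen hc (x := x)).1 k),
    (mem_cen hc).2 ((mem_cen hc (x := x')).1 k')⟩

/-- (S2') the side walls are null-homotopic -/
theorem nqS2 (ho : ty (.inr true) = true) (hc : ty (.inr false) = true)
    (hs : ∀ i, ty (.inl i) = false) (ha : 0 ≤ a) (R : ES n ty → ES n ty → Prop) (i : Fin n) :
    Nq Y (AS n ty a) R (AS n ty a ∩ DS n ty (.inl i)) := by
  have hn : ‖((0 : ℝ), (-1 : ℝ))‖ = 1 := by norm_num [nrm]
  have hn' : ‖((0 : ℝ), (-1 : ℝ))‖ ≤ 2 * n + 2 := by rw [hn]; linarith [n.cast_nonneg (α := ℝ)]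
  let x₀ : ES n ty := ⟨((0, -1), 0), ok_zero ho hs hn' fun _ => hn.ge⟩
  let f : ES n ty × I → R2 := fun q => (1 - q.2 : ℝ) • q.1.1.1 + (q.2 : ℝ) • ((0, -1) : R2)
  have hf : ∀ q, ‖f q‖ ≤ 2 * n + 2 := fun q => by
    have := (convex_closedBall (0 : R2) (2 * n + 2)) (mem_closedBall_zero_iff.2 (le_out q.1))
      (mem_closedBall_zero_iff.2 hn') (sub_nonneg.2 q.2.2.2) q.2.2.1 (sub_add_cancel _ _)
    exact mem_closedBall_zero_iff.1 this
  have hg : ∀ q : ES n ty × I, q.1.1.1.2 ≤ -1 → (f q).2 ≤ -1 := fun q hq => by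
    simp only [f, Prod.snd_add, Prod.smul_snd, smul_eq_mul]
    nlinarith [q.2.2.1, q.2.2.2]
  have m2 : (1 : ℝ) ≤ 2 * n + 2 := by linarith [n.cast_nonneg (α := ℝ)]
  have hk : ∀ q : ES n ty × I, 1 ≤ ‖((f q).1, min (f q).2 (-1))‖ ∧
      ‖((f q).1, min (f q).2 (-1))‖ ≤ 2 * n + 2 := fun q => by
    have h1 : max |(f q).1| |(f q).2| ≤ 2 * n + 2 := hf q
    rw [max_le_iff] at h1
    refine ⟨le_max_of_le_right (le_abs.2 (Or.inr (le_neg.1 (min_le_right _ _)))), max_le h1.1 ?_⟩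
    rcases min_choice (f q).2 (-1) with e | e <;> simp only [e]
    · exact h1.2
    · simpa using m2
  let r : ES n ty × I → ES n ty := fun q =>
    ⟨(((f q).1, min (f q).2 (-1)), 0), ok_zero ho hs (hk q).2 fun _ => (hk q).1⟩
  have n1 : Nq Y (AS n ty a) R {x | x.1.2 = 0 ∧ x.1.1.2 ≤ -1} := by
    refine (nq_of_rel (B := {x₀}) (Z0_sub ha (rfl : x₀.1.2 = 0))
      (singleton_subset_iff.2 (Z0_sub ha rfl)) fun x hx => Or.inl hx).deform
      (fun x hx => Z0_sub ha hx.1) (r := r)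
      (Continuous.continuousOn (Continuous.subtype_mk (by fun_prop) _))
      (fun _ _ _ => Z0_sub ha rfl) (fun x hx => Or.inl (Subtype.ext (Prod.ext ?_ hx.1.symm)))
      fun x _ => Subtype.ext (by simp [r, f, x₀])
    simp only [r, min_eq_left (hg (x, 0) hx.2)]
    simp [f]
  refine n1.deform inter_subset_left (sh_cont ho).continuousOn (fun x hx t => sh_mem ho hx.1 t)
    (fun x _ => Or.inl (sh_zero ho x)) fun x hx => ⟨sh_one ho x, ?_⟩
  have h1 := one_le hc x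
  have h2 : tS n ty x.1 (.inl i) = 0 := hx.2
  rw [tS, if_neg (by simp), hs, if_neg (by simp), mul_eq_zero, or_iff_right four_ne_zero] at h2
  have h3 : nS i (nz x.1.1) (2 * n + 2 - ‖x.1.1‖) - 1 ≤ 0 := (le_max_left _ _).trans h2.le
  have h4 : nb (nz x.1.1) ≤ 1 := (le_max_right _ _).trans (sub_nonpos.1 h3)
  have h5 := (bot_of_nb (norm_nz (by linarith)) h4).1
  have h6 := congrArg Prod.snd (smul_nz (z := x.1.1) (by linarith))
  rw [Prod.smul_snd, h5, smul_eq_mul] at h6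
  show x.1.1.2 ≤ -1
  linarith

/-- (S3) no wall is chosen -/
theorem qS3 (ho : ty (.inr true) = true) (hc : ty (.inr false) = false)
    (hs : ∀ i, ty (.inl i) = false) (ha : 0 ≤ a) : Q Y (AS n ty a) (Rel (DS n ty) ∅) := by
  have hc' : ∀ {p : Prop}, ty (.inr false) = true → p := fun e => by simp [hc] at e
  let x₀ : ES n ty := ⟨(0, 0), ok_zero ho hs (by rw [norm_zero]; positivity) hc'⟩
  let r : ES n ty × I → ES n ty := fun q =>
    ⟨((1 - q.2 : ℝ) • q.1.1.1, 0), ok_zero ho hs ((norm_sm _ _).trans (le_out _)) hc'⟩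
  have q1 : Q Y (Z0 n ty) (Rel (DS n ty) ∅) :=
    (q_of_rel (A := {x₀}) rfl fun x hx => Or.inl hx).deform
      (singleton_subset_iff.2 (rfl : x₀.1.2 = 0)) (r := r)
      (Continuous.continuousOn (Continuous.subtype_mk (by fun_prop) _)) (fun _ _ _ => rfl)
      (fun x hx => Or.inl (Subtype.ext (Prod.ext (by simp [r]) (Eq.symm hx))))
      (fun x _ => Subtype.ext (by simp [r, x₀])) fun _ _ _ _ ⟨_, k, _⟩ => k.elim
  exact q1.deform (Z0_sub ha) (sh_cont ho).continuousOn (fun x hx t => sh_mem ho hx t)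
    (fun x _ => Or.inl (sh_zero ho x)) (fun x _ => sh_one ho x) fun _ _ _ _ ⟨_, k, _⟩ => k.elim

/-- in a non-omitted piece all side walls are null-homotopic -/
theorem nqS (ho : ty (.inr true) = true) (hs : ∀ i, ty (.inl i) = false) (ha : 0 ≤ a) (i : Fin n) :
    Nq Y (AS n ty a) (Rel (DS n ty) ∅) (AS n ty a ∩ DS n ty (.inl i)) := by
  cases hc : ty (.inr false)
  · exact (qS3 ho hc hs ha).nq.mono Subset.rfl inter_subset_left fun _ _ _ _ k => k
  · exact nqS2 ho hc hs ha _ i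

end Crest.Agent.N233.Pc

end
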