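import Crest.Agent.N233.Pc.TriA

/-!
# Row 233 (helper14): push forward of weights, linear triangulations
-/

set_option autoImplicit false
open Set Topology

noncomputable section

namespace Crest.Agent.N233.Pc

section pu

variable {S S' S'' G : Type} [Fintype S] [NormedAddCommGroup G] [NormedSpace ℝ G]

theorem le_pu (c : S → S') {y : S → ℝ} (h : ∀ s, 0 ≤ y s) (s : S) : y s ≤ pu c y (c s) := by
  classical
  have := Finset.single_le_sum (f := fun t => if c t = c s then y t else 0)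
    (fun t _ => by split_ifs; exacts [h t, le_rfl]) (Finset.mem_univ s)
  simp only [if_true] at this
  unfold pu
  convert this

theorem pu_off' {c : S → S'} (y : S → ℝ) {s' : S'} (h : s' ∉ range c) : pu c y s' = 0 :=
  pu_eq_zero fun s _ e => h ⟨s, e⟩

theorem pu_ne (c : S → S') {y : S → ℝ} (h : ∀ s, 0 ≤ y s) (s' : S') :
    pu c y s' ≠ 0 ↔ s' ∈ c '' {s | y s ≠ 0} := Set.ext_iff.1 (supp_pu c h) s'

theorem pu_add (c : S → S') (y z : S → ℝ) : pu c (y + z) = pu c y + pu c z := by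
  funext s'
  simp only [pu, Pi.add_apply, ← Finset.sum_add_distrib]
  exact Finset.sum_congr rfl fun s _ => by split_ifs <;> simp

theorem pu_inj {c : S → S'} (hc : Function.Injective c) : Function.Injective (pu c) :=
  fun y z h => funext fun s => by rw [← pu_apply' hc y, h, pu_apply' hc]

theorem sum_pu_smul [Fintype S'] (c : S → S') (y : S → ℝ) (φ : S' → G) :
    ∑ s', pu c y s' • φ s' = ∑ s, y s • φ (c s) := rl_pu φ c y

theorem pu_Cn {Fc : Set S → Prop} {Fc' : Set S' → Prop} {c : S → S'} {y : S → ℝ} (hy : y ∈ Cn Fc)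
    (h : ∀ A, Fc A → Fc' (c '' A)) : pu c y ∈ Cn Fc' :=
  ⟨pu_nonneg c hy.1, by rw [supp_pu c hy.1]; exact h _ hy.2⟩

theorem pu_Dl [Fintype S'] {Fc : Set S → Prop} {Fc' : Set S' → Prop} {c : S → S'} {y : S → ℝ}
    (hy : y ∈ Dl Fc) (h : ∀ A, Fc A → Fc' (c '' A)) : pu c y ∈ Dl Fc' :=
  ⟨pu_Cn hy.1 h, by rw [sum_pu, hy.2]⟩

theorem rl_pair {G' : Type} [NormedAddCommGroup G'] [NormedSpace ℝ G'] (f : S → G) (g : S → G')
    (y : S → ℝ) : rl (fun s => (f s, g s)) y = (rl f y, rl g y) := by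
  ext <;> simp [rl, Prod.fst_sum, Prod.snd_sum]

theorem rl_fst {G' : Type} [NormedAddCommGroup G'] [NormedSpace ℝ G'] (f : S → G × G')
    (y : S → ℝ) : (rl f y).1 = rl (fun s => (f s).1) y := by simp [rl, Prod.fst_sum]

theorem rl_snd {G' : Type} [NormedAddCommGroup G'] [NormedSpace ℝ G'] (f : S → G × G')
    (y : S → ℝ) : (rl f y).2 = rl (fun s => (f s).2) y := by simp [rl, Prod.snd_sum]

theorem rl_const {y : S → ℝ} (h : ∑ s, y s = 1) (a : G) : rl (fun _ => a) y = a := by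
  rw [rl, ← Finset.sum_smul, h, one_smul]

theorem Dl.ne {Fc : Set S → Prop} {y : S → ℝ} (hy : y ∈ Dl Fc) : y ≠ 0 := by
  rintro rfl
  simpa using hy.2

theorem Dl.le_one {Fc : Set S → Prop} {y : S → ℝ} (hy : y ∈ Dl Fc) (s : S) : y s ≤ 1 :=
  hy.2 ▸ Finset.single_le_sum (fun t _ => hy.1.1 t) (Finset.mem_univ s)

theorem isClosed_Cn {Fc : Set S → Prop} (hd : ∀ A B : Set S, A ⊆ B → Fc B → Fc A) :
    IsClosed (Cn Fc) := by
  have : Cn Fc = ⋃ A ∈ {A | Fc A}, {y : S → ℝ | (∀ s, 0 ≤ y s) ∧ ∀ s, s ∉ A → y s = 0} := by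
    ext y
    simp only [mem_iUnion, mem_setOf_eq]
    exact ⟨fun h => ⟨_, h.2, h.1, fun s k => not_not.1 k⟩,
      fun ⟨A, a, b, c⟩ => ⟨b, hd _ _ (fun s k => by_contra fun k' => k (c s k')) a⟩⟩
  rw [this]
  refine (toFinite _).isClosed_biUnion fun A _ => ?_
  simp only [setOf_and, setOf_forall]
  exact (isClosed_iInter fun s => isClosed_le continuous_const (continuous_apply s)).inter
    (isClosed_iInter fun s => isClosed_iInter fun _ =>
      isClosed_eq (continuous_apply s) continuous_const)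

/-- weighted means -/
theorem le_mean {y φ : S → ℝ} (h : ∀ s, 0 ≤ y s) (h1 : ∑ s, y s = 1) {c : ℝ}
    (hc : ∀ s, y s ≠ 0 → c ≤ φ s) :
    c ≤ rl φ y ∧ (c < rl φ y ↔ ∃ s, y s ≠ 0 ∧ c < φ s) := by
  have e : rl φ y - c = ∑ s, y s * (φ s - c) := by
    simp only [mul_sub, Finset.sum_sub_distrib, ← Finset.sum_mul, h1, one_mul, rl, smul_eq_mul]
  have p : ∀ s, 0 ≤ y s * (φ s - c) := fun s => by
    by_cases k : y s = 0
    · simp [k]
    · exact mul_nonneg (h s) (sub_nonneg.2 (hc s k))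
  refine ⟨sub_nonneg.1 (e ▸ Finset.sum_nonneg fun s _ => p s), ?_⟩
  rw [← sub_pos, e, Finset.sum_pos_iff_of_nonneg fun s _ => p s]
  refine ⟨fun ⟨s, _, k⟩ => ⟨s, fun z => by simp [z] at k, ?_⟩, fun ⟨s, a, b⟩ =>
    ⟨s, Finset.mem_univ s, mul_pos ((h s).lt_of_ne' a) (sub_pos.2 b)⟩⟩
  by_contra w
  exact absurd k (not_lt.2 (mul_nonpos_of_nonneg_of_nonpos (h s) (sub_nonpos.2 (not_lt.1 w))))

theorem mean_le {y φ : S → ℝ} (h : ∀ s, 0 ≤ y s) (h1 : ∑ s, y s = 1) {c : ℝ}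
    (hc : ∀ s, y s ≠ 0 → φ s ≤ c) :
    rl φ y ≤ c ∧ (rl φ y < c ↔ ∃ s, y s ≠ 0 ∧ φ s < c) := by
  have := le_mean (φ := fun s => -φ s) h h1 (c := -c) fun s k => neg_le_neg (hc s k)
  have e : rl (fun s => -φ s) y = -rl φ y := by simp [rl]
  simpa only [e, neg_le_neg_iff, neg_lt_neg_iff] using this

end pu

namespace Tri

variable {S G : Type} [Fintype S] [NormedAddCommGroup G] [NormedSpace ℝ G] {Fc Fc' : Set S → Prop}
  {pos : S → G} {C C' : Set G}

theorem rl_mem (T : Tri Fc pos C) {y : S → ℝ} (hy : y ∈ Dl Fc) : rl pos y ∈ C := T.bij.mapsTo hy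

theorem isCompact (T : Tri Fc pos C) : IsCompact C :=
  T.bij.image_eq ▸ (isCompact_Dl T.down).image (continuous_rl pos)

/-- subcomplexes -/
theorem sub (T : Tri Fc pos C) (le : ∀ A, Fc' A → Fc A)
    (down : ∀ A B : Set S, A ⊆ B → Fc' B → Fc' A) (emp : Fc' ∅) (hC : C' ⊆ C)
    (h : ∀ y ∈ Dl Fc, rl pos y ∈ C' ↔ Fc' {s | y s ≠ 0}) : Tri Fc' pos C' := by
  have m : Dl Fc' ⊆ Dl Fc := fun y hy => ⟨⟨hy.1.1, le _ hy.1.2⟩, hy.2⟩
  refine ⟨down, emp, fun y hy => (h y (m hy)).2 hy.1.2, T.bij.injOn.mono m, fun x hx => ?_⟩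
  obtain ⟨y, hy, rfl⟩ := T.bij.surjOn (hC hx)
  exact ⟨y, ⟨⟨hy.1.1, (h y hy).1 hx⟩, hy.2⟩, rfl⟩

theorem congr (T : Tri Fc pos C) (h : C = C') : Tri Fc pos C' := h ▸ T

end Tri

/-! ### the circle and the interval -/

theorem KF_down (A B : Set (Fin 4)) (h : A ⊆ B) : KF B → KF A := fun ⟨i, k⟩ => ⟨i, h.trans k⟩

theorem rl_vx (m : Fin 4 → ℝ) :
    rl vx m = (-m 0 + m 1 + m 2 - m 3, -m 0 - m 1 + m 2 + m 3) := by
  ext <;> simp [rl, vx, Fin.sum_univ_four] <;> ring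

theorem Dl_KF {m : Fin 4 → ℝ} : m ∈ Dl KF ↔ (∀ q, 0 ≤ m q) ∧ m 0 + m 1 + m 2 + m 3 = 1 ∧
    ((m 2 = 0 ∧ m 3 = 0) ∨ (m 0 = 0 ∧ m 3 = 0) ∨ (m 0 = 0 ∧ m 1 = 0) ∨ (m 1 = 0 ∧ m 2 = 0)) := by
  have e : ∀ i : Fin 4, {s | m s ≠ 0} ⊆ {i, i + 1} ↔ m (i + 2) = 0 ∧ m (i + 3) = 0 := fun i => by
    refine ⟨fun h => ⟨by_contra fun k => ?_, by_contra fun k => ?_⟩, fun h s k => ?_⟩
    · have := h k
      simp only [mem_insert_iff, mem_singleton_iff] at this
      clear k h; revert i; decide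
    · have := h k
      simp only [mem_insert_iff, mem_singleton_iff] at this
      clear k h; revert i; decide
    · have a : s ≠ i + 2 := fun e => k (e ▸ h.1)
      have b : s ≠ i + 3 := fun e => k (e ▸ h.2)
      simp only [mem_insert_iff, mem_singleton_iff]
      clear k h
      revert s i; decide
  simp only [Dl, Cn, KF, mem_setOf_eq, e, Fin.sum_univ_four, Fin.exists_fin_succ, Fin.exists_fin_zero]
  constructor
  · rintro ⟨⟨a, b⟩, c⟩
    refine ⟨a, c, ?_⟩
    rcases b with b | b | b | b | b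
    exacts [.inl b, .inr (.inl b.symm), .inr (.inr (.inl b)), .inr (.inr (.inr b)), b.elim]
  · rintro ⟨a, c, b⟩
    refine ⟨⟨a, ?_⟩, c⟩
    rcases b with b | b | b | b
    exacts [.inl b, .inr (.inl b.symm), .inr (.inr (.inl b)), .inr (.inr (.inr (.inl b)))]

theorem triK : Tri KF vx (Metric.sphere (0 : R2) 1) := by
  refine ⟨KF_down, ⟨0, empty_subset _⟩, fun m hm => ?_, fun m hm m' hm' h => ?_, fun x hx => ?_⟩
  · obtain ⟨a, b, c⟩ := Dl_KF.1 hm
    have := a 0; have := a 1; have := a 2; have := a 3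
    rw [mem_sphere_zero_iff_norm, rl_vx, Prod.norm_def, Real.norm_eq_abs, Real.norm_eq_abs]
    refine le_antisymm (max_le (abs_le.2 ⟨?_, ?_⟩) (abs_le.2 ⟨?_, ?_⟩)) ?_
    any_goals (simp only; linarith)
    rcases c with c | c | c | c
    · exact le_max_of_le_right (le_abs.2 (.inr (by simp only; linarith [c.1, c.2])))
    · exact le_max_of_le_left (le_abs.2 (.inl (by simp only; linarith [c.1, c.2])))
    · exact le_max_of_le_right (le_abs.2 (.inl (by simp only; linarith [c.1, c.2])))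
    · exact le_max_of_le_left (le_abs.2 (.inr (by simp only; linarith [c.1, c.2])))
  · obtain ⟨a, b, c⟩ := Dl_KF.1 hm
    obtain ⟨a', b', c'⟩ := Dl_KF.1 hm'
    have := a 0; have := a 1; have := a 2; have := a 3
    have := a' 0; have := a' 1; have := a' 2; have := a' 3
    rw [rl_vx, rl_vx, Prod.mk.injEq] at h
    obtain ⟨h1, h2⟩ := h
    have : m 0 = m' 0 ∧ m 1 = m' 1 ∧ m 2 = m' 2 ∧ m 3 = m' 3 := by
      rcases c with ⟨c, d⟩ | ⟨c, d⟩ | ⟨c, d⟩ | ⟨c, d⟩ <;>
        rcases c' with ⟨c', d'⟩ | ⟨c', d'⟩ | ⟨c', d'⟩ | ⟨c', d'⟩ <;>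
        exact ⟨by linarith, by linarith, by linarith, by linarith⟩
    funext q
    fin_cases q
    exacts [this.1, this.2.1, this.2.2.1, this.2.2.2]
  · obtain ⟨x, y⟩ := x
    rw [mem_sphere_zero_iff_norm, Prod.norm_def, Real.norm_eq_abs, Real.norm_eq_abs] at hx
    have hx1 := abs_le.1 ((le_max_left _ _).trans hx.le)
    have hy1 := abs_le.1 ((le_max_right _ _).trans hx.le)
    simp only at hx1 hy1
    have key : ∀ m : Fin 4 → ℝ, (∀ q, 0 ≤ m q) → m 0 + m 1 + m 2 + m 3 = 1 →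
        ((m 2 = 0 ∧ m 3 = 0) ∨ (m 0 = 0 ∧ m 3 = 0) ∨ (m 0 = 0 ∧ m 1 = 0) ∨ (m 1 = 0 ∧ m 2 = 0)) →
        -m 0 + m 1 + m 2 - m 3 = x → -m 0 - m 1 + m 2 + m 3 = y → (x, y) ∈ rl vx '' Dl KF :=
      fun m a b c d e => ⟨m, Dl_KF.2 ⟨a, b, c⟩, by rw [rl_vx, d, e]⟩
    have c : x = 1 ∨ x = -1 ∨ y = 1 ∨ y = -1 := by
      rcases max_eq_iff.1 hx with ⟨k, -⟩ | ⟨k, -⟩ <;> rcases (abs_eq zero_le_one).1 k with k | k <;>
        simp only at k <;> simp [k]
    rcases c with rfl | rfl | rfl | rfl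
    · refine key ![0, (1 - y) / 2, (1 + y) / 2, 0] (fun q => ?_) (by simp; ring) (by simp)
        (by simp; ring) (by simp; ring)
      fin_cases q <;> simp <;> linarith
    · refine key ![(1 - y) / 2, 0, 0, (1 + y) / 2] (fun q => ?_) (by simp; ring) (by simp)
        (by simp; ring) (by simp; ring)
      fin_cases q <;> simp <;> linarith
    · refine key ![0, 0, (1 + x) / 2, (1 - x) / 2] (fun q => ?_) (by simp; ring) (by simp)
        (by simp; ring) (by simp; ring)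
      fin_cases q <;> simp <;> linarith
    · refine key ![(1 - x) / 2, (1 + x) / 2, 0, 0] (fun q => ?_) (by simp; ring) (by simp)
        (by simp; ring) (by simp; ring)
      fin_cases q <;> simp <;> linarith

theorem IF_down (n : ℕ) (A B : Set (Fin (2 * n + 2))) (h : A ⊆ B) : IF n B → IF n A :=
  fun ⟨i, k⟩ => ⟨i, fun a ha => k a (h ha)⟩

/-- the hat functions invert the realisation of the path -/
theorem hat_eq {n : ℕ} {m : Fin (2 * n + 2) → ℝ} (hm : m ∈ Dl (IF n)) (a : Fin (2 * n + 2)) :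
    m a = max 0 (1 - |rl (fun b : Fin (2 * n + 2) => (b.1 : ℝ)) m - a.1|) := by
  classical
  obtain ⟨⟨h0, i, hi⟩, h1⟩ := hm
  set φ : Fin (2 * n + 2) → ℝ := fun b => (b.1 : ℝ) with hφ
  have lo := (le_mean (φ := φ) h0 h1 (c := i) fun s k => by
    rcases hi s k with e | e <;> simp [hφ, e]).1
  have up := (mean_le (φ := φ) h0 h1 (c := i + 1) fun s k => by
    rcases hi s k with e | e <;> simp [hφ, e]).1
  have one : ∀ ψ : Fin (2 * n + 2) → ℝ, (∀ s, m s ≠ 0 → ψ s = if s = a then 1 else 0) →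
      rl ψ m = m a := fun ψ hψ => by
    rw [rl, Finset.sum_eq_single a (fun s _ k => by
      by_cases z : m s = 0
      · simp [z]
      · simp [hψ s z, k]) (by simp)]
    by_cases z : m a = 0
    · simp [z]
    · simp [hψ a z]
  have aff : ∀ u v : ℝ, rl (fun s => u * φ s + v) m = u * rl φ m + v := fun u v => by
    simp only [rl, smul_eq_mul, mul_add, Finset.sum_add_distrib, ← Finset.sum_mul, h1, one_mul,
      Finset.mul_sum]
    exact congrArg (· + v) (Finset.sum_congr rfl fun s _ => by ring)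
  by_cases e : a.1 = i
  · have := one (fun s => -1 * φ s + (i + 1)) fun s k => by
      rcases hi s k with z | z
      · simp [hφ, z, Fin.ext_iff, e]
      · simp [hφ, z, Fin.ext_iff, e]
    rw [aff] at this
    rw [e, abs_of_nonneg (by linarith), max_eq_right (by linarith)]
    linarith
  by_cases e' : a.1 = i + 1
  · have := one (fun s => 1 * φ s + -i) fun s k => by
      rcases hi s k with z | z
      · simp [hφ, z, Fin.ext_iff, e']
      · simp [hφ, z, Fin.ext_iff, e']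
    rw [aff] at this
    rw [e', Nat.cast_succ, abs_of_nonpos (by linarith), max_eq_right (by linarith)]
    linarith
  have z : m a = 0 := by_contra fun k => (hi a k).elim e e'
  rw [z, max_eq_left]
  rcases (by omega : a.1 + 1 ≤ i ∨ i + 2 ≤ a.1) with k | k
  · have : (a.1 : ℝ) + 1 ≤ i := by exact_mod_cast k
    linarith [le_abs_self (rl φ m - a.1)]
  · have : (i : ℝ) + 2 ≤ a.1 := by exact_mod_cast k
    linarith [neg_abs_le (rl φ m - a.1)]

theorem triI (n : ℕ) :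
    Tri (IF n) (fun b : Fin (2 * n + 2) => (b.1 : ℝ)) (Icc 0 (2 * n + 1)) := by
  classical
  refine ⟨IF_down n, ⟨0, by simp⟩, fun m hm => ⟨?_, ?_⟩, fun m hm m' hm' h => ?_, fun x hx => ?_⟩
  · exact (le_mean hm.1.1 hm.2 fun s _ => Nat.cast_nonneg _).1
  · exact (mean_le hm.1.1 hm.2 fun s _ => by
      have : s.1 ≤ 2 * n + 1 := by have := s.2; omega
      exact_mod_cast this).1
  · funext a
    rw [hat_eq hm, hat_eq hm', h]
  · obtain ⟨i, hi, a, b⟩ : ∃ i : ℕ, i ≤ 2 * n ∧ (i : ℝ) ≤ x ∧ x ≤ i + 1 := by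
      by_cases k : x < 2 * n + 1
      · refine ⟨⌊x⌋₊, ?_, Nat.floor_le hx.1, (Nat.lt_floor_add_one x).le⟩
        have : ⌊x⌋₊ < 2 * n + 1 := (Nat.floor_lt hx.1).2 (by exact_mod_cast k)
        omega
      · exact ⟨2 * n, le_rfl, by push_cast; linarith, by push_cast; exact hx.2⟩
    set p : Fin (2 * n + 2) := ⟨i, by omega⟩
    set q : Fin (2 * n + 2) := ⟨i + 1, by omega⟩
    refine ⟨Pi.single p (i + 1 - x) + Pi.single q (x - i), ⟨⟨fun s => add_nonneg ?_ ?_, i,
      fun s k => by_contra fun w => k ?_⟩, ?_⟩, ?_⟩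
    · rw [Pi.single_apply]; split_ifs <;> linarith
    · rw [Pi.single_apply]; split_ifs <;> linarith
    · rw [not_or] at w
      rw [Pi.add_apply, Pi.single_eq_of_ne fun e => w.1 (by rw [e]),
        Pi.single_eq_of_ne fun e => w.2 (by rw [e]), add_zero]
    · simp [Finset.sum_add_distrib]
    · simp only [rl, Pi.add_apply, Finset.sum_add_distrib, smul_eq_mul, add_mul,
        Pi.single_apply, ite_mul, zero_mul, Finset.sum_ite_eq', Finset.mem_univ, if_true, p, q]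
      push_cast
      ring

end Crest.Agent.N233.Pc

end
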